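import Crest.Agent.R244.Defs

/-! Row 244: local flows depend differentiably on the initial condition. -/

set_option autoImplicit false

open Set Filter
open scoped ContDiff Topology

namespace Crest.Agent.R244

open Crest.GeometryTopology.CoordMetric Crest.GeometryTopology.ChartCurvature
  Crest.GeometryTopology.Geodesic

open Metric ODE in
open scoped NNReal in
/-- Picard–Lindelöf with the information that the solutions stay in the ball. -/
theorem ode_pl {E : Type*} [NormedAddCommGroup E] [NormedSpace ℝ E] [CompleteSpace E]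
    {f : ℝ → E → E} {tmin tmax : ℝ} {t₀ : Icc tmin tmax} {x₀ : E} {a r L K : ℝ≥0}
    (hf : IsPicardLindelof f t₀ x₀ a r L K) :
    ∃ α : E → ℝ → E, (∀ x ∈ closedBall x₀ r, α x t₀ = x ∧ (∀ t, α x t ∈ closedBall x₀ a) ∧
      ∀ t ∈ Icc tmin tmax, HasDerivWithinAt (α x) (f t (α x t)) (Icc tmin tmax) t) ∧
      ∃ L' : ℝ≥0, ∀ t ∈ Icc tmin tmax, LipschitzOnWith L' (α · t) (closedBall x₀ r) := by
  classical
  have (x) (hx : x ∈ closedBall x₀ r) := FunSpace.exists_isFixedPt_next hf hx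
  choose α hα using this
  set α' := fun (x : E) ↦ if hx : x ∈ closedBall x₀ r then
    α x hx |>.compProj else 0 with hα'
  refine ⟨α', fun x hx ↦ ⟨?_, fun t ↦ ?_, fun t ht ↦ ?_⟩, ?_⟩
  · rw [hα']
    beta_reduce
    rw [dif_pos hx, FunSpace.compProj_val, ← hα, FunSpace.next_apply₀]
  · rw [hα']
    beta_reduce
    rw [dif_pos hx]
    exact (α x hx).compProj_mem_closedBall hf.mul_max_le
  · rw [hα']
    beta_reduce
    rw [dif_pos hx, FunSpace.compProj_apply]
    apply hasDerivWithinAt_picard_Icc t₀.2 hf.continuousOn_uncurry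
      (α x hx |>.continuous_compProj.continuousOn)
      (fun _ ht' ↦ α x hx |>.compProj_mem_closedBall hf.mul_max_le)
      x ht |>.congr_of_mem _ ht
    intro t' ht'
    nth_rw 1 [← hα]
    rw [FunSpace.compProj_of_mem ht', FunSpace.next_apply]
  · obtain ⟨L', h⟩ := FunSpace.exists_forall_closedBall_funSpace_dist_le_mul hf
    refine ⟨L', fun t ht ↦ LipschitzOnWith.of_dist_le_mul fun x hx y hy ↦ ?_⟩
    simp_rw [hα']
    rw [dif_pos hx, dif_pos hy, FunSpace.compProj_apply, FunSpace.compProj_apply,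
      ← FunSpace.toContinuousMap_apply_eq_apply, ← FunSpace.toContinuousMap_apply_eq_apply]
    have : Nonempty (Icc tmin tmax) := ⟨t₀⟩
    apply ContinuousMap.dist_le_iff_of_nonempty.mp
    exact h x y hx hy (α x hx) (α y hy) (hα x hx) (hα y hy)

theorem ode_gronwall_right {E : Type*} [NormedAddCommGroup E] [NormedSpace ℝ E] {h h' : ℝ → E}
    {ε K η : ℝ} (hK : 0 ≤ K) (hη : 0 ≤ η) (hd : ∀ s ∈ Ioo (-ε) ε, HasDerivAt h (h' s) s)
    (h0 : h 0 = 0) (hb : ∀ s ∈ Ioo (-ε) ε, ‖h' s‖ ≤ K * ‖h s‖ + η) {s : ℝ} (hs0 : 0 ≤ s)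
    (hs : s < ε) : ‖h s‖ ≤ η * gronwallBound 0 K 1 ε := by
  have hsub : ∀ t ∈ Icc 0 s, t ∈ Ioo (-ε) ε := fun t ht =>
    ⟨by linarith [ht.1], lt_of_le_of_lt ht.2 hs⟩
  have h1 := norm_le_gronwallBound_of_norm_deriv_right_le (f := h) (f' := h') (δ := 0) (K := K)
    (ε := η) (a := 0) (b := s)
    (fun t ht => (hd t (hsub t ht)).continuousAt.continuousWithinAt)
    (fun t ht => (hd t (hsub t (Ico_subset_Icc_self ht))).hasDerivWithinAt) (by simp [h0])
    (fun t ht => hb t (hsub t (Ico_subset_Icc_self ht))) s ⟨hs0, le_rfl⟩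
  refine h1.trans ((gronwallBound_mono le_rfl hη hK (by linarith : s - 0 ≤ ε)).trans_eq ?_)
  unfold gronwallBound
  split_ifs <;> ring

theorem ode_gronwall {E : Type*} [NormedAddCommGroup E] [NormedSpace ℝ E] {h h' : ℝ → E}
    {ε K η : ℝ} (hK : 0 ≤ K) (hη : 0 ≤ η) (hd : ∀ s ∈ Ioo (-ε) ε, HasDerivAt h (h' s) s)
    (h0 : h 0 = 0) (hb : ∀ s ∈ Ioo (-ε) ε, ‖h' s‖ ≤ K * ‖h s‖ + η) {s : ℝ}
    (hs : s ∈ Ioo (-ε) ε) : ‖h s‖ ≤ η * gronwallBound 0 K 1 ε := by
  rcases le_total 0 s with hs0 | hs0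
  · exact ode_gronwall_right hK hη hd h0 hb hs0 hs.2
  · have hneg : ∀ t ∈ Ioo (-ε) ε, -t ∈ Ioo (-ε) ε := fun t ht =>
      ⟨by linarith [ht.2], by linarith [ht.1]⟩
    have := ode_gronwall_right (h := fun t => h (-t)) (h' := fun t => -h' (-t)) (ε := ε) hK hη
      (fun t ht => by
        have := (hd (-t) (hneg t ht)).scomp t (hasDerivAt_neg t)
        simpa [Function.comp_def] using this)
      (by simpa using h0) (fun t ht => by simpa using hb (-t) (hneg t ht))
      (s := -s) (by linarith) (by linarith [hs.1])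
    simpa using this

/-- local flow of a `C¹` vector field, with its strict derivative in the initial condition, which
solves the linearised equation. -/
theorem local_flow {F : Type} [NormedAddCommGroup F] [NormedSpace ℝ F] [FiniteDimensional ℝ F]
    {f : F → F} {O : Set F} (hO : IsOpen O) (hf : ContDiffOn ℝ 1 f O) {z₀ : F} (hz₀ : z₀ ∈ O) :
    ∃ ε > 0, ∃ U : Set F, IsOpen U ∧ z₀ ∈ U ∧ ∃ (φ : F → ℝ → F) (Ψ : F → ℝ → F →L[ℝ] F),
      ∀ z ∈ U, φ z 0 = z ∧ Ψ z 0 = ContinuousLinearMap.id ℝ F ∧ ∀ s ∈ Ioo (-ε) ε,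
        φ z s ∈ O ∧ HasDerivAt (φ z) (f (φ z s)) s ∧
        HasStrictFDerivAt (fun w => φ w s) (Ψ z s) z ∧
        HasDerivAt (Ψ z) ((fderiv ℝ f (φ z s)).comp (Ψ z s)) s := by
  have : CompleteSpace F := FiniteDimensional.complete ℝ F
  have : ProperSpace F := FiniteDimensional.proper_real F
  obtain ⟨a, ha, hB⟩ := Metric.nhds_basis_closedBall.mem_iff.1 (hO.mem_nhds hz₀)
  have hD : ContinuousOn (fderiv ℝ f) (Metric.closedBall z₀ a) :=
    (hf.continuousOn_fderiv_of_isOpen hO le_rfl).mono hB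
  have hdiff : ∀ x ∈ Metric.closedBall z₀ a, DifferentiableAt ℝ f x := fun x hx =>
    (hf.differentiableOn one_ne_zero).differentiableAt (hO.mem_nhds (hB hx))
  obtain ⟨K₀, hK₀⟩ := (isCompact_closedBall z₀ a).exists_bound_of_continuousOn hD
  obtain ⟨L₀, hL₀⟩ := (isCompact_closedBall z₀ a).exists_bound_of_continuousOn
    (hf.continuousOn.mono hB)
  have hK0 : 0 ≤ K₀ := (norm_nonneg _).trans (hK₀ z₀ (Metric.mem_closedBall_self ha.le))
  have hL0 : 0 ≤ L₀ := (norm_nonneg _).trans (hL₀ z₀ (Metric.mem_closedBall_self ha.le))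
  lift K₀ to NNReal using hK0 with K
  lift L₀ to NNReal using hL0 with L
  lift a to NNReal using ha.le with a
  have hlip : LipschitzOnWith K f (Metric.closedBall z₀ a) :=
    (convex_closedBall z₀ a).lipschitzOnWith_of_nnnorm_fderiv_le hdiff fun x hx => hK₀ x hx
  obtain ⟨ε, hε, hεL, hεK⟩ : ∃ ε : ℝ, 0 < ε ∧ L * ε ≤ a / 2 ∧ 2 * K * ε ≤ 1 := by
    refine ⟨min (a / 2 / (L + 1)) (1 / (2 * K + 1)), lt_min (by positivity) (by positivity), ?_, ?_⟩
    · calc (L : ℝ) * min (a / 2 / (L + 1)) (1 / (2 * K + 1)) ≤ (L + 1) * (a / 2 / (L + 1)) := by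
            gcongr
            · linarith
            · exact min_le_left _ _
        _ = a / 2 := by field_simp
    · calc 2 * (K : ℝ) * min (a / 2 / (L + 1)) (1 / (2 * K + 1))
          ≤ (2 * K + 1) * (1 / (2 * K + 1)) := by
            gcongr
            · linarith
            · exact min_le_right _ _
        _ = 1 := by field_simp
  have h0mem : (0 : ℝ) ∈ Icc (-ε) ε := ⟨by linarith, hε.le⟩
  have hPL : IsPicardLindelof (fun _ => f) (⟨0, h0mem⟩ : Icc (-ε) ε) z₀ a (a / 2) L K :=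
    IsPicardLindelof.of_time_independent hL₀ hlip (by
      simp only [sub_zero, zero_sub, neg_neg, max_self]
      push_cast
      linarith)
  obtain ⟨φ, hφ, L', hL'⟩ := ode_pl hPL
  have hΨ : ∀ z ∈ Metric.closedBall z₀ ((a / 2 : NNReal) : ℝ), ∃ Ψ : ℝ → F →L[ℝ] F,
      Ψ 0 = ContinuousLinearMap.id ℝ F ∧ ∀ t ∈ Icc (-ε) ε,
        HasDerivWithinAt Ψ ((fderiv ℝ f (φ z t)).comp (Ψ t)) (Icc (-ε) ε) t := by
    intro z hz
    obtain ⟨-, h2, h3⟩ := hφ z hz
    have hc : ContinuousOn (fun t => fderiv ℝ f (φ z t)) (Icc (-ε) ε) :=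
      hD.comp (fun t ht => (h3 t ht).continuousWithinAt) fun t _ => h2 t
    have hP : IsPicardLindelof (fun t (P : F →L[ℝ] F) => (fderiv ℝ f (φ z t)).comp P)
        (⟨0, h0mem⟩ : Icc (-ε) ε) (ContinuousLinearMap.id ℝ F) 1 0 (2 * K) K := by
      refine ⟨fun t _ => LipschitzOnWith.of_dist_le_mul fun P _ Q _ => ?_,
        fun P _ => hc.clm_comp continuousOn_const, fun t _ P hP => ?_, ?_⟩
      · rw [dist_eq_norm, dist_eq_norm, ← ContinuousLinearMap.comp_sub]
        exact (ContinuousLinearMap.opNorm_comp_le _ _).trans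
          (mul_le_mul_of_nonneg_right (hK₀ _ (h2 t)) (norm_nonneg _))
      · have h4 : ‖P‖ ≤ 2 := by
          have h5 := mem_closedBall_iff_norm.1 hP
          have h6 := norm_le_norm_sub_add P (ContinuousLinearMap.id ℝ F)
          have h7 : ‖ContinuousLinearMap.id ℝ F‖ ≤ 1 := ContinuousLinearMap.norm_id_le
          push_cast at h5
          linarith
        refine (ContinuousLinearMap.opNorm_comp_le _ _).trans ?_
        push_cast
        rw [mul_comm]
        exact mul_le_mul h4 (hK₀ _ (h2 t)) (norm_nonneg _) zero_le_two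
      · simp only [sub_zero, zero_sub, neg_neg, max_self]
        push_cast
        linarith
    exact hP.exists_eq_forall_mem_Icc_hasDerivWithinAt₀
  choose! Ψ hΨ0 hΨ using hΨ
  have hr : (0 : ℝ) < ((a / 2 : NNReal) : ℝ) := by push_cast; positivity
  have hder : ∀ w ∈ Metric.closedBall z₀ ((a / 2 : NNReal) : ℝ), ∀ t ∈ Ioo (-ε) ε,
      HasDerivAt (φ w) (f (φ w t)) t := fun w hw t ht =>
    ((hφ w hw).2.2 t (Ioo_subset_Icc_self ht)).hasDerivAt (Icc_mem_nhds ht.1 ht.2)
  have hderΨ : ∀ w ∈ Metric.closedBall z₀ ((a / 2 : NNReal) : ℝ), ∀ t ∈ Ioo (-ε) ε,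
      HasDerivAt (Ψ w) ((fderiv ℝ f (φ w t)).comp (Ψ w t)) t := fun w hw t ht =>
    (hΨ w hw t (Ioo_subset_Icc_self ht)).hasDerivAt (Icc_mem_nhds ht.1 ht.2)
  refine ⟨ε, hε, Metric.ball z₀ ((a / 2 : NNReal) : ℝ), Metric.isOpen_ball,
    Metric.mem_ball_self hr, φ, Ψ, fun z hz => ?_⟩
  have hz' := Metric.ball_subset_closedBall hz
  refine ⟨(hφ z hz').1, hΨ0 z hz', fun s hs => ⟨hB ((hφ z hz').2.1 s), hder z hz' s hs, ?_,
    hderΨ z hz' s hs⟩⟩
  rw [hasStrictFDerivAt_iff_isLittleO, Asymptotics.isLittleO_iff]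
  intro c hc
  have hC : 0 ≤ gronwallBound 0 K 1 ε := by
    have := gronwallBound_mono (δ := 0) (K := K) (ε := 1) le_rfl zero_le_one K.2 hε.le
    rwa [gronwallBound_x0] at this
  set C := gronwallBound 0 K 1 ε with hCdef
  have hη : 0 < c / ((L' + 1) * (C + 1)) := by positivity
  obtain ⟨δ, hδ, hδ'⟩ := Metric.uniformContinuousOn_iff.1
    ((isCompact_closedBall z₀ a).uniformContinuousOn_of_continuous hD) _ hη
  set η := c / ((L' + 1) * (C + 1)) with hηdef
  have hN : Metric.closedBall z₀ ((a / 2 : NNReal) : ℝ) ∩ Metric.ball z (δ / (L' + 1)) ∈ 𝓝 z :=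
    inter_mem (mem_of_superset (Metric.isOpen_ball.mem_nhds hz) Metric.ball_subset_closedBall)
      (Metric.ball_mem_nhds z (by positivity))
  have hclose : ∀ w ∈ Metric.closedBall z₀ ((a / 2 : NNReal) : ℝ) ∩ Metric.ball z (δ / (L' + 1)),
      ∀ t ∈ Ioo (-ε) ε, φ w t ∈ Metric.closedBall z₀ a ∩ Metric.ball (φ z t) δ := by
    intro w hw t ht
    refine ⟨(hφ w hw.1).2.1 t, ?_⟩
    have h1 := (hL' t (Ioo_subset_Icc_self ht)).dist_le_mul w hw.1 z hz'
    have h2 : dist w z < δ / (L' + 1) := hw.2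
    rw [lt_div_iff₀ (by positivity)] at h2
    have h3 : 0 ≤ dist w z := dist_nonneg
    rw [Metric.mem_ball]
    nlinarith
  filter_upwards [prod_mem_nhds hN hN] with p hp
  obtain ⟨w, w'⟩ := p
  obtain ⟨hw, hw'⟩ := hp
  simp only at hw hw' ⊢
  have key := ode_gronwall (h := fun t => φ w t - φ w' t - Ψ z t (w - w'))
    (h' := fun t => f (φ w t) - f (φ w' t) - fderiv ℝ f (φ z t) (Ψ z t (w - w')))
    (ε := ε) (K := K) (η := η * (L' * ‖w - w'‖)) K.2 (by positivity)
    (fun t ht => ((hder w hw.1 t ht).sub (hder w' hw'.1 t ht)).sub (by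
      simpa using (hderΨ z hz' t ht).clm_apply (hasDerivAt_const t (w - w'))))
    (by
      have e1 : φ w 0 = w := (hφ w hw.1).1
      have e2 : φ w' 0 = w' := (hφ w' hw'.1).1
      simp [e1, e2, hΨ0 z hz'])
    (fun t ht => by
      have h1 := ((convex_closedBall z₀ a).inter (convex_ball (φ z t) δ)
        ).norm_image_sub_le_of_norm_fderiv_le' (f := f) (φ := fderiv ℝ f (φ z t)) (C := η)
        (fun x hx => hdiff x hx.1)
        (fun x hx => by
          rw [← dist_eq_norm]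
          exact (hδ' x hx.1 _ ((hφ z hz').2.1 t) hx.2).le)
        (hclose w' hw' t ht) (hclose w hw t ht)
      have h2 : ‖φ w t - φ w' t‖ ≤ L' * ‖w - w'‖ := by
        have := (hL' t (Ioo_subset_Icc_self ht)).dist_le_mul w hw.1 w' hw'.1
        rwa [dist_eq_norm, dist_eq_norm] at this
      have h3 : f (φ w t) - f (φ w' t) - fderiv ℝ f (φ z t) (Ψ z t (w - w'))
          = fderiv ℝ f (φ z t) (φ w t - φ w' t - Ψ z t (w - w'))
            + (f (φ w t) - f (φ w' t) - fderiv ℝ f (φ z t) (φ w t - φ w' t)) := by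
        rw [map_sub (fderiv ℝ f (φ z t)) (φ w t - φ w' t)]
        abel
      rw [h3]
      refine (norm_add_le _ _).trans (add_le_add ?_ ?_)
      · exact (ContinuousLinearMap.le_opNorm _ _).trans
          (mul_le_mul_of_nonneg_right (hK₀ _ ((hφ z hz').2.1 t)) (norm_nonneg _))
      · exact h1.trans (mul_le_mul_of_nonneg_left h2 hη.le))
    hs
  refine key.trans ?_
  calc η * (L' * ‖w - w'‖) * C ≤ η * ((L' + 1) * ‖w - w'‖) * (C + 1) := by
        gcongr <;> linarith
    _ = c * ‖w - w'‖ := by rw [hηdef]; field_simp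

end Crest.Agent.R244
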