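import Crest.Agent.R244.Bridge1

/-! Row 244: the Riemannian metric of an atlas. -/

set_option autoImplicit false

open Set Filter Bundle
open scoped ContDiff Topology Manifold

namespace Crest.Agent.R244

open Crest.GeometryTopology.CoordMetric Crest.GeometryTopology.ChartCurvature
  Crest.GeometryTopology.Geodesic

/-- `bil` as a continuous bilinear map, explicitly. -/
noncomputable def bridge1b_B {n : ℕ} (g : Matrix (Fin n) (Fin n) ℝ) : E n →L[ℝ] E n →L[ℝ] ℝ :=
  ∑ i, ∑ j, g i j • (EuclideanSpace.proj i : E n →L[ℝ] ℝ).smulRight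
    (EuclideanSpace.proj j : E n →L[ℝ] ℝ)

theorem bridge1b_B_apply {n : ℕ} (g : Matrix (Fin n) (Fin n) ℝ) (u v : E n) :
    bridge1b_B g u v = bil g u v := by
  simp [bridge1b_B, bil, mul_assoc]

theorem bridge1b_contDiffAt {n : ℕ} {g : MetricField n} {U : Set (E n)} (hg : IsRiemannianOn g U)
    {x : E n} (hx : x ∈ U) : ContDiffAt ℝ ∞ (fun y => bridge1b_B (g y)) x := by
  unfold bridge1b_B
  exact ContDiffAt.sum fun i _ => ContDiffAt.sum fun j _ =>
    (ContinuousLinearMap.toSpanSingleton ℝ _).contDiff.contDiffAt.comp x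
      ((hg.contDiffOn i j).contDiffAt (hg.isOpen.mem_nhds hx))

theorem bridge1b_single {n : ℕ} (g : Matrix (Fin n) (Fin n) ℝ) (i j : Fin n) :
    bil g (EuclideanSpace.single i 1) (EuclideanSpace.single j 1) = g i j := by
  simp [bil, Pi.single_apply]

namespace RAtlas

variable {n : ℕ} {M : Type} [TopologicalSpace M] (A : RAtlas n M)

set_option backward.isDefEq.respectTransparency false in
theorem bridge1b_symm {x₀ x : M} (hx : x ∈ (A.chart (A.idx x₀)).source) (v : E n) :
    letI := A.chartedSpace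
    haveI := A.isManifold
    (trivializationAt (E n) (TangentSpace 𝓘(ℝ, E n)) x₀).symmL ℝ x v =
      fderiv ℝ (A.tr (A.idx x₀) (A.idx x)) (A.chart (A.idx x₀) x) v := by
  letI := A.chartedSpace
  haveI := A.isManifold
  rw [TangentBundle.symmL_trivializationAt_eq_core hx, tangentBundleCore_coordChange_achart]
  simp only [mfld_simps, fderivWithin_univ]
  rfl

set_option backward.isDefEq.respectTransparency false in
theorem bridge1b_mfderiv {x₀ : M} {y : E n} (hy : y ∈ (A.chart (A.idx x₀)).target) (v : E n) :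
    letI := A.chartedSpace
    mfderiv 𝓘(ℝ, E n) 𝓘(ℝ, E n) (chartAt (E n) x₀).symm y v =
      fderiv ℝ (A.tr (A.idx x₀) (A.idx ((A.chart (A.idx x₀)).symm y))) y v := by
  letI := A.chartedSpace
  haveI := A.isManifold
  have h : MDifferentiableAt 𝓘(ℝ, E n) 𝓘(ℝ, E n) (chartAt (E n) x₀).symm y :=
    mdifferentiableAt_atlas_symm (chart_mem_atlas _ x₀) hy
  rw [h.mfderiv]
  simp only [writtenInExtChartAt, mfld_simps, fderivWithin_univ]
  rfl

set_option backward.isDefEq.respectTransparency false in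
/-- the Riemannian metric defined by the atlas. -/
theorem exists_metric :
    letI := A.chartedSpace
    haveI := A.isManifold
    ∃ g : ContMDiffRiemannianMetric 𝓘(ℝ, E n) ∞ (E n) (fun x : M => TangentSpace 𝓘(ℝ, E n) x),
      ∀ x, EqOn (metricInChart g x) (A.G (A.idx x)) (A.chart (A.idx x)).target := by
  letI := A.chartedSpace
  haveI := A.isManifold
  refine ⟨{
    inner := fun x => (bridge1b_B (A.G (A.idx x) (A.chart (A.idx x) x)) : E n →L[ℝ] E n →L[ℝ] ℝ)
    symm := fun x v w => ?_
    pos := fun x v hv => ?_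
    isVonNBounded := fun x => ?_
    contMDiff := fun x₀ => ?_ }, fun x y hy => ?_⟩
  · exact (bridge1b_B_apply _ _ _).trans
      ((bil_comm (A.posDef (A.mem_idx x)) _ _).trans (bridge1b_B_apply _ _ _).symm)
  · exact (bil_self_pos (A.posDef (A.mem_idx x)) hv).trans_eq (bridge1b_B_apply _ _ _).symm
  · obtain ⟨c, hc, h⟩ := exists_norm_sq_le_bil (A.posDef (A.mem_idx x))
    change Bornology.IsVonNBounded ℝ
      {v : E n | bridge1b_B (A.G (A.idx x) (A.chart (A.idx x) x)) v v < 1}
    refine (NormedSpace.isVonNBounded_ball ℝ (E n) (c⁻¹ + 1)).subset fun v hv => ?_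
    have h1 := h v
    rw [mem_ofPred_eq, bridge1b_B_apply] at hv
    rw [mem_ball_zero_iff]
    have h2 : ‖v‖ ^ 2 < c⁻¹ := by
      rw [← mul_one c⁻¹, lt_inv_mul_iff₀ hc]
      linarith
    nlinarith [sq_nonneg (‖v‖ - 1), inv_pos.mpr hc]
  · rw [contMDiffAt_section]
    have h1 : ContMDiffAt 𝓘(ℝ, E n) 𝓘(ℝ, E n →L[ℝ] E n →L[ℝ] ℝ) ∞
        (fun x => bridge1b_B (A.G (A.idx x₀) (A.chart (A.idx x₀) x))) x₀ :=
      (bridge1b_contDiffAt (A.riem _) ((A.chart _).map_source (A.mem_idx x₀))).comp_contMDiffAt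
        (f := chartAt (E n) x₀) (contMDiffOn_chart.contMDiffAt (chart_source_mem_nhds _ x₀))
    refine h1.congr_of_eventuallyEq ?_
    filter_upwards [chart_source_mem_nhds (E n) x₀] with x hx
    ext v w
    rw [hom_trivializationAt_apply]
    rw [inCoordinates_apply_eq₂ (by simpa using hx) (by simpa using hx) (by simp)]
    rw [← Trivialization.symmL_apply (R := ℝ) _ (by simpa using hx),
      ← Trivialization.symmL_apply (R := ℝ) _ (by simpa using hx), A.bridge1b_symm hx,
      A.bridge1b_symm hx, bridge1b_B_apply, A.isom _ _ x hx (A.mem_idx x)]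
    simp only [Trivial.fiberBundle_trivializationAt', Trivial.linearMapAt_trivialization,
      LinearMap.id_coe, id_eq]
    exact bridge1b_B_apply _ _ _
  · ext i j
    simp only [metricInChart, Matrix.of_apply]
    rw [A.bridge1b_mfderiv hy, A.bridge1b_mfderiv hy, ← bridge1b_single (A.G (A.idx x) y)]
    have h1 := A.isom _ _ _ ((A.chart _).map_target hy) (A.mem_idx _)
      (EuclideanSpace.single i 1) (EuclideanSpace.single j 1)
    rw [(A.chart _).right_inv hy] at h1
    rw [h1]
    exact bridge1b_B_apply _ _ _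

end RAtlas

end Crest.Agent.R244
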