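import Crest.Agent.R244.Coord

/-! Row 244: the Riemannian atlas of a Riemannian manifold. -/

set_option autoImplicit false

open Set Filter Bundle
open scoped ContDiff Topology Manifold

namespace Crest.Agent.R244

open Crest.GeometryTopology.CoordMetric Crest.GeometryTopology.ChartCurvature
  Crest.GeometryTopology.Geodesic

section Aux

variable {n : ℕ} {M : Type} [TopologicalSpace M] [ChartedSpace (E n) M]
  [IsManifold 𝓘(ℝ, E n) ∞ M]
  (g : ContMDiffRiemannianMetric 𝓘(ℝ, E n) ∞ (E n) (fun x : M => TangentSpace 𝓘(ℝ, E n) x))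

theorem b3_bil_clm (B : E n →L[ℝ] E n →L[ℝ] ℝ) (u v : E n) :
    bil (Matrix.of fun i j => B (EuclideanSpace.single i 1) (EuclideanSpace.single j 1)) u v =
      B u v := by
  have h : ∀ w : E n, w = ∑ i, w i • EuclideanSpace.single i (1 : ℝ) := fun w => by
    simpa using ((EuclideanSpace.basisFun (Fin n) ℝ).sum_repr w).symm
  conv_rhs => rw [h u, h v]
  simp only [bil, Matrix.of_apply, map_sum, map_smul, _root_.sum_apply,
    _root_.smul_apply, smul_eq_mul, Finset.mul_sum]
  rw [Finset.sum_comm]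
  refine Finset.sum_congr rfl fun i _ => Finset.sum_congr rfl fun j _ => ?_
  ring

theorem b3_bil (x : M) (y u v : E n) :
    bil (metricInChart g x y) u v = g.inner ((chartAt (E n) x).symm y)
      (mfderiv 𝓘(ℝ, E n) 𝓘(ℝ, E n) (chartAt (E n) x).symm y u)
      (mfderiv 𝓘(ℝ, E n) 𝓘(ℝ, E n) (chartAt (E n) x).symm y v) := by
  let B : E n →L[ℝ] E n →L[ℝ] ℝ := g.inner ((chartAt (E n) x).symm y)
  let L : E n →L[ℝ] E n := mfderiv 𝓘(ℝ, E n) 𝓘(ℝ, E n) (chartAt (E n) x).symm y
  exact b3_bil_clm (B.bilinearComp L L) u v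

theorem b3_posDef (x : M) {y : E n} (hy : y ∈ (chartAt (E n) x).target) :
    (metricInChart g x y).PosDef := by
  refine Matrix.PosDef.of_dotProduct_mulVec_pos ?_ fun w hw => ?_
  · ext i j
    exact g.symm _ _ _
  · have h1 : star w ⬝ᵥ (metricInChart g x y).mulVec w =
        bil (metricInChart g x y) (WithLp.toLp 2 w) (WithLp.toLp 2 w) := by
      simp only [bil, dotProduct, Matrix.mulVec, star_trivial, Finset.mul_sum]
      refine Finset.sum_congr rfl fun i _ => Finset.sum_congr rfl fun j _ => ?_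
      ring
    rw [h1, b3_bil]
    refine g.pos _ _ fun h0 => hw ?_
    have hinj := (mdifferentiable_chart (I := 𝓘(ℝ, E n)) x).symm.mfderiv_injective hy
    have h2 : (WithLp.toLp 2 w : E n) = 0 := hinj (h0.trans (map_zero _).symm)
    simpa using h2

theorem b3_field (x : M) (e : E n) :
    ContMDiffOn 𝓘(ℝ, E n) (𝓘(ℝ, E n).prod 𝓘(ℝ, E n)) ∞
      (fun y => TotalSpace.mk' (E n) (E := fun x : M => TangentSpace 𝓘(ℝ, E n) x)
        ((chartAt (E n) x).symm y) (mfderiv 𝓘(ℝ, E n) 𝓘(ℝ, E n) (chartAt (E n) x).symm y e))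
      (chartAt (E n) x).target := by
  have h1 := (contMDiffOn_chart_symm (I := 𝓘(ℝ, E n)) (n := ∞) (x := x)).contMDiffOn_tangentMapWithin
    (m := ∞) (by simp) (chartAt (E n) x).open_target.uniqueMDiffOn
  have h2 : ContMDiff 𝓘(ℝ, E n) 𝓘(ℝ, E n).tangent ∞
      (fun y : E n => TotalSpace.mk' (E n) (E := fun x : E n => TangentSpace 𝓘(ℝ, E n) x) y e) :=
    (contMDiff_vectorSpace_iff_contDiff (V := fun _ => e)).2 contDiff_const
  refine (h1.comp h2.contMDiffOn fun y hy => hy).congr fun y hy => ?_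
  simp only [Function.comp_apply, tangentMapWithin]
  rw [mfderivWithin_of_isOpen (chartAt (E n) x).open_target hy]

theorem b3_contDiffOn (x : M) (i j : Fin n) :
    ContDiffOn ℝ ∞ (fun y => metricInChart g x y i j) (chartAt (E n) x).target := by
  rw [← contMDiffOn_iff_contDiffOn]
  intro y hy
  have h := ContMDiffWithinAt.clm_bundle_apply₂ (F₁ := E n) (F₂ := E n) (F₃ := ℝ)
    (E₃ := Bundle.Trivial M ℝ)
    (g.contMDiff.contMDiffAt.comp_contMDiffWithinAt y
      (contMDiffOn_chart_symm (I := 𝓘(ℝ, E n)) (n := ∞) (x := x) y hy))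
    (b3_field x (EuclideanSpace.single i 1) y hy) (b3_field x (EuclideanSpace.single j 1) y hy)
  simp only [contMDiffWithinAt_totalSpace] at h
  exact h.2

omit g in
theorem b3_smooth (i j x : M) (hi : x ∈ (chartAt (E n) i).source)
    (hj : x ∈ (chartAt (E n) j).source) :
    ContDiffAt ℝ ∞ (chartAt (E n) j ∘ (chartAt (E n) i).symm) (chartAt (E n) i x) := by
  rw [← contMDiffAt_iff_contDiffAt]
  refine ContMDiffAt.comp (I' := 𝓘(ℝ, E n)) _ ?_ (contMDiffAt_symm_of_mem_maximalAtlas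
    (IsManifold.chart_mem_maximalAtlas i) ((chartAt (E n) i).map_source hi))
  rw [(chartAt (E n) i).left_inv hi]
  exact contMDiffAt_of_mem_maximalAtlas (IsManifold.chart_mem_maximalAtlas j) hj

omit g in
theorem b3_chain (i j x : M) (hi : x ∈ (chartAt (E n) i).source)
    (hj : x ∈ (chartAt (E n) j).source) (u : E n) :
    (mfderiv 𝓘(ℝ, E n) 𝓘(ℝ, E n) (chartAt (E n) j).symm (chartAt (E n) j x)
      (fderiv ℝ (chartAt (E n) j ∘ (chartAt (E n) i).symm) (chartAt (E n) i x) u) : E n) =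
    mfderiv 𝓘(ℝ, E n) 𝓘(ℝ, E n) (chartAt (E n) i).symm (chartAt (E n) i x) u := by
  have h1 : MDifferentiableAt 𝓘(ℝ, E n) 𝓘(ℝ, E n) (chartAt (E n) i).symm (chartAt (E n) i x) :=
    (mdifferentiable_chart i).mdifferentiableAt_symm ((chartAt (E n) i).map_source hi)
  have h2 : MDifferentiableAt 𝓘(ℝ, E n) 𝓘(ℝ, E n) (chartAt (E n) j) x :=
    (mdifferentiable_chart j).mdifferentiableAt hj
  have h3 := mfderiv_comp_apply_of_eq _ h2 h1 ((chartAt (E n) i).left_inv hi) u
  rw [mfderiv_eq_fderiv] at h3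
  have h4 := (mdifferentiable_chart (I := 𝓘(ℝ, E n)) j).symm_comp_deriv hj
  have h5 := congrArg (fun L : E n →L[ℝ] E n =>
    L (mfderiv 𝓘(ℝ, E n) 𝓘(ℝ, E n) (chartAt (E n) i).symm (chartAt (E n) i x) u)) h4
  exact (congrArg _ h3).trans h5

theorem b3_inner_congr {x y : M} (h : x = y) (u v : E n) : g.inner x u v = g.inner y u v := by
  subst h; rfl

end Aux

/-- the Riemannian atlas of a Riemannian manifold. -/
theorem exists_atlas_of_metric {n : ℕ} {M : Type} [TopologicalSpace M] [ChartedSpace (E n) M]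
    [IsManifold 𝓘(ℝ, E n) ∞ M]
    (g : ContMDiffRiemannianMetric 𝓘(ℝ, E n) ∞ (E n) (fun x : M => TangentSpace 𝓘(ℝ, E n) x))
    (hg : HasNonposSectionalCurvature g) : ∃ A : RAtlas n M, A.NPC := by
  refine ⟨⟨M, chartAt (E n), metricInChart g, fun x => ⟨x, mem_chart_source _ x⟩,
    fun x => ⟨(chartAt (E n) x).open_target, b3_contDiffOn g x, fun y hy => b3_posDef g x hy⟩,
    b3_smooth, fun i j x hi hj u v => ?_⟩, fun x => ⟨x, mem_chart_source _ x, hg x⟩⟩
  rw [b3_bil, b3_bil, b3_chain i j x hi hj, b3_chain i j x hi hj]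
  exact b3_inner_congr g (((chartAt (E n) i).left_inv hi).trans
    ((chartAt (E n) j).left_inv hj).symm) _ _

end Crest.Agent.R244
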