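import Crest.Agent.R244.Defs

/-! Row 244: path lifting through a local homeomorphism when partial lifts cannot escape. -/

set_option autoImplicit false

open Set Filter
open scoped Topology

namespace Crest.Agent.R244

section Lift

variable {X M : Type} [TopologicalSpace X] [TopologicalSpace M] {p : X → M} {c : ℝ → M}
  {x₀ : X}

/-- `L` lifts `c` on `[0, T]`, starting at `x₀`. -/
def LiftOn (p : X → M) (c : ℝ → M) (x₀ : X) (T : ℝ) (L : ℝ → X) : Prop :=
  ContinuousOn L (Icc 0 T) ∧ L 0 = x₀ ∧ ∀ s ∈ Icc (0 : ℝ) T, p (L s) = c s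

omit [TopologicalSpace M] in
theorem LiftOn.mono {T T' : ℝ} {L : ℝ → X} (h : LiftOn p c x₀ T L) (hT : T' ≤ T) :
    LiftOn p c x₀ T' L :=
  ⟨h.1.mono (Icc_subset_Icc_right hT), h.2.1, fun s hs => h.2.2 s (Icc_subset_Icc_right hT hs)⟩

/-- extension of a lift through a chart of the local homeomorphism. -/
theorem LiftOn.extend {T T' : ℝ} {L : ℝ → X} (h : LiftOn p c x₀ T L) (h0 : 0 ≤ T) (hT : T ≤ T')
    (e : OpenPartialHomeomorph X M) (he : p = e) (hL : L T ∈ e.source)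
    (hc : ContinuousOn c (Icc T T')) (hm : ∀ s ∈ Icc T T', c s ∈ e.target) :
    ∃ L', LiftOn p c x₀ T' L' := by
  classical
  have hT0 : e.symm (c T) = L T := by
    rw [← h.2.2 T ⟨h0, le_rfl⟩, he, e.left_inv hL]
  refine ⟨fun s => if s ≤ T then L s else e.symm (c s), ?_, by simp [h0, h.2.1], ?_⟩
  · rw [← Icc_union_Icc_eq_Icc h0 hT]
    refine ContinuousOn.union_of_isClosed ?_ ?_ isClosed_Icc isClosed_Icc
    · exact h.1.congr fun s hs => by simp [hs.2]
    · refine (e.continuousOn_symm.comp hc hm).congr fun s hs => ?_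
      by_cases hs' : s ≤ T
      · have : s = T := le_antisymm hs' hs.1
        subst this
        simp [hT0]
      · simp [hs']
  · intro s hs
    by_cases hs' : s ≤ T
    · simpa [hs'] using h.2.2 s ⟨hs.1, hs'⟩
    · simp only [hs', if_false]
      rw [he]
      exact e.right_inv (hm s ⟨le_of_lt (not_le.1 hs'), hs.2⟩)

/-- path lifting when the end points of all partial lifts stay in a compact set. -/
theorem exists_liftOn [T2Space M] (hp : IsLocalHomeomorph p) (hc : ContinuousOn c (Icc 0 1))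
    (h0 : p x₀ = c 0) {K : Set X} (hK : IsCompact K)
    (hb : ∀ T ∈ Icc (0 : ℝ) 1, ∀ L, LiftOn p c x₀ T L → L T ∈ K) :
    ∃ L, LiftOn p c x₀ 1 L := by
  classical
  set S : Set ℝ := {T | ∃ L, LiftOn p c x₀ T L} with hS
  have hcl : IsClosed (S ∩ Icc 0 1) := by
    refine isClosed_of_closure_subset fun T hT => ?_
    have hTI : T ∈ Icc (0 : ℝ) 1 :=
      isClosed_Icc.closure_subset (closure_mono inter_subset_right hT)
    refine ⟨?_, hTI⟩
    -- choose lifts
    let Λ : ℝ → ℝ → X := fun t => if ht : t ∈ S then ht.choose else fun _ => x₀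
    have hΛ : ∀ t ∈ S, LiftOn p c x₀ t (Λ t) := fun t ht => by
      simp only [Λ, dif_pos ht]
      exact ht.choose_spec
    have : NeBot (𝓝[S ∩ Icc 0 1] T) := mem_closure_iff_nhdsWithin_neBot.1 hT
    have hle : map (fun t => Λ t t) (𝓝[S ∩ Icc 0 1] T) ≤ 𝓟 K := by
      rw [le_principal_iff, mem_map]
      filter_upwards [self_mem_nhdsWithin] with t ht
      exact hb t ht.2 _ (hΛ t ht.1)
    obtain ⟨W, -, hW⟩ := hK hle
    have hW' : MapClusterPt W (𝓝[S ∩ Icc 0 1] T) (fun t => Λ t t) := hW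
    have hcT : Tendsto c (𝓝[S ∩ Icc 0 1] T) (𝓝 (c T)) :=
      (hc T hTI).mono_left (nhdsWithin_mono _ inter_subset_right)
    have hpW : p W = c T := by
      have h1 : MapClusterPt (p W) (𝓝[S ∩ Icc 0 1] T) (p ∘ fun t => Λ t t) :=
        hW'.continuousAt_comp hp.continuous.continuousAt
      have h2 : Tendsto (p ∘ fun t => Λ t t) (𝓝[S ∩ Icc 0 1] T) (𝓝 (c T)) := by
        refine hcT.congr' ?_
        filter_upwards [self_mem_nhdsWithin] with t ht
        exact ((hΛ t ht.1).2.2 t ⟨ht.2.1, le_rfl⟩).symm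
      exact eq_of_nhds_neBot (ClusterPt.mono h1.clusterPt h2)
    obtain ⟨e, hWe, he⟩ := hp W
    have htar : c T ∈ e.target := by
      rw [← hpW, he]; exact e.map_source hWe
    have hev : ∀ᶠ s in 𝓝[Icc 0 1] T, c s ∈ e.target :=
      (hc T hTI).preimage_mem_nhdsWithin (e.open_target.mem_nhds htar)
    obtain ⟨δ, hδ, hδe⟩ := Metric.mem_nhdsWithin_iff.1 hev
    have hfr : ∃ᶠ t in 𝓝[S ∩ Icc 0 1] T, Λ t t ∈ e.source :=
      hW'.frequently (e.open_source.mem_nhds hWe)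
    have hev2 : ∀ᶠ t in 𝓝[S ∩ Icc 0 1] T, t ∈ Metric.ball T δ ∧ t ∈ S ∩ Icc 0 1 :=
      Filter.Eventually.and (mem_nhdsWithin_of_mem_nhds (Metric.ball_mem_nhds T hδ))
        self_mem_nhdsWithin
    obtain ⟨t, ht1, ht2, ht3, ht4⟩ := (hfr.and_eventually hev2).exists
    rcases le_total T t with hTt | hTt
    · exact ⟨Λ t, (hΛ t ht3).mono hTt⟩
    · have hsub : Icc t T ⊆ Icc 0 1 := Icc_subset_Icc ht4.1 hTI.2
      refine (hΛ t ht3).extend ht4.1 hTt e he ht1 (hc.mono hsub) fun s hs => hδe ⟨?_, hsub hs⟩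
      rw [Metric.mem_ball, Real.dist_eq, abs_lt] at ht2 ⊢
      constructor <;> linarith [hs.1, hs.2, ht2.1]
  have h0S : (0 : ℝ) ∈ S := ⟨fun _ => x₀, continuousOn_const, rfl, fun s hs => by
    have : s = 0 := le_antisymm hs.2 hs.1
    rw [this, h0]⟩
  refine hcl.mem_of_ge_of_forall_exists_gt h0S zero_le_one ?_
  rintro T ⟨⟨L, hL⟩, hT⟩
  obtain ⟨e, hWe, he⟩ := hp (L T)
  have hTI : T ∈ Icc (0 : ℝ) 1 := Ico_subset_Icc_self hT
  have htar : c T ∈ e.target := by
    rw [← hL.2.2 T ⟨hT.1, le_rfl⟩, he]; exact e.map_source hWe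
  have hev : ∀ᶠ s in 𝓝[Icc 0 1] T, c s ∈ e.target :=
    (hc T hTI).preimage_mem_nhdsWithin (e.open_target.mem_nhds htar)
  obtain ⟨δ, hδ, hδe⟩ := Metric.mem_nhdsWithin_iff.1 hev
  have h1 : T < min 1 (T + δ / 2) := lt_min hT.2 (by linarith)
  have hsub : Icc T (min 1 (T + δ / 2)) ⊆ Icc 0 1 := Icc_subset_Icc hT.1 (min_le_left _ _)
  refine ⟨min 1 (T + δ / 2), ?_, h1, min_le_left _ _⟩
  refine hL.extend hT.1 h1.le e he hWe (hc.mono hsub) fun s hs => hδe ⟨?_, hsub hs⟩
  rw [Metric.mem_ball, Real.dist_eq, abs_lt]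
  have := hs.2.trans (min_le_right _ _)
  constructor <;> linarith [hs.1]

end Lift

end Crest.Agent.R244
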