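import Crest.Agent.R244.Defs

/-! Row 244: a criterion for covering maps. -/

set_option autoImplicit false

open Set Filter
open scoped ContDiff Topology

namespace Crest.Agent.R244

open Crest.GeometryTopology.CoordMetric Crest.GeometryTopology.ChartCurvature
  Crest.GeometryTopology.Geodesic

/-- a local homeomorphism with enough local sections is a covering map. -/
theorem isCoveringMap_of_sections {X M : Type} [TopologicalSpace X] [T2Space X]
    [TopologicalSpace M] {p : X → M} (hp : IsLocalHomeomorph p)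
    (h : ∀ y : M, ∃ U : Set M, IsOpen U ∧ y ∈ U ∧ IsPreconnected U ∧ ∀ x, p x ∈ U →
      ∃ σ : M → X, ContinuousOn σ U ∧ σ (p x) = x ∧ ∀ z ∈ U, p (σ z) = z) :
    IsCoveringMap p := by
  intro y
  obtain ⟨U, hU, hyU, hc, hσ⟩ := h y
  choose σ hσc hσx hσp using hσ
  have uniq : ∀ x (hx : p x ∈ U) x' (hx' : p x' ∈ U), ∀ z ∈ U, σ x hx z = σ x' hx' z →
      U.EqOn (σ x hx) (σ x' hx') := fun x hx x' hx' z hz he =>
    (T2Space.isSeparatedMap p).eqOn_of_comp_eqOn hp.isLocallyInjective hc (hσc x hx) (hσc x' hx')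
      (fun w hw => (hσp x hx w hw).trans (hσp x' hx' w hw).symm) hz he
  rcases isEmpty_or_nonempty (p ⁻¹' {y}) with hE | hE
  · refine .of_preimage_eq_empty _ (hU.mem_nhds hyU) (eq_empty_of_forall_notMem fun x hx => ?_)
    exact hE.false ⟨σ x hx y, hσp x hx y hyU⟩
  have hmem : ∀ e : p ⁻¹' {y}, p e ∈ U := fun e => by
    rw [show p e = y from e.2]; exact hyU
  have hey : ∀ e : p ⁻¹' {y}, σ e (hmem e) y = e := fun e => by
    have h1 := hσx e (hmem e)
    rwa [show p e = y from e.2] at h1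
  let V : p ⁻¹' {y} → Set X := fun e => {x | p x ∈ U ∧ σ e (hmem e) (p x) = x}
  have hV : ∀ e, IsOpen (V e) := by
    intro e
    rw [isOpen_iff_mem_nhds]
    rintro x ⟨hx, hxe⟩
    obtain ⟨φ, hxφ, hφ⟩ := hp x
    have h1 : ContinuousAt (fun x' => σ e (hmem e) (p x')) x :=
      ((hσc e (hmem e)).continuousAt (hU.mem_nhds hx)).comp hp.continuous.continuousAt
    have h2 : φ.source ∈ 𝓝 (σ e (hmem e) (p x)) := by
      rw [hxe]; exact φ.open_source.mem_nhds hxφ
    filter_upwards [h1.preimage_mem_nhds h2, φ.open_source.mem_nhds hxφ,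
      (hU.preimage hp.continuous).mem_nhds hx] with x' h3 h4 h5
    refine ⟨h5, φ.injOn h3 h4 ?_⟩
    rw [← hφ]
    exact hσp e (hmem e) _ h5
  have hdisj : Pairwise (Function.onFun Disjoint V) := by
    intro e e' hne
    refine disjoint_left.2 fun x hx hx' => hne (Subtype.ext ?_)
    rw [← hey e, ← hey e']
    exact uniq _ _ _ _ _ hx.1 (hx.2.trans hx'.2.symm) hyU
  have hself : ∀ e : p ⁻¹' {y}, (e : X) ∈ V e := fun e => ⟨hmem e, hσx e (hmem e)⟩
  have : DiscreteTopology (p ⁻¹' {y}) := by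
    refine discreteTopology_iff_isOpen_singleton.2 fun e => ?_
    convert (hV e).preimage continuous_subtype_val using 1
    ext e'
    refine ⟨fun h' => by rw [mem_singleton_iff.1 h']; exact hself e, fun h' => ?_⟩
    by_contra hne
    exact disjoint_left.1 (hdisj hne) (hself e') h'
  have : Nonempty (M → X) := ⟨fun _ => (Classical.arbitrary (p ⁻¹' {y}) : X)⟩
  have hsurj : ∀ e, (V e).SurjOn p U := fun e z hz =>
    ⟨σ e (hmem e) z, ⟨by rw [hσp e (hmem e) z hz]; exact hz, by rw [hσp e (hmem e) z hz]⟩,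
      hσp e (hmem e) z hz⟩
  refine .of_trivialization (t := hU.trivializationDiscrete V U (fun e W hW => ⟨fun hWo =>
    (hWo.preimage hp.continuous).inter (hV e), fun hWo => ?_⟩) (fun e x hx x' hx' he => ?_)
    hsurj hdisj (fun x hx => ?_)) hyU
  · convert hp.isOpenMap _ hWo using 1
    ext z
    refine ⟨fun hz => ?_, ?_⟩
    · obtain ⟨x, hx, rfl⟩ := hsurj e (hW hz)
      exact ⟨x, ⟨hz, hx⟩, rfl⟩
    · rintro ⟨x, hx, rfl⟩
      exact hx.1
  · rw [← hx.2, ← hx'.2, he]
  · refine mem_iUnion.2 ⟨⟨σ x hx y, hσp x hx y hyU⟩, hx, ?_⟩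
    rw [uniq _ _ x hx y hyU (hey ⟨σ x hx y, hσp x hx y hyU⟩) hx]
    exact hσx x hx

end Crest.Agent.R244
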