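import Crest.Agent.R244.Trans

/-! Row 244: from Riemannian atlases to Mathlib manifolds. -/

set_option autoImplicit false

open Set Filter Bundle
open scoped ContDiff Topology Manifold

namespace Crest.Agent.R244

open Crest.GeometryTopology.CoordMetric Crest.GeometryTopology.ChartCurvature
  Crest.GeometryTopology.Geodesic

namespace RAtlas

variable {n : ℕ} {M : Type} [TopologicalSpace M] (A : RAtlas n M)

/-- the chart chosen at a point. -/
noncomputable def idx (x : M) : A.ι := (A.cover x).choose

theorem mem_idx (x : M) : x ∈ (A.chart (A.idx x)).source := (A.cover x).choose_spec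

/-- the charted space structure. -/
@[reducible] noncomputable def chartedSpace : ChartedSpace (E n) M where
  atlas := range A.chart
  chartAt x := A.chart (A.idx x)
  mem_chart_source x := A.mem_idx x
  chart_mem_atlas _ := mem_range_self _

theorem isManifold : @IsManifold ℝ _ _ _ _ _ _ 𝓘(ℝ, E n) ∞ M _ A.chartedSpace := by
  let := A.chartedSpace
  refine isManifold_of_contDiffOn _ _ _ ?_
  rintro _ _ ⟨i, rfl⟩ ⟨j, rfl⟩ y hy
  simp only [modelWithCornersSelf_coe, modelWithCornersSelf_coe_symm, Function.comp_id,
    Function.id_comp, preimage_id_eq, id_eq, range_id, inter_univ,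
    OpenPartialHomeomorph.trans_source, OpenPartialHomeomorph.symm_source, mem_inter_iff,
    mem_preimage] at hy ⊢
  have h := A.smooth i j _ ((A.chart i).map_target hy.1) hy.2
  rw [(A.chart i).right_inv hy.1] at h
  exact h.contDiffWithinAt

theorem isOrientable (hA : A.Oriented) :
    letI := A.chartedSpace
    haveI := A.isManifold
    IsOrientable n M := by
  let := A.chartedSpace
  have := A.isManifold
  refine ⟨range A.chart, IsManifold.subset_maximalAtlas, fun x => ⟨_, ⟨A.idx x, rfl⟩, A.mem_idx x⟩,
    ?_⟩
  rintro _ ⟨i, rfl⟩ _ ⟨j, rfl⟩ x hx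
  exact hA i j x hx.1 hx.2

end RAtlas

end Crest.Agent.R244
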