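import Crest.Agent.R244.Bridge1

/-! Row 244: transfer of the two properties between atlases and Mathlib manifolds. -/

set_option autoImplicit false

open Set Filter Bundle
open scoped ContDiff Topology Manifold

namespace Crest.Agent.R244

open Crest.GeometryTopology.CoordMetric Crest.GeometryTopology.ChartCurvature
  Crest.GeometryTopology.Geodesic

section Coordinates

variable {n : ℕ} {G g' : MetricField n} {U : Set (E n)}

theorem bridge2_jet {c : ℝ → E n} {t : ℝ} (hc : ContDiffAt ℝ ∞ c t) :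
    (∀ᶠ s in 𝓝 t, DifferentiableAt ℝ c s) ∧
      HasDerivAt (jet c) (deriv c t, deriv (deriv c) t) t := by
  have h2 : ContDiffAt ℝ 2 c t := hc.of_le (WithTop.coe_le_coe.2 le_top)
  refine ⟨(h2.eventually (by simp)).mono fun s hs => hs.differentiableAt (by norm_num), ?_⟩
  have h3 : ContDiffAt ℝ 1 (deriv c) t := h2.derivWithin (by norm_num)
  exact hasDerivAt_jet (h2.differentiableAt (by norm_num))
    (h3.differentiableAt (by norm_num)).hasDerivAt

theorem bridge2_geo {c : ℝ → E n} {t : ℝ} (hg : g' =ᶠ[𝓝 (c t)] G) (hc : ContDiffAt ℝ ∞ c t)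
    (h : GeodesicEqAt g' c t) : HasDerivAt (jet c) (spray G (jet c t)) t := by
  have h1 := (bridge2_jet hc).2
  rw [geodesicEqAt_iff] at h
  rw [h, Gam_congr hg] at h1
  exact h1

theorem bridge2_jac (hG : IsRiemannianOn G U) {c ξ ξ' : ℝ → E n} {t : ℝ} (ht : c t ∈ U)
    (hg : g' =ᶠ[𝓝 (c t)] G) (hc : HasDerivAt (jet c) (spray G (jet c t)) t)
    (hξ : ContDiffAt ℝ ∞ ξ t) (he : ξ' =ᶠ[𝓝 t] ξ) (h : JacobiEqAt g' c ξ' t) :
    HasDerivAt (jet ξ) (fderiv ℝ (spray G) (jet c t) (jet ξ t)) t := by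
  have h1 := (bridge2_jet hξ).2
  have h2 := hasDerivAt_cov hG ht hc h1
  have hcont : ContinuousAt c t := (jet_fst hc).1.continuousAt
  have h3 : cov g' c ξ' =ᶠ[𝓝 t] cov G c ξ := by
    filter_upwards [he, he.deriv, hcont.eventually hg.eventually_nhds] with s e1 e2 e3
    unfold cov
    rw [e1, e2, Gam_congr e3]
  rw [jacobiEqAt_iff] at h
  have h4 : cov g' c (cov g' c ξ') t =
      deriv (cov G c ξ) t + Gam G (c t) (deriv c t) (cov G c ξ t) := by
    show deriv (cov g' c ξ') t + Gam g' (c t) (deriv c t) (cov g' c ξ' t) = _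
    rw [h3.deriv_eq, h3.eq_of_nhds, Gam_congr hg]
  rw [h4, h2.deriv, Rv_congr hg, he.eq_of_nhds] at h
  have h5 : deriv (deriv ξ) t = (fderiv ℝ (spray G) (jet c t) (jet ξ t)).2 := by
    have := congrArg (fun z => z + Rv G (c t) (ξ t) (deriv c t) +
      (fderiv ℝ (spray G) (jet c t) (jet ξ t)).2) h
    rw [neg_add_cancel, zero_add] at this
    rw [← this]; abel
  have h6 : deriv ξ t = (fderiv ℝ (spray G) (jet c t) (jet ξ t)).1 := by
    have := fderiv_spray hG ht (deriv c t) (ξ t) (deriv ξ t)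
    exact (congrArg Prod.fst this).symm
  rw [h5] at h1
  rw [show fderiv ℝ (spray G) (jet c t) (jet ξ t) =
    (deriv ξ t, (fderiv ℝ (spray G) (jet c t) (jet ξ t)).2) from Prod.ext h6.symm rfl]
  exact h1

end Coordinates

section Manifold

variable {n : ℕ} {M : Type} [TopologicalSpace M] [ChartedSpace (E n) M]
  [IsManifold 𝓘(ℝ, E n) ∞ M]

omit [IsManifold 𝓘(ℝ, E n) ∞ M] in
theorem bridge2_contDiffAt_curve {γ : ℝ → M} (hγ : ContMDiff 𝓘(ℝ, ℝ) 𝓘(ℝ, E n) ∞ γ) (t : ℝ) :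
    ContDiffAt ℝ ∞ (fun s => chartAt (E n) (γ t) (γ s)) t := by
  have h := (contMDiffAt_extChartAt (I := 𝓘(ℝ, E n)) (n := ∞) (x := γ t)).comp t (hγ t)
  rw [contMDiffAt_iff_contDiffAt] at h
  exact h

theorem bridge2_contDiffAt_field {γ : ℝ → M} {J : ℝ → E n}
    (hJ : ContMDiff 𝓘(ℝ, ℝ) (𝓘(ℝ, E n)).tangent ∞
      (fun t => (TotalSpace.mk' (E n) (γ t) (J t) : TangentBundle 𝓘(ℝ, E n) M))) (t : ℝ) :
    ContDiffAt ℝ ∞ (fun s => fderiv ℝ (chartAt (E n) (γ t) ∘ (chartAt (E n) (γ s)).symm)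
      (chartAt (E n) (γ s) (γ s)) (J s)) t := by
  have h := (contMDiffAt_totalSpace.1 (hJ t)).2
  rw [contMDiffAt_iff_contDiffAt] at h
  refine h.congr_of_eventuallyEq (Eventually.of_forall fun s => ?_)
  simp only [TangentBundle.trivializationAt_apply, modelWithCornersSelf_coe, range_id,
    fderivWithin_univ]
  rfl

theorem bridge2_mfderiv {x₀ x : M} (hx : x ∈ (chartAt (E n) x₀).source) (v : E n) :
    mfderiv 𝓘(ℝ, E n) 𝓘(ℝ, E n) (chartAt (E n) x₀) x v =
      fderiv ℝ (chartAt (E n) x₀ ∘ (chartAt (E n) x).symm) (chartAt (E n) x x) v := by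
  have h : MDifferentiableAt 𝓘(ℝ, E n) 𝓘(ℝ, E n) (chartAt (E n) x₀) x :=
    mdifferentiableAt_atlas (chart_mem_atlas (E n) x₀) hx
  rw [h.mfderiv]
  simp only [modelWithCornersSelf_coe, range_id, fderivWithin_univ]
  rfl

end Manifold

theorem RAtlas.noConjugatePoints {n : ℕ} {M : Type} [TopologicalSpace M] (A : RAtlas n M)
    (hA : A.NCP) :
    letI := A.chartedSpace
    haveI := A.isManifold
    ∀ g : ContMDiffRiemannianMetric 𝓘(ℝ, E n) ∞ (E n) (fun x : M => TangentSpace 𝓘(ℝ, E n) x),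
      (∀ x, EqOn (metricInChart g x) (A.G (A.idx x)) (A.chart (A.idx x)).target) →
      NoConjugatePoints g := by
  letI := A.chartedSpace
  haveI := A.isManifold
  intro g hg γ J hγ hJ a b hab ha hb t
  have hcont : Continuous γ := hγ.1.continuous
  have hge : ∀ x, metricInChart g x =ᶠ[𝓝 (A.chart (A.idx x) x)] A.G (A.idx x) := fun x =>
    (hg x).eventuallyEq_of_mem
      ((A.chart (A.idx x)).open_target.mem_nhds ((A.chart (A.idx x)).map_source (A.mem_idx x)))
  have hc : ∀ s, ContDiffAt ℝ ∞ (A.crd (A.idx (γ s)) γ) s := fun s =>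
    bridge2_contDiffAt_curve hγ.1 s
  have hgeo' : ∀ s, HasDerivAt (jet (A.crd (A.idx (γ s)) γ))
      (spray (A.G (A.idx (γ s))) (jet (A.crd (A.idx (γ s)) γ) s)) s := fun s =>
    bridge2_geo (hge (γ s)) (hc s) (hγ.2 s)
  have hgeo : A.Geo γ := A.geoOn_of_pointwise isOpen_univ hcont.continuousOn fun s _ =>
    ⟨A.idx (γ s), A.mem_idx _, (bridge2_jet (hc s)).1, hgeo' s⟩
  let ξ : A.ι → ℝ → E n := fun j s =>
    fderiv ℝ (A.tr (A.idx (γ s)) j) (A.chart (A.idx (γ s)) (γ s)) (J s)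
  have hξ : ∀ s, ContDiffAt ℝ ∞ (ξ (A.idx (γ s))) s := fun s => bridge2_contDiffAt_field hJ.1 s
  have hself : ∀ s, ξ (A.idx (γ s)) s = J s := fun s => A.fderiv_tr_self (A.mem_idx _) _
  have hjac : A.Jac γ ξ := by
    refine A.jac_of_pointwise hgeo (fun i j s hi hj => ?_) fun s => ?_
    · exact (A.fderiv_tr_comp (A.mem_idx _) hi hj _).symm
    · refine ⟨A.idx (γ s), A.mem_idx _, (bridge2_jet (hξ s)).1, ?_⟩
      refine bridge2_jac (A.riem _) ((A.chart _).map_source (A.mem_idx _)) (hge (γ s)) (hgeo' s)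
        (hξ s) ?_ (hJ.2 s)
      filter_upwards [hcont.continuousAt.eventually
        ((A.chart (A.idx (γ s))).open_source.mem_nhds (A.mem_idx (γ s)))] with s' hs'
      exact bridge2_mfderiv hs' (J s')
  have hv := hA γ ξ hgeo hjac a b hab
    (hjac.van_of (A.mem_idx _) ((hself a).trans ha))
    (hjac.van_of (A.mem_idx _) ((hself b).trans hb)) t
  exact (hself t).symm.trans (hv _ (A.mem_idx _))

end Crest.Agent.R244
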