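import Crest.Agent.R244.Complete

/-! Row 244: the exponential map and its derivative. -/

set_option autoImplicit false

open Set Filter
open scoped ContDiff Topology

namespace Crest.Agent.R244

open Crest.GeometryTopology.CoordMetric Crest.GeometryTopology.ChartCurvature
  Crest.GeometryTopology.Geodesic

namespace RAtlas

variable {n : ℕ} {M : Type} [TopologicalSpace M]

/-- a family of curves depends strictly differentiably on the parameter at time `s`, read in the
chart `j`. -/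
def FamP (A : RAtlas n M) (gam : E n → ℝ → M) (v₀ : E n) (j : A.ι) (s : ℝ) : Prop :=
  gam v₀ s ∈ (A.chart j).source ∧ ContinuousAt (fun v => gam v s) v₀ ∧
    ∃ L : E n →L[ℝ] E n × E n, HasStrictFDerivAt (fun v => jet (A.crd j (gam v)) s) L v₀

theorem FamP.change {A : RAtlas n M} {gam : E n → ℝ → M} (hg : ∀ v, A.Geo (gam v)) {v₀ : E n}
    {j k : A.ι} {s : ℝ} (h : A.FamP gam v₀ j s) (hk : gam v₀ s ∈ (A.chart k).source) :
    A.FamP gam v₀ k s := by
  obtain ⟨hj, hc, L, hL⟩ := h
  refine ⟨hk, hc, ?_⟩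
  have hT : ContDiffAt ℝ ∞ (tmap (A.tr j k)) (jet (A.crd j (gam v₀)) s) :=
    A.contDiffAt_tmap hj hk _
  have hT' := hT.hasStrictFDerivAt (by simp)
  refine ⟨_, (hT'.comp v₀ hL).congr_of_eventuallyEq ?_⟩
  have e1 : ∀ᶠ v in 𝓝 v₀, gam v s ∈ (A.chart j).source :=
    hc.eventually ((A.chart j).open_source.mem_nhds hj)
  have e2 : ∀ᶠ v in 𝓝 v₀, gam v s ∈ (A.chart k).source :=
    hc.eventually ((A.chart k).open_source.mem_nhds hk)
  filter_upwards [e1, e2] with v h1 h2
  have hd : DifferentiableAt ℝ (A.crd j (gam v)) s :=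
    (jet_fst ((hg v).2 s (mem_univ _) j h1)).1.differentiableAt
  exact (A.jet_tr (hg v).continuous.continuousAt h1 h2 hd).symm

theorem famP_step [T2Space M] {A : RAtlas n M} {gam : E n → ℝ → M} (hg : ∀ v, A.Geo (gam v))
    (v₀ : E n) {j : A.ι} {t : ℝ} (hj : gam v₀ t ∈ (A.chart j).source) :
    ∃ ε > 0, ∀ᶠ s₀ in 𝓝 t, A.FamP gam v₀ j s₀ →
      (∀ s ∈ Ioo (s₀ - ε) (s₀ + ε), A.FamP gam v₀ j s) ∧
      HasDerivAt (fun s => fderiv ℝ (fun v => jet (A.crd j (gam v)) s) v₀)
        ((fderiv ℝ (spray (A.G j)) (jet (A.crd j (gam v₀)) s₀)).comp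
          (fderiv ℝ (fun v => jet (A.crd j (gam v)) s₀) v₀)) s₀ := by
  have hO : IsOpen ((A.chart j).target ×ˢ (univ : Set (E n))) :=
    (A.chart j).open_target.prod isOpen_univ
  have hf : ContDiffOn ℝ 1 (spray (A.G j)) ((A.chart j).target ×ˢ (univ : Set (E n))) :=
    fun z hz => ((contDiffAt_spray (A.riem j) hz.1).of_le (by simp)).contDiffWithinAt
  have hz₀ : jet (A.crd j (gam v₀)) t ∈ (A.chart j).target ×ˢ (univ : Set (E n)) :=
    ⟨(A.chart j).map_source hj, mem_univ _⟩
  obtain ⟨ε, hε, U, hU, hzU, φ, Ψ, hφ⟩ := local_flow hO hf hz₀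
  refine ⟨ε, hε, ?_⟩
  have hcZ : ContinuousAt (jet (A.crd j (gam v₀))) t :=
    ((hg v₀).2 t (mem_univ _) j hj).continuousAt
  filter_upwards [hcZ.eventually (hU.mem_nhds hzU)] with s₀ hs₀U hP
  obtain ⟨hj₀, hc₀, L, hL⟩ := hP
  -- identification of the geodesics with the flow lines
  have key : ∀ᶠ v in 𝓝 v₀, ∀ s ∈ Ioo (s₀ - ε) (s₀ + ε),
      gam v s = (A.chart j).symm (φ (jet (A.crd j (gam v)) s₀) (s - s₀)).1 ∧
      jet (A.crd j (gam v)) s = φ (jet (A.crd j (gam v)) s₀) (s - s₀) := by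
    have e1 : ∀ᶠ v in 𝓝 v₀, gam v s₀ ∈ (A.chart j).source :=
      hc₀.eventually ((A.chart j).open_source.mem_nhds hj₀)
    have e2 : ∀ᶠ v in 𝓝 v₀, jet (A.crd j (gam v)) s₀ ∈ U :=
      hL.continuousAt.eventually (hU.mem_nhds hs₀U)
    filter_upwards [e1, e2] with v h1 h2
    obtain ⟨hφ0, -, hφs⟩ := hφ _ h2
    set z := jet (A.crd j (gam v)) s₀ with hz
    have hsol : ∀ s ∈ Ioo (s₀ - ε) (s₀ + ε), (φ z (s - s₀)).1 ∈ (A.chart j).target ∧
        HasDerivAt (fun s => φ z (s - s₀)) (spray (A.G j) (φ z (s - s₀))) s := by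
      intro s hs
      have hs' : s - s₀ ∈ Ioo (-ε) ε := ⟨by linarith [hs.1], by linarith [hs.2]⟩
      obtain ⟨h3, h4, -, -⟩ := hφs _ hs'
      exact ⟨h3.1, h4.comp_sub_const s s₀⟩
    obtain ⟨hgeo, hjet⟩ := geoOn_symm (A := A) j (z := fun s => φ z (s - s₀)) isOpen_Ioo hsol
    have hs₀ : s₀ ∈ Ioo (s₀ - ε) (s₀ + ε) := ⟨by linarith, by linarith⟩
    have hjet0 := hjet s₀ hs₀
    simp only [sub_self, hφ0] at hjet0
    have heq : EqOn (gam v) (fun s => (A.chart j).symm (φ z (s - s₀)).1) (Ioo (s₀ - ε) (s₀ + ε)) := by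
      refine GeoOn.unique ((hg v).mono (subset_univ _)) hgeo isOpen_Ioo isPreconnected_Ioo hs₀ h1 ?_ ?_
      · simp only [sub_self, hφ0]
        exact ((A.chart j).left_inv h1).symm
      · exact (congrArg Prod.snd hjet0).symm
    intro s hs
    refine ⟨heq hs, ?_⟩
    rw [← hjet s hs]
    have hev : A.crd j (gam v) =ᶠ[𝓝 s]
        A.crd j (fun s => (A.chart j).symm (φ z (s - s₀)).1) := by
      filter_upwards [isOpen_Ioo.mem_nhds hs] with s' hs'
      simp only [crd, heq hs']
    simp only [jet, hev.eq_of_nhds, hev.deriv_eq]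
  obtain ⟨hφ0, hΨ0, hφs⟩ := hφ _ hs₀U
  have hstrict : ∀ s ∈ Ioo (s₀ - ε) (s₀ + ε),
      HasStrictFDerivAt (fun v => φ (jet (A.crd j (gam v)) s₀) (s - s₀))
        ((Ψ (jet (A.crd j (gam v₀)) s₀) (s - s₀)).comp L) v₀ := by
    intro s hs
    have hs' : s - s₀ ∈ Ioo (-ε) ε := ⟨by linarith [hs.1], by linarith [hs.2]⟩
    exact (hφs _ hs').2.2.1.comp v₀ hL
  have hstrict' : ∀ s ∈ Ioo (s₀ - ε) (s₀ + ε),
      HasStrictFDerivAt (fun v => jet (A.crd j (gam v)) s)
        ((Ψ (jet (A.crd j (gam v₀)) s₀) (s - s₀)).comp L) v₀ := by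
    intro s hs
    refine (hstrict s hs).congr_of_eventuallyEq ?_
    filter_upwards [key] with v hv
    exact (hv s hs).2.symm
  constructor
  · intro s hs
    have hs' : s - s₀ ∈ Ioo (-ε) ε := ⟨by linarith [hs.1], by linarith [hs.2]⟩
    have hmem : (φ (jet (A.crd j (gam v₀)) s₀) (s - s₀)).1 ∈ (A.chart j).target :=
      (hφs _ hs').1.1
    refine ⟨?_, ?_, _, hstrict' s hs⟩
    · rw [(key.self_of_nhds s hs).1]
      exact (A.chart j).map_target hmem
    · have h1 : ContinuousAt
          (fun v => (A.chart j).symm (φ (jet (A.crd j (gam v)) s₀) (s - s₀)).1) v₀ :=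
        ContinuousAt.comp (f := fun v => (φ (jet (A.crd j (gam v)) s₀) (s - s₀)).1)
          ((A.chart j).continuousAt_symm hmem) (hstrict s hs).continuousAt.fst
      refine h1.congr ?_
      filter_upwards [key] with v hv
      exact (hv s hs).1.symm
  · have hs₀ : s₀ ∈ Ioo (s₀ - ε) (s₀ + ε) := ⟨by linarith, by linarith⟩
    have h0 : (0 : ℝ) ∈ Ioo (-ε) ε := ⟨by linarith, hε⟩
    have hd := (hφs 0 h0).2.2.2
    rw [hφ0, hΨ0] at hd
    have hd1 : HasDerivAt (fun s => Ψ (jet (A.crd j (gam v₀)) s₀) (s - s₀))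
        ((fderiv ℝ (spray (A.G j)) (jet (A.crd j (gam v₀)) s₀)).comp
          (ContinuousLinearMap.id ℝ _)) s₀ := by
      refine HasDerivAt.comp_sub_const s₀ s₀ ?_
      rwa [sub_self]
    have hd2 := hd1.clm_comp (hasDerivAt_const s₀ L)
    rw [hL.hasFDerivAt.fderiv]
    simp only [ContinuousLinearMap.comp_id, ContinuousLinearMap.comp_zero, add_zero] at hd2
    refine hd2.congr_of_eventuallyEq ?_
    filter_upwards [isOpen_Ioo.mem_nhds hs₀] with s hs
    exact (hstrict' s hs).hasFDerivAt.fderiv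

theorem famP_all [T2Space M] {A : RAtlas n M} {gam : E n → ℝ → M} (hg : ∀ v, A.Geo (gam v))
    {v₀ : E n} {i : A.ι} (h0 : A.FamP gam v₀ i 0) (s : ℝ) {j : A.ι}
    (hj : gam v₀ s ∈ (A.chart j).source) : A.FamP gam v₀ j s := by
  have hclopen : IsClopen {s | ∃ j, A.FamP gam v₀ j s} := by
    constructor
    · refine isClosed_iff_frequently.2 fun t ht => ?_
      obtain ⟨k, hk⟩ := A.cover (gam v₀ t)
      obtain ⟨ε, hε, hev⟩ := famP_step hg v₀ hk
      have e1 : ∀ᶠ s in 𝓝 t, gam v₀ s ∈ (A.chart k).source :=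
        (hg v₀).continuous.continuousAt.eventually ((A.chart k).open_source.mem_nhds hk)
      have e2 : ∀ᶠ s in 𝓝 t, s ∈ Ioo (t - ε) (t + ε) :=
        isOpen_Ioo.mem_nhds ⟨by linarith, by linarith⟩
      obtain ⟨s₀, ⟨l, hl⟩, h1, h2, h3⟩ := (ht.and_eventually (hev.and (e1.and e2))).exists
      exact ⟨k, (h1 (hl.change hg h2)).1 t ⟨by linarith [h3.2], by linarith [h3.1]⟩⟩
    · refine isOpen_iff_mem_nhds.2 fun t ⟨k, hk⟩ => ?_
      obtain ⟨ε, hε, hev⟩ := famP_step hg v₀ hk.1
      have h1 := (hev.self_of_nhds hk).1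
      filter_upwards [isOpen_Ioo.mem_nhds (show t ∈ Ioo (t - ε) (t + ε) from
        ⟨by linarith, by linarith⟩)] with s hs
      exact ⟨k, h1 s hs⟩
  have huniv := hclopen.eq_univ ⟨0, i, h0⟩
  obtain ⟨k, hk⟩ : s ∈ {s | ∃ j, A.FamP gam v₀ j s} := huniv ▸ mem_univ s
  exact hk.change hg hj

theorem fderiv_spray_fst {g : MetricField n} {U : Set (E n)} (hg : IsRiemannianOn g U)
    {z : E n × E n} (hz : z.1 ∈ U) (ζ : E n × E n) : (fderiv ℝ (spray g) z ζ).1 = ζ.2 :=
  congrArg Prod.fst (fderiv_spray hg hz z.2 ζ.1 ζ.2)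

theorem exists_exp [CompactSpace M] [T2Space M] (A : RAtlas n M) {i : A.ι} {x : M}
    (hx : x ∈ (A.chart i).source) : ∃ p, A.IsExp i x p := by
  choose gam hg h0 hv using A.exists_geo hx
  have hscale : ∀ (v : E n) (s : ℝ), gam (s • v) 1 = gam v s := by
    intro v s
    have h1 : A.GeoOn (fun t => gam v (s * t + 0)) univ :=
      (GeoOn.comp_affine (hg v) isOpen_univ s 0).mono fun _ _ => mem_univ _
    have h2 : EqOn (gam (s • v)) (fun t => gam v (s * t + 0)) univ := by
      refine GeoOn.unique (i := i) (s₀ := 0) (hg _) h1 isOpen_univ isPreconnected_univ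
        (mem_univ _) (by rw [h0]; exact hx) (by simp [h0]) ?_
      rw [GeoOn.deriv_comp_affine (hg v) s 0 0 (mem_univ _) (by simpa [h0] using hx), hv]
      simp [hv]
    simpa using h2 (mem_univ 1)
  have hfun : ∀ v : E n, (fun s : ℝ => gam (s • v) 1) = gam v := fun v => funext (hscale v)
  have hZ0 : (fun v => jet (A.crd i (gam v)) 0) = fun v => (A.chart i x, v) := by
    funext v
    simp only [jet, hv]
    simp only [crd, h0]
  have hL0 : ∀ v₀ : E n, HasStrictFDerivAt (fun v => jet (A.crd i (gam v)) 0)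
      ((0 : E n →L[ℝ] E n).prod (ContinuousLinearMap.id ℝ (E n))) v₀ := by
    intro v₀
    rw [hZ0]
    exact (hasStrictFDerivAt_const _ _).prodMk (hasStrictFDerivAt_id v₀)
  have hP0 : ∀ v₀, A.FamP gam v₀ i 0 := by
    intro v₀
    refine ⟨by rw [h0]; exact hx, ?_, _, hL0 v₀⟩
    simp only [h0]
    exact continuousAt_const
  have hP : ∀ v₀ s j, gam v₀ s ∈ (A.chart j).source → A.FamP gam v₀ j s :=
    fun v₀ s j hj => famP_all hg (hP0 v₀) s hj
  have hcont : Continuous fun v => gam v 1 := by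
    refine continuous_iff_continuousAt.2 fun v => ?_
    obtain ⟨j, hj⟩ := A.cover (gam v 1)
    exact (hP v 1 j hj).2.1
  have hstrict : ∀ j v, gam v 1 ∈ (A.chart j).source →
      HasStrictFDerivAt (fun w => A.chart j (gam w 1)) (A.dp (fun v => gam v 1) j v) v := by
    intro j v hj
    obtain ⟨L, hL⟩ := (hP v 1 j hj).2.2
    have h1 : HasStrictFDerivAt (fun w => A.chart j (gam w 1))
        ((ContinuousLinearMap.fst ℝ _ _).comp L) v := hL.fst
    rwa [dp, h1.hasFDerivAt.fderiv]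
  -- the variation field
  have hfst : ∀ (v w : E n) (j : A.ι) (s : ℝ), gam v s ∈ (A.chart j).source →
      A.dp (fun v => gam v 1) j (s • v) (s • w) =
        (fderiv ℝ (fun v => jet (A.crd j (gam v)) s) v w).1 := by
    intro v w j s hj
    obtain ⟨L, hL⟩ := (hP v s j hj).2.2
    have h1 : HasFDerivAt (fun w => A.chart j (gam w s))
        ((ContinuousLinearMap.fst ℝ _ _).comp L) v := hL.fst.hasFDerivAt
    have h2 : HasFDerivAt (fun w : E n => A.chart j (gam (s • w) 1))
        ((A.dp (fun v => gam v 1) j (s • v)).comp (s • ContinuousLinearMap.id ℝ (E n))) v :=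
      HasFDerivAt.comp (g := fun w => A.chart j (gam w 1)) (f := fun w : E n => s • w) v
        (hstrict j (s • v) (by rw [hscale]; exact hj)).hasFDerivAt
        ((hasFDerivAt_id v).const_smul s)
    simp only [hscale] at h2
    have h3 := congrArg (fun T : E n →L[ℝ] E n => T w) (h2.unique h1)
    rw [hL.hasFDerivAt.fderiv]
    simpa using h3
  have hder : ∀ (v w : E n) (j : A.ι) (s : ℝ), gam v s ∈ (A.chart j).source →
      HasDerivAt (fun s => fderiv ℝ (fun v => jet (A.crd j (gam v)) s) v w)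
        (fderiv ℝ (spray (A.G j)) (jet (A.crd j (gam v)) s)
          (fderiv ℝ (fun v => jet (A.crd j (gam v)) s) v w)) s := by
    intro v w j s hj
    obtain ⟨ε, -, hev⟩ := famP_step hg v hj
    have h1 := (hev.self_of_nhds (hP v s j hj)).2
    simpa using h1.clm_apply (hasDerivAt_const s w)
  have hnear : ∀ (v : E n) (j : A.ι) (s : ℝ), gam v s ∈ (A.chart j).source →
      ∀ᶠ s' in 𝓝 s, gam v s' ∈ (A.chart j).source := fun v j s hj =>
    (hg v).continuous.continuousAt.eventually ((A.chart j).open_source.mem_nhds hj)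
  have hjet : ∀ (v w : E n) (j : A.ι) (s : ℝ), gam v s ∈ (A.chart j).source →
      jet (fun s : ℝ => A.dp (fun v => gam v 1) j (s • v) (s • w)) s =
        fderiv ℝ (fun v => jet (A.crd j (gam v)) s) v w := by
    intro v w j s hj
    have h1 : (fun s : ℝ => A.dp (fun v => gam v 1) j (s • v) (s • w)) =ᶠ[𝓝 s]
        fun s => (fderiv ℝ (fun v => jet (A.crd j (gam v)) s) v w).1 := by
      filter_upwards [hnear v j s hj] with s' hs'
      exact hfst v w j s' hs'
    refine Prod.ext (hfst v w j s hj) ?_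
    change deriv _ s = _
    have h2 := (ContinuousLinearMap.fst ℝ (E n) (E n)).hasFDerivAt.comp_hasDerivAt s
      (hder v w j s hj)
    rw [h1.deriv_eq]
    refine h2.deriv.trans ?_
    exact fderiv_spray_fst (A.riem j) ((A.chart j).map_source hj) _
  refine ⟨fun v => gam v 1, hx, ?_, ?_, ?_, hcont, hstrict, ?_, ?_⟩
  · have := hscale 0 0
    rwa [zero_smul, h0] at this
  · intro v
    rw [hfun]
    exact hg v
  · intro v
    rw [hfun]
    exact hv v
  · intro v w
    rw [hfun]
    constructor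
    · intro j k s hj hk
      have hj' : gam (s • v) 1 ∈ (A.chart j).source := by rw [hscale]; exact hj
      have hk' : gam (s • v) 1 ∈ (A.chart k).source := by rw [hscale]; exact hk
      have h1 : HasFDerivAt (A.tr j k) (fderiv ℝ (A.tr j k) (A.chart j (gam (s • v) 1)))
          (A.chart j (gam (s • v) 1)) :=
        ((A.contDiffAt_tr hj' hk').differentiableAt (by simp)).hasFDerivAt
      have h2 := HasFDerivAt.comp (f := fun w => A.chart j (gam w 1)) (s • v) h1
        (hstrict j _ hj').hasFDerivAt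
      have h3 : HasFDerivAt (fun w => A.chart k (gam w 1))
          ((fderiv ℝ (A.tr j k) (A.chart j (gam (s • v) 1))).comp
            (A.dp (fun v => gam v 1) j (s • v))) (s • v) := by
        refine h2.congr_of_eventuallyEq ?_
        filter_upwards [hcont.continuousAt.eventually ((A.chart j).open_source.mem_nhds hj')]
          with u hu
        exact (A.tr_apply k hu).symm
      have h4 := congrArg (fun T : E n →L[ℝ] E n => T (s • w))
        ((hstrict k _ hk').hasFDerivAt.unique h3)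
      simpa [hscale] using h4
    · intro j s hj
      rw [hjet v w j s hj]
      refine (hder v w j s hj).congr_of_eventuallyEq ?_
      filter_upwards [hnear v j s hj] with s' hs'
      exact hjet v w j s' hs'
  · intro v w
    have h1 := congrArg Prod.snd (hjet v w i 0 (by rw [h0]; exact hx))
    rw [(hL0 v).hasFDerivAt.fderiv] at h1
    simpa [jet] using h1

end RAtlas

end Crest.Agent.R244
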