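import Crest.Agent.R244.Cover
import Crest.Agent.R244.Exp

/-! Row 244: the universal cover of a non-positively curved compact manifold. -/

set_option autoImplicit false

open Set Filter
open scoped ContDiff Topology

namespace Crest.Agent.R244

open Crest.GeometryTopology.CoordMetric Crest.GeometryTopology.ChartCurvature
  Crest.GeometryTopology.Geodesic

section CatAux

variable {n : ℕ} {g : Matrix (Fin n) (Fin n) ℝ}

theorem cat_bil_le (hg : g.PosDef) (u v : E n) : bil g u v ≤ √(bil g u u) * √(bil g v v) := by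
  rw [← Real.sqrt_mul (bil_self_nonneg hg u)]
  exact Real.le_sqrt_of_sq_le (bil_sq_le hg u v)

theorem cat_minkowski (hg : g.PosDef) (u v : E n) :
    √(bil g (u + v) (u + v)) ≤ √(bil g u u) + √(bil g v v) := by
  rw [Real.sqrt_le_iff]
  refine ⟨by positivity, ?_⟩
  rw [bil_add_left, bil_add_right, bil_add_right, bil_comm hg v u, add_sq,
    Real.sq_sqrt (bil_self_nonneg hg u), Real.sq_sqrt (bil_self_nonneg hg v)]
  linarith [cat_bil_le hg u v]

theorem cat_smul (g : Matrix (Fin n) (Fin n) ℝ) (a : ℝ) (u : E n) :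
    √(bil g (a • u) (a • u)) = |a| * √(bil g u u) := by
  rw [bil_smul_left, bil_smul_right, ← mul_assoc, Real.sqrt_mul (mul_self_nonneg a),
    Real.sqrt_mul_self_eq_abs]

variable {M : Type} [TopologicalSpace M] {A : RAtlas n M}

/-- a lift of a geodesic through an exponential map moves at most by the length -/
theorem RAtlas.IsExp.cat_lift_le {i : A.ι} {x : M} {p : E n → M} (h : A.IsExp i x p) (hA : A.NPC)
    {L : ℝ → E n} (hL : Continuous L) (hγ : A.Geo fun s => p (L s)) {k : A.ι}
    (hk : p (L 0) ∈ (A.chart k).source) :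
    bil (A.G i (A.chart i x)) (L 1 - L 0) (L 1 - L 0) ≤
      bil (A.G k (A.chart k (p (L 0)))) (deriv (A.crd k fun s => p (L s)) 0)
        (deriv (A.crd k fun s => p (L s)) 0) := by
  set g := A.G i (A.chart i x) with hgdef
  have hg : g.PosDef := A.posDef h.mem
  set σ := bil (A.G k (A.chart k (p (L 0)))) (deriv (A.crd k fun s => p (L s)) 0)
    (deriv (A.crd k fun s => p (L s)) 0) with hσ
  have hder : ∀ s, ∃ w, HasDerivAt L w s ∧ bil g w w ≤ σ := by
    intro s
    obtain ⟨l, hl⟩ := A.cover (p (L s))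
    have h1 := (jet_fst (hγ.2 s (mem_univ s) l hl)).1
    obtain ⟨w, hw, hw'⟩ := h.hasDerivWithinAt_lift (h.inj_of_npc hA) (mem_univ s)
      hL.continuousWithinAt hl h1.hasDerivWithinAt
    refine ⟨w, hasDerivWithinAt_univ.1 hw, ?_⟩
    have h2 := h.expand hA hl w
    rw [hw'] at h2
    exact h2.trans (le_of_eq (RAtlas.GeoOn.speed hγ isOpen_univ isPreconnected_univ (mem_univ s)
      (mem_univ 0) hl hk))
  choose w hw hwσ using hder
  obtain ⟨B, hB⟩ := exists_bilL g
  set e := L 1 - L 0 with he
  have hf : ∀ s, HasDerivAt (fun s => B.flip e (L s)) (B.flip e (w s)) s := fun s =>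
    (B.flip e).hasFDerivAt.comp_hasDerivAt s (hw s)
  obtain ⟨c, -, hc⟩ := exists_hasDerivAt_eq_slope (fun s => B.flip e (L s))
    (fun s => B.flip e (w s)) zero_lt_one
    (fun s _ => (hf s).continuousAt.continuousWithinAt) (fun s _ => hf s)
  simp only [ContinuousLinearMap.flip_apply, hB, sub_zero, div_one] at hc
  rw [← bil_sub_left, ← he] at hc
  have h3 := bil_sq_le hg (w c) e
  rw [hc] at h3
  have h4 := bil_self_nonneg hg e
  have h5 := bil_self_nonneg hg (w c)
  have h6 := hwσ c
  by_contra hcon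
  have h7 := not_le.1 hcon
  nlinarith

end CatAux

theorem RAtlas.exists_catCover {n : ℕ} {M : Type} [TopologicalSpace M] [CompactSpace M]
    [T2Space M] [Nonempty M] (A : RAtlas n M) (hA : A.NPC) :
    ∃ (p : E n → M) (d : E n → E n → ℝ), CatCover p d := by
  choose j hj using A.cover
  choose q hq using fun y : M => A.exists_exp (hj y)
  have hcov : ∀ y, IsCoveringMap (q y) := fun y => (hq y).isCoveringMap ((hq y).inj_of_npc hA)
  obtain ⟨y₀⟩ := ‹Nonempty M›
  set p := q y₀ with hpdef
  have hp : IsCoveringMap p := hcov y₀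
  have hpc : Continuous p := hp.continuous
  choose Ex hEx using fun x : E n =>
    (hp.existsUnique_continuousMap_lifts ⟨q (p x), (hq _).cont⟩ 0 x (hq _).zero.symm).exists
  choose Lg hLg using fun x : E n =>
    ((hcov (p x)).existsUnique_continuousMap_lifts ⟨p, hpc⟩ x 0 (hq _).zero).exists
  have hEx0 : ∀ x, Ex x 0 = x := fun x => (hEx x).1
  have hEx1 : ∀ x v, p (Ex x v) = q (p x) v := fun x v => congrFun (hEx x).2 v
  have hLg0 : ∀ x, Lg x x = 0 := fun x => (hLg x).1
  have hLg1 : ∀ x y, q (p x) (Lg x y) = p y := fun x y => congrFun (hLg x).2 y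
  have hEL : ∀ x y, Ex x (Lg x y) = y := by
    intro x y
    have := hp.eq_of_comp_eq (g₁ := fun y => Ex x (Lg x y)) (g₂ := id)
      ((Ex x).continuous.comp (Lg x).continuous) continuous_id
      (funext fun y => by simp only [Function.comp, hEx1, hLg1, id]) x
      (by simp only [hLg0, hEx0, id])
    exact congrFun this y
  have hLE : ∀ x v, Lg x (Ex x v) = v := by
    intro x v
    have := (hcov (p x)).eq_of_comp_eq (g₁ := fun v => Lg x (Ex x v)) (g₂ := id)
      ((Lg x).continuous.comp (Ex x).continuous) continuous_id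
      (funext fun v => by simp only [Function.comp, hEx1, hLg1, id]) 0
      (by simp only [hLg0, hEx0, id])
    exact congrFun this v
  set G : M → Matrix (Fin n) (Fin n) ℝ := fun y => A.G (j y) (A.chart (j y) y) with hG
  have hGpos : ∀ y, (G y).PosDef := fun y => A.posDef (hj y)
  set N : M → E n → ℝ := fun y w => √(bil (G y) w w) with hN
  set d : E n → E n → ℝ := fun x y => N (p x) (Lg x y) with hd
  have hN0 : ∀ y w, 0 ≤ N y w := fun y w => Real.sqrt_nonneg _
  have hNneg : ∀ y w, N y (-w) = N y w := fun y w => by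
    simp only [hN, bil_neg_left, bil_neg_right, neg_neg]
  have hNsmul : ∀ y (a : ℝ) w, N y (a • w) = |a| * N y w := fun y a w => cat_smul _ a w
  have P2 : ∀ m y z, N (p m) (Lg m z - Lg m y) ≤ d y z := by
    intro m y z
    set W := Lg y z with hW
    have hγ : (fun s : ℝ => q (p m) (Lg m (Ex y (s • W)))) = fun s : ℝ => q (p y) (s • W) :=
      funext fun s => by rw [hLg1, hEx1]
    have h0 : q (p m) (Lg m (Ex y ((0 : ℝ) • W))) = p y := by rw [zero_smul, hEx0, hLg1]
    have h1 := (hq (p m)).cat_lift_le hA (L := fun s : ℝ => Lg m (Ex y (s • W)))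
      ((Lg m).continuous.comp ((Ex y).continuous.comp (continuous_id.smul continuous_const)))
      (by rw [hγ]; exact (hq (p y)).geo W) (k := j (p y)) (by rw [h0]; exact hj _)
    rw [hγ, (hq (p y)).vel W, h0] at h1
    simp only [one_smul, zero_smul, hEx0, hW, hEL] at h1
    exact Real.sqrt_le_sqrt h1
  have hcomm : ∀ x y, d x y = d y x := by
    have h1 : ∀ x y, d y x ≤ d x y := by
      intro x y
      have := P2 y x y
      rwa [hLg0, zero_sub, hNneg] at this
    exact fun x y => le_antisymm (h1 y x) (h1 x y)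
  refine ⟨p, d, hp, fun x y => hN0 _ _, fun x => ?_, hcomm, fun x y z => ?_, fun x z => ?_,
    fun φ hφ x y => ?_, fun x U hU => ?_⟩
  · simp only [hd, hN, hLg0, bil_zero_left, Real.sqrt_zero]
  · have h1 := cat_minkowski (hGpos (p x)) (Lg x y) (Lg x z - Lg x y)
    rw [add_sub_cancel] at h1
    exact h1.trans (add_le_add le_rfl (P2 x y z))
  · set W := Lg x z with hW
    set m := Ex x ((1 / 2 : ℝ) • W) with hm
    have hgeo := (hq (p x)).geo W
    have hpm : q (p x) ((1 / 2 : ℝ) • W) = p m := (hEx1 x _).symm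
    set V := deriv (A.crd (j (p m)) fun s : ℝ => q (p x) (s • W)) (1 / 2) with hV
    have hgeo2 : A.Geo fun s : ℝ => q (p x) ((1 * s + 1 / 2) • W) :=
      RAtlas.GeoOn.comp_affine hgeo isOpen_univ 1 (1 / 2)
    have heq : ∀ s : ℝ, q (p m) (s • V) = q (p x) ((1 * s + 1 / 2) • W) := by
      intro s
      refine RAtlas.GeoOn.unique ((hq (p m)).geo V) hgeo2 isOpen_univ isPreconnected_univ
        (mem_univ (0 : ℝ)) (i := j (p m)) ?_ ?_ ?_ (mem_univ s)
      · simp only [zero_smul, (hq (p m)).zero]
        exact hj _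
      · simp only [zero_smul, (hq (p m)).zero, mul_zero, zero_add, hpm]
      · rw [(hq (p m)).vel V]
        have := RAtlas.GeoOn.deriv_comp_affine hgeo 1 (1 / 2) 0 (mem_univ _) (i := j (p m))
          (by simp only [mul_zero, zero_add, hpm]; exact hj _)
        rw [this, mul_zero, zero_add, one_smul]
    have hlift : ∀ s : ℝ, Ex m (s • V) = Ex x ((1 * s + 1 / 2) • W) := by
      have := hp.eq_of_comp_eq (g₁ := fun s : ℝ => Ex m (s • V))
        (g₂ := fun s : ℝ => Ex x ((1 * s + 1 / 2) • W))
        ((Ex m).continuous.comp (continuous_id.smul continuous_const))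
        ((Ex x).continuous.comp (by fun_prop))
        (funext fun s => by simp only [Function.comp, hEx1 m, hEx1 x, heq]) 0
        (by simp only [zero_smul, hEx0, mul_zero, zero_add, hm])
      exact congrFun this
    have hx : Lg m x = (-(1 / 2) : ℝ) • V := by
      have := hlift (-(1 / 2))
      rw [show (1 * -(1 / 2) + 1 / 2 : ℝ) = 0 by norm_num, zero_smul, hEx0] at this
      rw [← this, hLE]
    have hz : Lg m z = (1 / 2 : ℝ) • V := by
      have := hlift (1 / 2)
      rw [show (1 * (1 / 2) + 1 / 2 : ℝ) = 1 by norm_num, one_smul, hW, hEL] at this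
      rw [← this, hLE]
    have hspeed : bil (G (p m)) V V = bil (G (p x)) W W := by
      have := RAtlas.GeoOn.speed hgeo isOpen_univ isPreconnected_univ (mem_univ (1 / 2 : ℝ))
        (mem_univ (0 : ℝ)) (i := j (p m)) (j := j (p x)) (by simp only [hpm]; exact hj _)
        (by simp only [zero_smul, (hq (p x)).zero]; exact hj _)
      rw [(hq (p x)).vel W] at this
      simp only [hpm, zero_smul, (hq (p x)).zero] at this
      exact this
    have hNV : N (p m) V = d x z := by simp only [hN, hd, hspeed, hW]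
    refine ⟨m, ?_, ?_, fun y => ?_⟩
    · change N (p x) (Lg x (Ex x ((1 / 2 : ℝ) • W))) = N (p x) W / 2
      rw [hLE, hNsmul, abs_of_pos (by norm_num)]
      ring
    · change N (p m) (Lg m z) = d x z / 2
      rw [hz, hNsmul, hNV, abs_of_pos (by norm_num)]
      ring
    · have h1 := P2 m x y
      have h2 := P2 m y z
      rw [hx] at h1
      rw [hz] at h2
      have hsq : ∀ w, N (p m) w ^ 2 = bil (G (p m)) w w := fun w =>
        Real.sq_sqrt (bil_self_nonneg (hGpos _) w)
      have h3 := pow_le_pow_left₀ (hN0 _ _) h1 2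
      have h4 := pow_le_pow_left₀ (hN0 _ _) h2 2
      rw [hcomm y m, ← hNV]
      change N (p m) (Lg m y) ^ 2 ≤ _
      rw [hsq] at h3 h4
      rw [hsq, hsq]
      simp only [bil_sub_left, bil_sub_right, bil_smul_left, bil_smul_right] at h3 h4
      linarith
  · have hφ' : ∀ x, p (φ x) = p x := hφ
    have := (hcov (p x)).eq_of_comp_eq (g₁ := fun y => Lg (φ x) (φ y)) (g₂ := Lg x)
      ((Lg (φ x)).continuous.comp φ.continuous) (Lg x).continuous
      (funext fun y => by
        simp only [Function.comp, hLg1]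
        rw [← hφ' x, hLg1, hφ']) x
      (by simp only [hLg0])
    have h2 : Lg (φ x) (φ y) = Lg x y := congrFun this y
    simp only [hd, h2, hφ']
  · have h1 : Ex x ⁻¹' U ∈ 𝓝 (0 : E n) :=
      (Ex x).continuous.continuousAt.preimage_mem_nhds (by rwa [hEx0])
    obtain ⟨δ, hδ, hball⟩ := Metric.mem_nhds_iff.1 h1
    obtain ⟨c, hc, hcb⟩ := exists_norm_sq_le_bil (hGpos (p x))
    refine ⟨√c * (δ / 2), by positivity, Lg x ⁻¹' Metric.ball 0 (δ / 2),
      (Lg x).continuous.continuousAt.preimage_mem_nhds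
        (by rw [hLg0]; exact Metric.ball_mem_nhds _ (by positivity)), fun y hy z hz => ?_⟩
    have h2 : √c * ‖Lg x z - Lg x y‖ ≤ N (p x) (Lg x z - Lg x y) := by
      refine Real.le_sqrt_of_sq_le ?_
      rw [mul_pow, Real.sq_sqrt hc.le]
      exact hcb _
    have h3 : ‖Lg x z - Lg x y‖ < δ / 2 :=
      lt_of_mul_lt_mul_left (h2.trans_lt ((P2 x y z).trans_lt hz)) (Real.sqrt_nonneg c)
    have h4 : ‖Lg x y‖ < δ / 2 := mem_ball_zero_iff.1 hy
    have h5 : Lg x z ∈ Metric.ball (0 : E n) δ := by
      rw [mem_ball_zero_iff]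
      have := norm_add_le (Lg x z - Lg x y) (Lg x y)
      rw [sub_add_cancel] at this
      linarith
    have := hball h5
    rwa [mem_preimage, hEL] at this

end Crest.Agent.R244
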