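import Crest.Agent.R244.Defs

/-! Row 244: Riemannian calculus in one chart. -/

set_option autoImplicit false

open Set Filter
open scoped ContDiff Topology

namespace Crest.Agent.R244

open Crest.GeometryTopology.CoordMetric Crest.GeometryTopology.ChartCurvature
  Crest.GeometryTopology.Geodesic

variable {n : ℕ}

section Bil
variable (g : Matrix (Fin n) (Fin n) ℝ)

theorem bil_add_left (u u' v : E n) : bil g (u + u') v = bil g u v + bil g u' v := by
  simp [bil, mul_add, add_mul, Finset.sum_add_distrib]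

theorem bil_add_right (u v v' : E n) : bil g u (v + v') = bil g u v + bil g u v' := by
  simp [bil, mul_add, Finset.sum_add_distrib]

theorem bil_smul_left (a : ℝ) (u v : E n) : bil g (a • u) v = a * bil g u v := by
  simp only [bil, PiLp.smul_apply, smul_eq_mul, Finset.mul_sum]
  exact Finset.sum_congr rfl fun i _ => Finset.sum_congr rfl fun j _ => by ring

theorem bil_smul_right (a : ℝ) (u v : E n) : bil g u (a • v) = a * bil g u v := by
  simp only [bil, PiLp.smul_apply, smul_eq_mul, Finset.mul_sum]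
  exact Finset.sum_congr rfl fun i _ => Finset.sum_congr rfl fun j _ => by ring

theorem bil_neg_left (u v : E n) : bil g (-u) v = -bil g u v := by
  simp [bil]

theorem bil_neg_right (u v : E n) : bil g u (-v) = -bil g u v := by
  simp [bil]

theorem bil_sub_left (u u' v : E n) : bil g (u - u') v = bil g u v - bil g u' v := by
  rw [sub_eq_add_neg, bil_add_left, bil_neg_left, sub_eq_add_neg]

theorem bil_sub_right (u v v' : E n) : bil g u (v - v') = bil g u v - bil g u v' := by
  rw [sub_eq_add_neg, bil_add_right, bil_neg_right, sub_eq_add_neg]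

@[simp] theorem bil_zero_left (v : E n) : bil g 0 v = 0 := by
  simp [bil]

@[simp] theorem bil_zero_right (u : E n) : bil g u 0 = 0 := by
  simp [bil]

/-- `bil` as a continuous bilinear map. -/
theorem exists_bilL : ∃ B : E n →L[ℝ] E n →L[ℝ] ℝ, ∀ u v, B u v = bil g u v := by
  let B0 : E n →ₗ[ℝ] E n →ₗ[ℝ] ℝ := LinearMap.mk₂ ℝ (bil g) (bil_add_left g)
    (fun a u v => bil_smul_left g a u v) (bil_add_right g) (fun a u v => bil_smul_right g a u v)
  exact ⟨LinearMap.toContinuousLinearMap
    ((LinearMap.toContinuousLinearMap : (E n →ₗ[ℝ] ℝ) ≃ₗ[ℝ] (E n →L[ℝ] ℝ)).toLinearMap ∘ₗ B0),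
    fun u v => rfl⟩

theorem bil_one (u v : E n) : bil (1 : Matrix (Fin n) (Fin n) ℝ) u v = inner ℝ u v := by
  simp only [bil, Matrix.one_apply, PiLp.inner_apply, ite_mul, one_mul, zero_mul,
    Finset.sum_ite_eq, Finset.mem_univ, if_true]
  exact Finset.sum_congr rfl fun i _ => by simp [mul_comm]

variable {g}

theorem posDef_symm_coord (hg : g.PosDef) (i j : Fin n) : g i j = g j i := by
  simpa using hg.isHermitian.apply j i

theorem bil_eq_dot_coord (u v : E n) : bil g u v = u.ofLp ⬝ᵥ g.mulVec v.ofLp := by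
  simp only [bil, dotProduct, Matrix.mulVec, Finset.mul_sum]
  exact Finset.sum_congr rfl fun i _ => Finset.sum_congr rfl fun j _ => by ring

theorem bil_comm (hg : g.PosDef) (u v : E n) : bil g u v = bil g v u := by
  unfold bil
  rw [Finset.sum_comm]
  refine Finset.sum_congr rfl fun i _ => Finset.sum_congr rfl fun j _ => ?_
  rw [posDef_symm_coord hg j i]; ring

theorem bil_self_pos (hg : g.PosDef) {v : E n} (hv : v ≠ 0) : 0 < bil g v v := by
  rw [bil_eq_dot_coord]
  have hv' : v.ofLp ≠ 0 := fun h => hv (by ext i; simpa using congrFun h i)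
  simpa using hg.dotProduct_mulVec_pos hv'

theorem bil_self_nonneg (hg : g.PosDef) (v : E n) : 0 ≤ bil g v v := by
  by_cases hv : v = 0
  · simp [hv]
  · exact (bil_self_pos hg hv).le

theorem bil_sq_le (hg : g.PosDef) (u v : E n) : bil g u v ^ 2 ≤ bil g u u * bil g v v := by
  have h : ∀ t : ℝ, 0 ≤ bil g v v * (t * t) + 2 * bil g u v * t + bil g u u := by
    intro t
    have h0 := bil_self_nonneg hg (u + t • v)
    rw [bil_add_left, bil_add_right, bil_add_right, bil_smul_left, bil_smul_left, bil_smul_right,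
      bil_smul_right, bil_comm hg v u] at h0
    linarith
  have h2 := discrim_le_zero h
  unfold discrim at h2
  nlinarith

theorem exists_norm_sq_le_bil (hg : g.PosDef) : ∃ c > 0, ∀ v : E n, c * ‖v‖ ^ 2 ≤ bil g v v := by
  obtain ⟨B, hB⟩ := exists_bilL g
  have hc : Continuous fun v : E n => bil g v v := by
    simp only [← hB]; fun_prop
  have key : ∀ c : ℝ, (∀ w ∈ Metric.sphere (0 : E n) 1, c ≤ bil g w w) →
      ∀ v : E n, c * ‖v‖ ^ 2 ≤ bil g v v := by
    intro c h v
    by_cases hv : v = 0
    · simp [hv]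
    · have hn : ‖v‖ ≠ 0 := norm_ne_zero_iff.2 hv
      have h1 := h (‖v‖⁻¹ • v) (by simp [norm_smul, hn])
      rw [bil_smul_left, bil_smul_right] at h1
      have h2 := mul_le_mul_of_nonneg_right h1 (sq_nonneg ‖v‖)
      calc _ ≤ _ := h2
        _ = _ := by field_simp
  rcases (Metric.sphere (0 : E n) 1).eq_empty_or_nonempty with he | hne
  · exact ⟨1, one_pos, key 1 (by simp [he])⟩
  · obtain ⟨w, hw, hmin⟩ := (isCompact_sphere (0 : E n) 1).exists_isMinOn hne hc.continuousOn
    have hw0 : w ≠ 0 := by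
      rintro rfl
      simp at hw
    exact ⟨bil g w w, bil_self_pos hg hw0, key _ fun w' hw' => hmin hw'⟩

theorem eq_of_bil_eq (hg : g.PosDef) {u v : E n} (h : ∀ w, bil g u w = bil g v w) : u = v := by
  by_contra hne
  have h1 := bil_self_pos hg (sub_ne_zero.2 hne)
  rw [bil_sub_left, h, sub_self] at h1
  exact lt_irrefl _ h1

end Bil

variable {g : MetricField n} {U : Set (E n)}

theorem Gam_add_left (x u u' v : E n) : Gam g x (u + u') v = Gam g x u v + Gam g x u' v := by
  ext k
  simp [Gam, mul_add, add_mul, Finset.sum_add_distrib]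

theorem Gam_add_right (x u v v' : E n) : Gam g x u (v + v') = Gam g x u v + Gam g x u v' := by
  ext k
  simp [Gam, mul_add, Finset.sum_add_distrib]

theorem Gam_smul_left (a : ℝ) (x u v : E n) : Gam g x (a • u) v = a • Gam g x u v := by
  ext k
  simp only [Gam, PiLp.smul_apply, smul_eq_mul, Finset.mul_sum]
  exact Finset.sum_congr rfl fun i _ => Finset.sum_congr rfl fun j _ => by ring

theorem Gam_smul_right (a : ℝ) (x u v : E n) : Gam g x u (a • v) = a • Gam g x u v := by
  ext k
  simp only [Gam, PiLp.smul_apply, smul_eq_mul, Finset.mul_sum]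
  exact Finset.sum_congr rfl fun i _ => Finset.sum_congr rfl fun j _ => by ring

@[simp] theorem Gam_zero_left (x v : E n) : Gam g x 0 v = 0 := by
  ext k
  simp [Gam]

@[simp] theorem Gam_zero_right (x u : E n) : Gam g x u 0 = 0 := by
  ext k
  simp [Gam]

theorem pderiv_congr_coord {f f' : E n → ℝ} {x : E n} (a : Fin n) (h : f =ᶠ[𝓝 x] f') :
    pderiv a f x = pderiv a f' x := by
  unfold pderiv
  rw [h.fderiv_eq]

theorem christoffel_symm_coord (hg : IsRiemannianOn g U) {x : E n} (hx : x ∈ U) (k i j : Fin n) :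
    christoffel g x k i j = christoffel g x k j i := by
  unfold christoffel
  congr 1
  refine Finset.sum_congr rfl fun l _ => ?_
  have h : pderiv l (fun y => g y i j) x = pderiv l (fun y => g y j i) x := by
    refine pderiv_congr_coord l ?_
    filter_upwards [hg.isOpen.mem_nhds hx] with y hy using posDef_symm_coord (hg.posDef y hy) i j
  rw [h]; ring

theorem christoffel_congr_coord {g' : MetricField n} {x : E n} (h : g =ᶠ[𝓝 x] g')
    (k i j : Fin n) : christoffel g x k i j = christoffel g' x k i j := by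
  have h2 : ∀ a b c : Fin n, pderiv a (fun y => g y b c) x = pderiv a (fun y => g' y b c) x := by
    intro a b c
    refine pderiv_congr_coord a ?_
    filter_upwards [h] with y hy
    rw [hy]
  simp only [christoffel, inverseField, h2, h.eq_of_nhds]

theorem Gam_comm (hg : IsRiemannianOn g U) {x : E n} (hx : x ∈ U) (u v : E n) :
    Gam g x u v = Gam g x v u := by
  ext k
  simp only [Gam]
  rw [Finset.sum_comm]
  refine Finset.sum_congr rfl fun i _ => Finset.sum_congr rfl fun j _ => ?_
  rw [christoffel_symm_coord hg hx k j i]; ring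

theorem Gam_const (m : Matrix (Fin n) (Fin n) ℝ) (x u v : E n) : Gam (fun _ => m) x u v = 0 := by
  ext k
  simp [Gam, christoffel, pderiv]

theorem Gam_congr {g' : MetricField n} {x : E n} (h : g =ᶠ[𝓝 x] g') (u v : E n) :
    Gam g x u v = Gam g' x u v := by
  ext k
  simp only [Gam, christoffel_congr_coord h]

theorem Rv_congr {g' : MetricField n} {x : E n} (h : g =ᶠ[𝓝 x] g') (u v : E n) :
    Rv g x u v = Rv g' x u v := by
  ext l
  have h2 : ∀ (a k i j : Fin n), pderiv a (fun y => christoffel g y k i j) x =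
      pderiv a (fun y => christoffel g' y k i j) x := by
    intro a k i j
    refine pderiv_congr_coord a ?_
    filter_upwards [h.eventuallyEq_nhds] with y hy using christoffel_congr_coord hy k i j
  simp only [Rv, riemann, christoffel_congr_coord h, h2]

theorem contDiffAt_det_coord {m : MetricField n} {x : E n}
    (hs : ∀ a b, ContDiffAt ℝ ∞ (fun y => m y a b) x) :
    ContDiffAt ℝ ∞ (fun y => (m y).det) x := by
  simp only [Matrix.det_apply']
  exact ContDiffAt.sum fun σ _ => contDiffAt_const.mul (contDiffAt_prod fun i _ => hs _ _)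

theorem contDiffAt_inv_coord {m : MetricField n} {x : E n}
    (hs : ∀ a b, ContDiffAt ℝ ∞ (fun y => m y a b) x) (hd : (m x).det ≠ 0) (k l : Fin n) :
    ContDiffAt ℝ ∞ (fun y => inverseField m y k l) x := by
  simp only [inverseField, Matrix.inv_def, Ring.inverse_eq_inv', Matrix.smul_apply, smul_eq_mul,
    Matrix.adjugate_apply]
  refine ((contDiffAt_det_coord hs).inv hd).mul (contDiffAt_det_coord fun a b => ?_)
  simp only [Matrix.updateRow_apply]
  split_ifs
  · exact contDiffAt_const
  · exact hs a b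

theorem contDiffAt_pderiv_coord {f : E n → ℝ} {x : E n} (hf : ContDiffAt ℝ ∞ f x) (a : Fin n) :
    ContDiffAt ℝ ∞ (pderiv a f) x :=
  (hf.fderiv_right (m := ∞) (by simp)).clm_apply contDiffAt_const

theorem contDiffAt_christoffel (hg : IsRiemannianOn g U) {x : E n} (hx : x ∈ U) (k i j : Fin n) :
    ContDiffAt ℝ ∞ (fun y => christoffel g y k i j) x := by
  have hs : ∀ a b, ContDiffAt ℝ ∞ (fun y => g y a b) x := fun a b =>
    (hg.contDiffOn a b).contDiffAt (hg.isOpen.mem_nhds hx)
  unfold christoffel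
  refine contDiffAt_const.mul (ContDiffAt.sum fun l _ => ContDiffAt.mul ?_ ?_)
  · exact contDiffAt_inv_coord hs (hg.posDef x hx).det_pos.ne' k l
  · exact ((contDiffAt_pderiv_coord (hs _ _) _).add (contDiffAt_pderiv_coord (hs _ _) _)).sub
      (contDiffAt_pderiv_coord (hs _ _) _)

theorem contDiffAt_Gam (hg : IsRiemannianOn g U) {z : E n × E n × E n} (hz : z.1 ∈ U) :
    ContDiffAt ℝ ∞ (fun w : E n × E n × E n => Gam g w.1 w.2.1 w.2.2) z := by
  refine contDiffAt_euclidean.2 fun k => ?_
  simp only [Gam]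
  refine ContDiffAt.sum fun i _ => ContDiffAt.sum fun j _ => (ContDiffAt.mul ?_ ?_).mul ?_
  · exact (contDiffAt_christoffel hg hz k i j).comp z contDiffAt_fst
  · fun_prop
  · fun_prop

theorem contDiffAt_bil (hg : IsRiemannianOn g U) {z : E n × E n × E n} (hz : z.1 ∈ U) :
    ContDiffAt ℝ ∞ (fun w : E n × E n × E n => bil (g w.1) w.2.1 w.2.2) z := by
  simp only [bil]
  refine ContDiffAt.sum fun i _ => ContDiffAt.sum fun j _ => (ContDiffAt.mul ?_ ?_).mul ?_
  · exact ((hg.contDiffOn i j).contDiffAt (hg.isOpen.mem_nhds hz)).comp z contDiffAt_fst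
  · fun_prop
  · fun_prop

theorem contDiffAt_spray (hg : IsRiemannianOn g U) {z : E n × E n} (hz : z.1 ∈ U) :
    ContDiffAt ℝ ∞ (spray g) z := by
  unfold spray
  refine contDiffAt_snd.prodMk (ContDiffAt.neg ?_)
  have h1 : ContDiffAt ℝ ∞ (fun w : E n × E n => (w.1, w.2, w.2)) z := by fun_prop
  have h2 := (contDiffAt_Gam hg (z := (z.1, z.2, z.2)) hz).comp z h1
  exact h2

theorem jet_fst {c : ℝ → E n} {a : E n × E n} {s : ℝ} (h : HasDerivAt (jet c) a s) :
    HasDerivAt c (deriv c s) s ∧ a.1 = deriv c s := by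
  have h1 : HasDerivAt c a.1 s :=
    (ContinuousLinearMap.fst ℝ (E n) (E n)).hasFDerivAt.comp_hasDerivAt s h
  exact ⟨h1.differentiableAt.hasDerivAt, h1.deriv.symm⟩

theorem jet_snd {c : ℝ → E n} {a : E n × E n} {s : ℝ} (h : HasDerivAt (jet c) a s) :
    HasDerivAt (deriv c) a.2 s := by
  exact (ContinuousLinearMap.snd ℝ (E n) (E n)).hasFDerivAt.comp_hasDerivAt s h

theorem hasDerivAt_jet {c : ℝ → E n} {a : E n} {s : ℝ} (h1 : DifferentiableAt ℝ c s)
    (h2 : HasDerivAt (deriv c) a s) : HasDerivAt (jet c) (deriv c s, a) s := by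
  exact h1.hasDerivAt.prodMk h2

theorem secNumer_eq (x u v : E n) : secNumer g x u v = bil (g x) (Rv g x u v) u := rfl

theorem covDeriv_eq (c V : ℝ → E n) : covDeriv g c V = cov g c V := by
  funext t
  ext k
  simp [covDeriv, cov, Gam]

theorem geodesicEqAt_iff (c : ℝ → E n) (t : ℝ) :
    GeodesicEqAt g c t ↔ deriv (deriv c) t = -Gam g (c t) (deriv c t) (deriv c t) := by
  rw [eq_neg_iff_add_eq_zero]
  unfold GeodesicEqAt
  constructor
  · intro h
    ext k
    simpa [Gam] using h k
  · intro h k
    simpa [Gam] using congrArg (fun w : E n => w k) h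

theorem jacobiEqAt_iff (c J : ℝ → E n) (t : ℝ) :
    JacobiEqAt g c J t ↔ cov g c (cov g c J) t = -Rv g (c t) (J t) (deriv c t) := by
  rw [eq_neg_iff_add_eq_zero]
  unfold JacobiEqAt
  rw [covDeriv_eq, covDeriv_eq]
  constructor
  · intro h
    ext k
    simpa [Rv] using h k
  · intro h k
    simpa [Rv] using congrArg (fun w : E n => w k) h

end Crest.Agent.R244
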