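import Crest.Agent.R244.Coord

/-! Row 244: metric compatibility and the Jacobi operator in one chart. -/

set_option autoImplicit false

open Set Filter
open scoped ContDiff Topology

namespace Crest.Agent.R244

open Crest.GeometryTopology.CoordMetric Crest.GeometryTopology.ChartCurvature
  Crest.GeometryTopology.Geodesic

variable {n : ℕ} {g : MetricField n} {U : Set (E n)}

namespace C2

theorem fderiv_eq_sum (f : E n → ℝ) (x w : E n) :
    fderiv ℝ f x w = ∑ k, w k * pderiv k f x := by
  have hw : w = ∑ k, w k • (EuclideanSpace.single k (1 : ℝ) : E n) := by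
    ext j
    simp [Finset.sum_apply, Pi.single_apply]
  conv_lhs => rw [hw]
  rw [map_sum]
  refine Finset.sum_congr rfl fun k _ => ?_
  rw [map_smul, smul_eq_mul]
  rfl

theorem symm_apply (hg : IsRiemannianOn g U) {x : E n} (hx : x ∈ U) (i j : Fin n) :
    g x i j = g x j i := by
  have h := (hg.posDef x hx).isHermitian
  have := congrFun (congrFun h j) i
  simpa [Matrix.conjTranspose_apply] using this

theorem pderiv_symm (hg : IsRiemannianOn g U) {x : E n} (hx : x ∈ U) (k i j : Fin n) :
    pderiv k (fun y => g y i j) x = pderiv k (fun y => g y j i) x := by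
  have h : (fun y => g y i j) =ᶠ[𝓝 x] fun y => g y j i := by
    filter_upwards [hg.isOpen.mem_nhds hx] with y hy using symm_apply hg hy i j
  unfold pderiv
  rw [h.fderiv_eq]

theorem diffAt_entry (hg : IsRiemannianOn g U) {x : E n} (hx : x ∈ U) (i j : Fin n) :
    DifferentiableAt ℝ (fun y => g y i j) x :=
  ((hg.contDiffOn i j).contDiffAt (hg.isOpen.mem_nhds hx)).differentiableAt (by simp)

theorem diffAt_chr (hg : IsRiemannianOn g U) {x : E n} (hx : x ∈ U) (k i j : Fin n) :
    DifferentiableAt ℝ (fun y => christoffel g y k i j) x :=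
  (contDiffAt_christoffel hg hx k i j).differentiableAt (by simp)

theorem lower_chr (hg : IsRiemannianOn g U) {x : E n} (hx : x ∈ U) (l i j : Fin n) :
    ∑ m, g x l m * christoffel g x m i j =
      (1 / 2) * (pderiv i (fun y => g y j l) x + pderiv j (fun y => g y i l) x
        - pderiv l (fun y => g y i j) x) := by
  have hu : IsUnit (g x).det := by
    rw [← Matrix.isUnit_iff_isUnit_det]
    exact (hg.posDef x hx).isUnit
  have h1 : g x * (g x)⁻¹ = 1 := Matrix.mul_nonsing_inv _ hu
  set T : Fin n → ℝ := fun r => pderiv i (fun y => g y j r) x + pderiv j (fun y => g y i r) x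
        - pderiv r (fun y => g y i j) x with hT
  have h2 : ∀ m, christoffel g x m i j = (1 / 2) * ∑ r, (g x)⁻¹ m r * T r := fun m => rfl
  simp only [h2]
  calc ∑ m, g x l m * ((1 / 2) * ∑ r, (g x)⁻¹ m r * T r)
      = (1 / 2) * ∑ r, (∑ m, g x l m * (g x)⁻¹ m r) * T r := by
        simp only [Finset.mul_sum, Finset.sum_mul]
        rw [Finset.sum_comm]
        refine Finset.sum_congr rfl fun r _ => Finset.sum_congr rfl fun m _ => by ring
    _ = (1 / 2) * ∑ r, (1 : Matrix (Fin n) (Fin n) ℝ) l r * T r := by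
        congr 1
        refine Finset.sum_congr rfl fun r _ => ?_
        rw [← h1, Matrix.mul_apply]
    _ = (1 / 2) * T l := by
        congr 1
        simp [Matrix.one_apply]

theorem hasFDerivAt_sum2 {a : Fin n → Fin n → E n → ℝ} {x : E n}
    (ha : ∀ i j, DifferentiableAt ℝ (a i j) x) (u v : E n) :
    HasFDerivAt (fun y => ∑ i, ∑ j, a i j y * u i * v j)
      (∑ i, ∑ j, (u i * v j) • fderiv ℝ (a i j) x) x := by
  refine HasFDerivAt.fun_sum fun i _ => HasFDerivAt.fun_sum fun j _ => ?_
  have h := ((ha i j).hasFDerivAt.mul_const (u i)).mul_const (v j)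
  refine h.congr_fderiv ?_
  rw [smul_smul, mul_comm]

theorem fderiv_sum2 {a : Fin n → Fin n → E n → ℝ} {x : E n}
    (ha : ∀ i j, DifferentiableAt ℝ (a i j) x) (u v w : E n) :
    fderiv ℝ (fun y => ∑ i, ∑ j, a i j y * u i * v j) x w =
      ∑ i, ∑ j, fderiv ℝ (a i j) x w * u i * v j := by
  rw [(hasFDerivAt_sum2 ha u v).fderiv]
  simp only [sum_apply, smul_apply, smul_eq_mul]
  refine Finset.sum_congr rfl fun i _ => Finset.sum_congr rfl fun j _ => by ring

theorem hasDerivAt_coord {ξ : ℝ → E n} {ξ' : E n} {s : ℝ} (h : HasDerivAt ξ ξ' s) (i : Fin n) :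
    HasDerivAt (fun s => ξ s i) (ξ' i) s := by
  exact (EuclideanSpace.proj (𝕜 := ℝ) i : E n →L[ℝ] ℝ).hasFDerivAt.comp_hasDerivAt s h

theorem hasDerivAt_sum2 {a : Fin n → Fin n → E n → ℝ} {c ξ η : ℝ → E n} {c' ξ' η' : E n} {s : ℝ}
    (ha : ∀ i j, DifferentiableAt ℝ (a i j) (c s))
    (hc : HasDerivAt c c' s) (hξ : HasDerivAt ξ ξ' s) (hη : HasDerivAt η η' s) :
    HasDerivAt (fun s => ∑ i, ∑ j, a i j (c s) * ξ s i * η s j)
      ((∑ i, ∑ j, fderiv ℝ (a i j) (c s) c' * ξ s i * η s j) +
        (∑ i, ∑ j, a i j (c s) * ξ' i * η s j) + ∑ i, ∑ j, a i j (c s) * ξ s i * η' j) s := by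
  have h : HasDerivAt (fun s => ∑ i, ∑ j, a i j (c s) * ξ s i * η s j)
      (∑ i, ∑ j, (fderiv ℝ (a i j) (c s) c' * ξ s i * η s j + a i j (c s) * ξ' i * η s j +
        a i j (c s) * ξ s i * η' j)) s := by
    refine HasDerivAt.fun_sum fun i _ => HasDerivAt.fun_sum fun j _ => ?_
    have h1 := (ha i j).hasFDerivAt.comp_hasDerivAt s hc
    have h2 := (h1.fun_mul (hasDerivAt_coord hξ i)).fun_mul (hasDerivAt_coord hη j)
    refine h2.congr_deriv ?_
    simp only [Function.comp]
    ring
  simpa only [Finset.sum_add_distrib] using h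

/-- derivative of the Christoffel map in the base point. -/
noncomputable def dG (g : MetricField n) (x a u v : E n) : E n :=
  WithLp.toLp 2 fun k => ∑ i, ∑ j, fderiv ℝ (fun y => christoffel g y k i j) x a * u i * v j

theorem hasDerivAt_of_coord {ξ : ℝ → E n} {ξ' : E n} {s : ℝ}
    (h : ∀ i, HasDerivAt (fun s => ξ s i) (ξ' i) s) : HasDerivAt ξ ξ' s := by
  have h1 : HasDerivAt (fun s => (fun i => ξ s i : Fin n → ℝ)) (fun i => ξ' i) s :=
    hasDerivAt_pi.2 h
  have := (EuclideanSpace.equiv (Fin n) ℝ).symm.hasFDerivAt.comp_hasDerivAt s h1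
  exact this

theorem hasDerivAt_Gam (hg : IsRiemannianOn g U) {c ξ η : ℝ → E n} {c' ξ' η' : E n} {s : ℝ}
    (hs : c s ∈ U) (hc : HasDerivAt c c' s) (hξ : HasDerivAt ξ ξ' s) (hη : HasDerivAt η η' s) :
    HasDerivAt (fun s => Gam g (c s) (ξ s) (η s))
      (dG g (c s) c' (ξ s) (η s) + Gam g (c s) ξ' (η s) + Gam g (c s) (ξ s) η') s := by
  refine hasDerivAt_of_coord fun k => ?_
  exact hasDerivAt_sum2 (a := fun i j y => christoffel g y k i j)
    (fun i j => diffAt_chr hg hs k i j) hc hξ hη

theorem hasDerivAt_line (x a : E n) : HasDerivAt (fun t : ℝ => x + t • a) a 0 := by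
  simpa using ((hasDerivAt_id (0 : ℝ)).smul_const a).const_add x

theorem fderiv_Gam (hg : IsRiemannianOn g U) {x : E n} (hx : x ∈ U) (a u v : E n) :
    fderiv ℝ (fun y => Gam g y u v) x a = dG g x a u v := by
  have hd : DifferentiableAt ℝ (fun y => Gam g y u v) x := by
    have h1 := (contDiffAt_Gam hg (z := (x, u, v)) hx).differentiableAt (by simp)
    have h2 : DifferentiableAt ℝ (fun y : E n => (y, u, v)) x := by fun_prop
    exact DifferentiableAt.comp (g := fun w : E n × E n × E n => Gam g w.1 w.2.1 w.2.2)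
      (f := fun y : E n => (y, u, v)) x h1 h2
  have h1 : HasDerivAt (fun t : ℝ => Gam g (x + t • a) u v) (fderiv ℝ (fun y => Gam g y u v) x a) 0 := by
    have h0 : HasFDerivAt (fun y => Gam g y u v) (fderiv ℝ (fun y => Gam g y u v) x)
        (x + (0 : ℝ) • a) := by simpa using hd.hasFDerivAt
    exact h0.comp_hasDerivAt (0 : ℝ) (hasDerivAt_line x a)
  have h2 := hasDerivAt_Gam hg (c := fun t : ℝ => x + t • a) (ξ := fun _ => u) (η := fun _ => v)
    (s := 0) (by simpa using hx) (hasDerivAt_line x a) (hasDerivAt_const _ _) (hasDerivAt_const _ _)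
  have := h1.unique h2
  simpa using this

theorem dG_comm (hg : IsRiemannianOn g U) {x : E n} (hx : x ∈ U) (a u v : E n) :
    dG g x a u v = dG g x a v u := by
  rw [← fderiv_Gam hg hx, ← fderiv_Gam hg hx]
  have h : (fun y => Gam g y u v) =ᶠ[𝓝 x] fun y => Gam g y v u := by
    filter_upwards [hg.isOpen.mem_nhds hx] with y hy using Gam_comm hg hy u v
  rw [h.fderiv_eq]

theorem Rv_eq (x u v : E n) :
    Rv g x u v = dG g x u v v - dG g x v u v + Gam g x u (Gam g x v v) - Gam g x v (Gam g x u v) := by
  ext l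
  have e1 : dG g x u v v l = ∑ k, ∑ i, ∑ j,
      pderiv i (fun y => christoffel g y l j k) x * v k * u i * v j := by
    change ∑ j, ∑ k, fderiv ℝ (fun y => christoffel g y l j k) x u * v j * v k = _
    simp only [fderiv_eq_sum, Finset.sum_mul]
    rw [Finset.sum_comm]
    refine Finset.sum_congr rfl fun k _ => ?_
    rw [Finset.sum_comm]
    refine Finset.sum_congr rfl fun i _ => Finset.sum_congr rfl fun j _ => by ring
  have e2 : dG g x v u v l = ∑ k, ∑ i, ∑ j,
      pderiv j (fun y => christoffel g y l i k) x * v k * u i * v j := by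
    change ∑ i, ∑ k, fderiv ℝ (fun y => christoffel g y l i k) x v * u i * v k = _
    simp only [fderiv_eq_sum, Finset.sum_mul]
    rw [Finset.sum_comm]
    refine Finset.sum_congr rfl fun k _ => ?_
    refine Finset.sum_congr rfl fun i _ => Finset.sum_congr rfl fun j _ => by ring
  have e3 : Gam g x u (Gam g x v v) l = ∑ k, ∑ i, ∑ j,
      (∑ a, christoffel g x l i a * christoffel g x a j k) * v k * u i * v j := by
    change ∑ i, ∑ a, christoffel g x l i a * u i *
      (∑ j, ∑ k, christoffel g x a j k * v j * v k) = _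
    simp only [Finset.sum_mul, Finset.mul_sum]
    rw [Finset.sum_comm (γ := Fin n) (s := Finset.univ) (t := Finset.univ)
      (f := fun k i => ∑ j, ∑ a, christoffel g x l i a * christoffel g x a j k * v k * u i * v j)]
    refine Finset.sum_congr rfl fun i _ => ?_
    rw [Finset.sum_comm]
    rw [Finset.sum_comm (γ := Fin n) (s := Finset.univ) (t := Finset.univ)
      (f := fun k j => ∑ a, christoffel g x l i a * christoffel g x a j k * v k * u i * v j)]
    refine Finset.sum_congr rfl fun j _ => ?_
    rw [Finset.sum_comm]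
    refine Finset.sum_congr rfl fun k _ => Finset.sum_congr rfl fun a _ => by ring
  have e4 : Gam g x v (Gam g x u v) l = ∑ k, ∑ i, ∑ j,
      (∑ a, christoffel g x l j a * christoffel g x a i k) * v k * u i * v j := by
    change ∑ j, ∑ a, christoffel g x l j a * v j *
      (∑ i, ∑ k, christoffel g x a i k * u i * v k) = _
    simp only [Finset.sum_mul, Finset.mul_sum]
    calc _ = ∑ j, ∑ k, ∑ i, ∑ a,
          christoffel g x l j a * christoffel g x a i k * v k * u i * v j := by
          refine Finset.sum_congr rfl fun j _ => ?_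
          rw [Finset.sum_comm]
          rw [Finset.sum_comm (γ := Fin n) (s := Finset.univ) (t := Finset.univ)
            (f := fun k i => ∑ a, christoffel g x l j a * christoffel g x a i k * v k * u i * v j)]
          refine Finset.sum_congr rfl fun i _ => ?_
          rw [Finset.sum_comm]
          refine Finset.sum_congr rfl fun k _ => Finset.sum_congr rfl fun a _ => by ring
      _ = _ := by
          rw [Finset.sum_comm]
          refine Finset.sum_congr rfl fun k _ => ?_
          rw [Finset.sum_comm]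
  change ∑ k, ∑ i, ∑ j, riemann g x l k i j * v k * u i * v j =
    dG g x u v v l - dG g x v u v l + Gam g x u (Gam g x v v) l - Gam g x v (Gam g x u v) l
  rw [e1, e2, e3, e4]
  simp only [← Finset.sum_sub_distrib, ← Finset.sum_add_distrib]
  refine Finset.sum_congr rfl fun k _ => Finset.sum_congr rfl fun i _ =>
    Finset.sum_congr rfl fun j _ => ?_
  unfold riemann
  rw [Finset.sum_sub_distrib]
  ring

theorem Gam_neg_left (x u v : E n) : Gam g x (-u) v = -Gam g x u v := by
  rw [← neg_one_smul ℝ u, Gam_smul_left, neg_one_smul]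

end C2

open C2

/-- metric compatibility of the Christoffel symbols. -/
theorem fderiv_bil (hg : IsRiemannianOn g U) {x : E n} (hx : x ∈ U) (u v w : E n) :
    fderiv ℝ (fun y => bil (g y) u v) x w =
      bil (g x) (Gam g x w u) v + bil (g x) u (Gam g x w v) := by
  have e0 : fderiv ℝ (fun y => bil (g y) u v) x w =
      ∑ k, ∑ i, ∑ j, pderiv k (fun y => g y i j) x * (w k * u i * v j) := by
    have := fderiv_sum2 (a := fun i j y => g y i j) (fun i j => diffAt_entry hg hx i j) u v w
    unfold bil
    rw [this]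
    simp only [fderiv_eq_sum, Finset.sum_mul]
    calc _ = ∑ i, ∑ k, ∑ j, pderiv k (fun y => g y i j) x * (w k * u i * v j) := by
          refine Finset.sum_congr rfl fun i _ => ?_
          rw [Finset.sum_comm]
          refine Finset.sum_congr rfl fun k _ => Finset.sum_congr rfl fun j _ => by ring
      _ = _ := Finset.sum_comm
  have e1 : bil (g x) (Gam g x w u) v =
      ∑ k, ∑ i, ∑ j, (∑ m, g x j m * christoffel g x m k i) * (w k * u i * v j) := by
    change ∑ m, ∑ j, g x m j * (∑ k, ∑ i, christoffel g x m k i * w k * u i) * v j = _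
    simp only [Finset.sum_mul, Finset.mul_sum]
    calc _ = ∑ m, ∑ k, ∑ i, ∑ j, g x j m * christoffel g x m k i * (w k * u i * v j) := by
          refine Finset.sum_congr rfl fun m _ => ?_
          rw [Finset.sum_comm]
          refine Finset.sum_congr rfl fun k _ => ?_
          rw [Finset.sum_comm]
          refine Finset.sum_congr rfl fun i _ => Finset.sum_congr rfl fun j _ => ?_
          rw [symm_apply hg hx m j]
          ring
      _ = _ := by
          rw [Finset.sum_comm]
          refine Finset.sum_congr rfl fun k _ => ?_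
          rw [Finset.sum_comm]
          refine Finset.sum_congr rfl fun i _ => ?_
          rw [Finset.sum_comm]
  have e2 : bil (g x) u (Gam g x w v) =
      ∑ k, ∑ i, ∑ j, (∑ m, g x i m * christoffel g x m k j) * (w k * u i * v j) := by
    change ∑ i, ∑ m, g x i m * u i * (∑ k, ∑ j, christoffel g x m k j * w k * v j) = _
    simp only [Finset.sum_mul, Finset.mul_sum]
    calc _ = ∑ i, ∑ k, ∑ j, ∑ m, g x i m * christoffel g x m k j * (w k * u i * v j) := by
          refine Finset.sum_congr rfl fun i _ => ?_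
          rw [Finset.sum_comm]
          refine Finset.sum_congr rfl fun k _ => ?_
          rw [Finset.sum_comm]
          refine Finset.sum_congr rfl fun j _ => Finset.sum_congr rfl fun m _ => by ring
      _ = _ := Finset.sum_comm
  rw [e0, e1, e2]
  simp only [← Finset.sum_add_distrib]
  refine Finset.sum_congr rfl fun k _ => Finset.sum_congr rfl fun i _ =>
    Finset.sum_congr rfl fun j _ => ?_
  rw [lower_chr hg hx, lower_chr hg hx, pderiv_symm hg hx k j i]
  ring

/-- derivative of the inner product of two fields along a curve. -/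
theorem hasDerivAt_bil (hg : IsRiemannianOn g U) {c ξ η : ℝ → E n} {c' ξ' η' : E n} {s : ℝ}
    (hs : c s ∈ U) (hc : HasDerivAt c c' s) (hξ : HasDerivAt ξ ξ' s) (hη : HasDerivAt η η' s) :
    HasDerivAt (fun s => bil (g (c s)) (ξ s) (η s))
      (bil (g (c s)) (ξ' + Gam g (c s) c' (ξ s)) (η s) +
        bil (g (c s)) (ξ s) (η' + Gam g (c s) c' (η s))) s := by
  have h := hasDerivAt_sum2 (a := fun i j y => g y i j)
    (fun i j => diffAt_entry hg hs i j) hc hξ hη
  rw [← fderiv_sum2 (a := fun i j y => g y i j) (fun i j => diffAt_entry hg hs i j)] at h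
  have h2 := fderiv_bil hg hs (ξ s) (η s) c'
  change HasDerivAt (fun s => bil (g (c s)) (ξ s) (η s))
    (fderiv ℝ (fun y => bil (g y) (ξ s) (η s)) (c s) c' + bil (g (c s)) ξ' (η s) +
      bil (g (c s)) (ξ s) η') s at h
  rw [h2] at h
  convert h using 1
  rw [bil_add_left, bil_add_right]
  ring

theorem fderiv_spray (hg : IsRiemannianOn g U) {x : E n} (hx : x ∈ U) (v ξ η : E n) :
    fderiv ℝ (spray g) (x, v) (ξ, η) =
      (η, -fderiv ℝ (fun y => Gam g y v v) x ξ - (2 : ℝ) • Gam g x v η) := by
  have hd : DifferentiableAt ℝ (spray g) (x, v) :=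
    (contDiffAt_spray hg (z := (x, v)) hx).differentiableAt (by simp)
  have hl : HasDerivAt (fun t : ℝ => (x + t • ξ, v + t • η)) (ξ, η) 0 :=
    (hasDerivAt_line x ξ).prodMk (hasDerivAt_line v η)
  have h1 : HasDerivAt (fun t : ℝ => spray g (x + t • ξ, v + t • η))
      (fderiv ℝ (spray g) (x, v) (ξ, η)) 0 := by
    have h0 : HasFDerivAt (spray g) (fderiv ℝ (spray g) (x, v))
        (x + (0 : ℝ) • ξ, v + (0 : ℝ) • η) := by simpa using hd.hasFDerivAt
    exact h0.comp_hasDerivAt (0 : ℝ) hl
  have h2 := hasDerivAt_Gam hg (c := fun t : ℝ => x + t • ξ) (ξ := fun t : ℝ => v + t • η)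
    (η := fun t : ℝ => v + t • η) (s := 0) (by simpa using hx) (hasDerivAt_line x ξ)
    (hasDerivAt_line v η) (hasDerivAt_line v η)
  have h3 := (hasDerivAt_line v η).prodMk h2.fun_neg
  have h4 := h1.unique h3
  rw [h4, fderiv_Gam hg hx]
  simp only [zero_smul, add_zero, Prod.mk.injEq, true_and]
  rw [Gam_comm hg hx η v, two_smul]
  abel

/-- second covariant derivative along a geodesic: the Jacobi operator is the linearisation of the
geodesic equation. -/
theorem hasDerivAt_cov (hg : IsRiemannianOn g U) {c ξ : ℝ → E n} {a : E n} {s : ℝ}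
    (hs : c s ∈ U) (hc : HasDerivAt (jet c) (spray g (jet c s)) s)
    (hξ : HasDerivAt (jet ξ) (deriv ξ s, a) s) :
    HasDerivAt (cov g c ξ)
      (a - (fderiv ℝ (spray g) (jet c s) (jet ξ s)).2 - Rv g (c s) (ξ s) (deriv c s)
        - Gam g (c s) (deriv c s) (cov g c ξ s)) s := by
  have hc1 := (jet_fst hc).1
  have hc2 : HasDerivAt (deriv c) (-Gam g (c s) (deriv c s) (deriv c s)) s := jet_snd hc
  have hξ1 := (jet_fst hξ).1
  have hξ2 : HasDerivAt (deriv ξ) a s := jet_snd hξ
  have h := hξ2.fun_add (hasDerivAt_Gam hg hs hc1 hc2 hξ1)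
  have e : fderiv ℝ (spray g) (jet c s) (jet ξ s) = _ :=
    fderiv_spray hg hs (deriv c s) (ξ s) (deriv ξ s)
  change HasDerivAt (fun s => deriv ξ s + Gam g (c s) (deriv c s) (ξ s)) _ s
  refine h.congr_deriv ?_
  rw [e, Rv_eq, fderiv_Gam hg hs]
  unfold cov
  rw [Gam_add_right, Gam_neg_left, dG_comm hg hs (deriv c s) (ξ s) (deriv c s),
    Gam_comm hg hs (ξ s) (Gam g (c s) (deriv c s) (deriv c s)),
    Gam_comm hg hs (ξ s) (deriv c s), two_smul]
  simp only
  abel

end Crest.Agent.R244
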