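import Crest.Agent.R244.Gauss
import Crest.Agent.R244.CoverTop
import Crest.Agent.R244.CoverAux

/-! Row 244: the exponential map is a covering map. -/

set_option autoImplicit false

open Set Filter
open scoped ContDiff Topology

namespace Crest.Agent.R244

open Crest.GeometryTopology.CoordMetric Crest.GeometryTopology.ChartCurvature
  Crest.GeometryTopology.Geodesic

namespace RAtlas

variable {n : ℕ} {M : Type} [TopologicalSpace M] {A : RAtlas n M} {i : A.ι} {x : M}
  {p : E n → M}

theorem IsExp.exists_equiv (h : A.IsExp i x p)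
    (hinj : ∀ j v, p v ∈ (A.chart j).source → Function.Injective (A.dp p j v))
    {j : A.ι} {v : E n} (hj : p v ∈ (A.chart j).source) :
    ∃ f' : E n ≃L[ℝ] E n, (f' : E n →L[ℝ] E n) = A.dp p j v ∧
      HasStrictFDerivAt (fun w => A.chart j (p w)) (f' : E n →L[ℝ] E n) v := by
  let f' : E n ≃L[ℝ] E n :=
    (LinearEquiv.ofInjectiveEndo (A.dp p j v : E n →ₗ[ℝ] E n) (hinj j v hj)).toContinuousLinearEquiv
  have hf' : (f' : E n →L[ℝ] E n) = A.dp p j v := by
    ext1 w
    rfl
  exact ⟨f', hf', hf' ▸ h.strict j v hj⟩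

theorem IsExp.isLocalHomeomorph (h : A.IsExp i x p)
    (hinj : ∀ j v, p v ∈ (A.chart j).source → Function.Injective (A.dp p j v)) :
    IsLocalHomeomorph p := by
  intro v
  obtain ⟨j, hj⟩ := A.cover (p v)
  obtain ⟨f', -, hf⟩ := h.exists_equiv hinj hj
  have h1 : IsLocalHomeomorphOn (A.chart j ∘ p) {v} := by
    rintro _ rfl
    exact ⟨hf.toOpenPartialHomeomorph _, hf.mem_toOpenPartialHomeomorph_source, rfl⟩
  have h2 : IsLocalHomeomorphOn (A.chart j) (p '' {v}) := by
    rintro _ ⟨_, rfl, rfl⟩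
    exact ⟨A.chart j, hj, rfl⟩
  exact h1.of_comp_left h2 (fun _ _ => h.cont.continuousAt) v rfl

/-- a continuous lift of a differentiable curve is differentiable. -/
theorem IsExp.hasDerivWithinAt_lift (h : A.IsExp i x p)
    (hinj : ∀ j v, p v ∈ (A.chart j).source → Function.Injective (A.dp p j v))
    {L : ℝ → E n} {S : Set ℝ} {s : ℝ} (hs : s ∈ S) (hL : ContinuousWithinAt L S s) {j : A.ι}
    (hj : p (L s) ∈ (A.chart j).source) {c' : E n}
    (hc : HasDerivWithinAt (fun s => A.chart j (p (L s))) c' S s) :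
    ∃ w, HasDerivWithinAt L w S s ∧ A.dp p j (L s) w = c' := by
  obtain ⟨f', hf', hf⟩ := h.exists_equiv hinj hj
  refine ⟨f'.symm c', ?_, ?_⟩
  · have h1 := hf.to_localInverse.hasFDerivAt.comp_hasDerivWithinAt s hc
    have h2 : ∀ᶠ t in 𝓝[S] s, hf.localInverse _ f' (L s) (A.chart j (p (L t))) = L t :=
      hL.eventually hf.eventually_left_inverse
    refine h1.congr_of_eventuallyEq_of_mem ?_ hs
    filter_upwards [h2] with t ht
    exact ht.symm
  · rw [← hf']
    exact f'.apply_symm_apply c'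

/-- a priori bound for partial lifts of a coordinate segment (from the Gauss lemma). -/
theorem IsExp.lift_bound (h : A.IsExp i x p)
    (hinj : ∀ j v, p v ∈ (A.chart j).source → Function.Injective (A.dp p j v))
    {j : A.ι} {y₀ d : E n} {C : ℝ}
    (hseg : ∀ s ∈ Icc (0 : ℝ) 1, y₀ + s • d ∈ (A.chart j).target)
    (hC : ∀ s ∈ Icc (0 : ℝ) 1, bil (A.G j (y₀ + s • d)) d d ≤ C)
    {x₀ : E n} {T : ℝ} (hT : T ∈ Icc (0 : ℝ) 1) {L : ℝ → E n}
    (hL : LiftOn p (fun s => (A.chart j).symm (y₀ + s • d)) x₀ T L) :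
    Real.exp (-T) * (bil (A.G i (A.chart i x)) (L T) (L T) + C) ≤
      bil (A.G i (A.chart i x)) x₀ x₀ + C := by
  obtain ⟨B, hB⟩ := exists_bilL (A.G i (A.chart i x))
  have hg0 := A.posDef h.mem
  have hsub : Icc 0 T ⊆ Icc (0 : ℝ) 1 := Icc_subset_Icc_right hT.2
  have hsrc : ∀ s ∈ Icc (0 : ℝ) T, p (L s) ∈ (A.chart j).source := fun s hs => by
    rw [hL.2.2 s hs]
    exact (A.chart j).map_target (hseg s (hsub hs))
  have hcrd : ∀ s ∈ Icc (0 : ℝ) T, A.chart j (p (L s)) = y₀ + s • d := fun s hs => by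
    rw [hL.2.2 s hs]
    exact (A.chart j).right_inv (hseg s (hsub hs))
  set F : ℝ → ℝ := fun s => Real.exp (-s) * (B (L s) (L s) + C) with hF
  have hFc : ContinuousOn F (Icc 0 T) := by
    have h1 : ContinuousOn (fun s => B (L s) (L s)) (Icc 0 T) :=
      (B.continuous.comp_continuousOn hL.1).clm_apply hL.1
    exact (Continuous.continuousOn (by fun_prop)).mul (h1.add continuousOn_const)
  have key : ∀ s ∈ Ico (0 : ℝ) T, ∃ r, HasDerivWithinAt F r (Ici s) s ∧ r ≤ 0 := by
    intro s hs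
    have hs' : s ∈ Icc (0 : ℝ) T := Ico_subset_Icc_self hs
    have hc : HasDerivWithinAt (fun s => A.chart j (p (L s))) d (Icc 0 T) s := by
      have h1 : HasDerivAt (fun s : ℝ => y₀ + s • d) d s := by
        simpa using ((hasDerivAt_id s).smul_const d).const_add y₀
      exact h1.hasDerivWithinAt.congr_of_mem hcrd hs'
    obtain ⟨w, hw, hdw⟩ := h.hasDerivWithinAt_lift hinj hs' (hL.1 s hs') (hsrc s hs') hc
    have hw' : HasDerivWithinAt L w (Ici s) s :=
      hw.mono_of_mem_nhdsWithin (Icc_mem_nhdsGE_of_mem hs)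
    have hu : HasDerivWithinAt (fun s => B (L s) (L s)) (B w (L s) + B (L s) w) (Ici s) s :=
      (B.hasFDerivAt.comp_hasDerivWithinAt s hw').clm_apply hw'
    have he : HasDerivWithinAt (fun s : ℝ => Real.exp (-s)) (Real.exp (-s) * (-1)) (Ici s) s :=
      ((hasDerivAt_neg s).exp).hasDerivWithinAt
    refine ⟨_, he.mul (hu.add_const C), ?_⟩
    have hgj := A.posDef (hsrc s hs')
    have g1 := h.gauss (hsrc s hs') w
    have g2 := h.gauss (hsrc s hs') (L s)
    have g3 := bil_self_nonneg hgj (A.dp p j (L s) (L s) - d)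
    rw [bil_sub_left, bil_sub_right, bil_sub_right, bil_comm hgj d (A.dp p j (L s) (L s)), g2] at g3
    rw [hdw] at g1
    have g4 := hC s (hsub hs')
    rw [← hcrd s hs'] at g4
    rw [hB, hB, hB, bil_comm hg0 w (L s), ← g1]
    have hpos := Real.exp_pos (-s)
    nlinarith
  choose! F' hF' hF'0 using key
  have := image_le_of_deriv_right_le_deriv_boundary hFc hF' (B := fun _ => F 0) (B' := fun _ => 0)
    le_rfl continuousOn_const (fun s _ => hasDerivWithinAt_const _ _ _) hF'0
    (x := T) ⟨hT.1, le_rfl⟩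
  simpa [hF, hB, hL.2.1] using this

/-- coordinate segments lift. -/
theorem IsExp.exists_lift [T2Space M] (h : A.IsExp i x p)
    (hinj : ∀ j v, p v ∈ (A.chart j).source → Function.Injective (A.dp p j v))
    {j : A.ι} {y₀ d : E n}
    (hseg : ∀ s ∈ Icc (0 : ℝ) 1, y₀ + s • d ∈ (A.chart j).target)
    {x₀ : E n} (h0 : p x₀ = (A.chart j).symm y₀) :
    ∃ L, LiftOn p (fun s => (A.chart j).symm (y₀ + s • d)) x₀ 1 L := by
  have hcont : ContinuousOn (fun s : ℝ => bil (A.G j (y₀ + s • d)) d d) (Icc 0 1) := by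
    intro s hs
    have h1 := (contDiffAt_bil (A.riem j) (z := (y₀ + s • d, d, d)) (hseg s hs)).continuousAt
    have h2 : ContinuousAt (fun s : ℝ => ((y₀ + s • d, d, d) : E n × E n × E n)) s := by
      fun_prop
    exact (ContinuousAt.comp (f := fun s : ℝ => ((y₀ + s • d, d, d) : E n × E n × E n))
      h1 h2).continuousWithinAt
  obtain ⟨C, hC⟩ := isCompact_Icc.bddAbove_image hcont
  have hC' : ∀ s ∈ Icc (0 : ℝ) 1, bil (A.G j (y₀ + s • d)) d d ≤ C := fun s hs =>
    hC ⟨s, hs, rfl⟩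
  have hC0 : 0 ≤ C :=
    (bil_self_nonneg ((A.riem j).posDef _ (hseg 0 ⟨le_rfl, zero_le_one⟩)) d).trans
      (hC' 0 ⟨le_rfl, zero_le_one⟩)
  have hg0 := A.posDef h.mem
  obtain ⟨κ, hκ, hκb⟩ := exists_norm_sq_le_bil hg0
  set R : ℝ := (bil (A.G i (A.chart i x)) x₀ x₀ + C) * Real.exp 1 / κ with hR
  refine exists_liftOn (h.isLocalHomeomorph hinj) ?_ (by simpa using h0)
    (isCompact_closedBall (0 : E n) (R + 1)) ?_
  · exact (A.chart j).continuousOn_symm.comp (Continuous.continuousOn (by fun_prop)) hseg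
  · intro T hT L hL
    have h1 := h.lift_bound hinj hseg hC' hT hL
    have h2 := hκb (L T)
    have h3 : Real.exp (-T) * Real.exp 1 = Real.exp (1 - T) := by
      rw [← Real.exp_add]; congr 1; ring
    have h4 : 1 ≤ Real.exp (1 - T) := Real.one_le_exp (by linarith [hT.2])
    have h5 := bil_self_nonneg hg0 (L T)
    have h6 : bil (A.G i (A.chart i x)) (L T) (L T) + C ≤
        (bil (A.G i (A.chart i x)) x₀ x₀ + C) * Real.exp 1 := by
      have h7 := mul_le_mul_of_nonneg_right h1 (Real.exp_pos 1).le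
      have h8 : Real.exp (-T) * (bil (A.G i (A.chart i x)) (L T) (L T) + C) * Real.exp 1 =
          Real.exp (1 - T) * (bil (A.G i (A.chart i x)) (L T) (L T) + C) := by
        rw [← h3]; ring
      nlinarith
    have h9 : ‖L T‖ ^ 2 ≤ R := by
      rw [hR, le_div_iff₀ hκ]
      linarith
    rw [mem_closedBall_zero_iff]
    nlinarith [norm_nonneg (L T), sq_nonneg (‖L T‖ - 1)]

/-- Cartan-Hadamard. -/
theorem IsExp.isCoveringMap [T2Space M] (h : A.IsExp i x p)
    (hinj : ∀ j v, p v ∈ (A.chart j).source → Function.Injective (A.dp p j v)) :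
    IsCoveringMap p := by
  classical
  have hp := h.isLocalHomeomorph hinj
  have sep : IsSeparatedMap p := T2Space.isSeparatedMap p
  refine isCoveringMap_of_sections hp fun y => ?_
  obtain ⟨j, hj⟩ := A.cover y
  obtain ⟨ε, hε, hball⟩ := Metric.isOpen_iff.1 (A.chart j).open_target _ ((A.chart j).map_source hj)
  set U : Set M := (A.chart j).source ∩ A.chart j ⁻¹' Metric.ball (A.chart j y) ε with hU
  refine ⟨U, (A.chart j).isOpen_inter_preimage Metric.isOpen_ball, ⟨hj, Metric.mem_ball_self hε⟩,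
    ?_, fun x₀ hx₀ => ?_⟩
  · rw [hU, ← (A.chart j).symm_image_eq_source_inter_preimage hball]
    exact (convex_ball _ _).isPreconnected.image _ ((A.chart j).continuousOn_symm.mono hball)
  set y₀ : E n := A.chart j (p x₀) with hy₀
  have hseg : ∀ z ∈ U, ∀ s ∈ Icc (0 : ℝ) 1, y₀ + s • (A.chart j z - y₀) ∈ (A.chart j).target :=
    fun z hz s hs => hball ((convex_ball _ _).add_smul_sub_mem hx₀.2 hz.2 hs)
  have h0 : p x₀ = (A.chart j).symm y₀ := ((A.chart j).left_inv hx₀.1).symm
  have hex : ∀ z : U, ∃ L,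
      LiftOn p (fun s => (A.chart j).symm (y₀ + s • (A.chart j z - y₀))) x₀ 1 L :=
    fun z => h.exists_lift hinj (hseg z z.2) h0
  choose Λ hΛ using hex
  have hcz : Continuous fun z : U => A.chart j z :=
    ((A.chart j).continuousOn.mono inter_subset_left).domRestrict
  let f : C(unitInterval × U, M) :=
    ⟨fun q => (A.chart j).symm (y₀ + (q.1 : ℝ) • (A.chart j q.2 - y₀)),
      (A.chart j).continuousOn_symm.comp_continuous
        (continuous_const.add ((continuous_subtype_val.comp continuous_fst).smul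
          ((hcz.comp continuous_snd).sub continuous_const)))
        fun q => hseg q.2 q.2.2 q.1 q.1.2⟩
  have hg : Continuous fun q : unitInterval × U => Λ q.2 q.1 := by
    refine hp.continuous_lift sep f ?_ ?_ ?_
    · funext q
      exact (hΛ q.2).2.2 q.1 q.1.2
    · have : (fun a : U => Λ a ((0 : unitInterval) : ℝ)) = fun _ => x₀ :=
        funext fun a => (hΛ a).2.1
      exact this ▸ continuous_const
    · exact fun a => (hΛ a).1.domRestrict
  refine ⟨fun z => if hz : z ∈ U then Λ ⟨z, hz⟩ 1 else x₀, ?_, ?_, ?_⟩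
  · rw [continuousOn_iff_continuous_domRestrict]
    have h1 : Continuous fun z : U => Λ z 1 :=
      hg.comp (Continuous.prodMk_right (1 : unitInterval))
    refine h1.congr fun z => ?_
    simp [Set.domRestrict, z.2]
  · simp only [dif_pos hx₀]
    have hL := hΛ ⟨p x₀, hx₀⟩
    refine Eq.trans ?_ hL.2.1
    refine sep.constOn_of_comp hp.isLocallyInjective isPreconnected_Icc hL.1 ?_
      ⟨zero_le_one, le_rfl⟩ ⟨le_rfl, zero_le_one⟩
    intro a ha a' ha'
    rw [hL.2.2 a ha, hL.2.2 a' ha']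
    simp [hy₀]
  · intro z hz
    simp only [dif_pos hz]
    rw [(hΛ ⟨z, hz⟩).2.2 1 ⟨zero_le_one, le_rfl⟩]
    simp [(A.chart j).left_inv hz.1]

end RAtlas

end Crest.Agent.R244
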