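import Crest.Agent.R244.Defs

/-! Row 244: deck transformations. -/

set_option autoImplicit false

open Set Filter
open scoped ContDiff Topology

namespace Crest.Agent.R244

open Crest.GeometryTopology.CoordMetric Crest.GeometryTopology.ChartCurvature
  Crest.GeometryTopology.Geodesic

section
variable {X M : Type} [TopologicalSpace X] [TopologicalSpace M] {p : X → M}

omit [TopologicalSpace M] in
theorem mem_deck {φ : X ≃ₜ X} : φ ∈ Deck p ↔ ∀ x, p (φ x) = p x := Iff.rfl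

theorem deck_exists [SimplyConnectedSpace X] [LocallyPathConnectedSpace X] (hp : IsCoveringMap p)
    {x x' : X} (h : p x = p x') : ∃ φ ∈ Deck p, φ x = x' := by
  obtain ⟨F, ⟨hF0, hF⟩, -⟩ := hp.existsUnique_continuousMap_lifts ⟨p, hp.continuous⟩ x x' h.symm
  obtain ⟨G, ⟨hG0, hG⟩, -⟩ := hp.existsUnique_continuousMap_lifts ⟨p, hp.continuous⟩ x' x h
  have hF' : ∀ y, p (F y) = p y := fun y => congrFun hF y
  have hG' : ∀ y, p (G y) = p y := fun y => congrFun hG y
  have h1 : G ∘ F = id := hp.eq_of_comp_eq (G.continuous.comp F.continuous) continuous_id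
    (funext fun y => (hG' _).trans (hF' y)) x (by simp [hF0, hG0])
  have h2 : F ∘ G = id := hp.eq_of_comp_eq (F.continuous.comp G.continuous) continuous_id
    (funext fun y => (hF' _).trans (hG' y)) x' (by simp [hF0, hG0])
  exact ⟨⟨⟨F, G, congrFun h1, congrFun h2⟩, F.continuous, G.continuous⟩, hF', hF0⟩

theorem deck_eq [PreconnectedSpace X] (hp : IsCoveringMap p) {φ ψ : X ≃ₜ X} (hφ : φ ∈ Deck p)
    (hψ : ψ ∈ Deck p) {x : X} (h : φ x = ψ x) : φ = ψ := by
  apply DFunLike.coe_injective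
  exact hp.eq_of_comp_eq φ.continuous ψ.continuous (funext fun y => (hφ y).trans (hψ y).symm) x h

theorem decktop_isClosed_range (hp : IsCoveringMap p) : IsClosed (range p) := by
  rw [← isOpen_compl_iff, isOpen_iff_mem_nhds]
  intro y hy
  obtain ⟨-, U, hyU, hU, -, H, -⟩ := hp y
  refine mem_of_superset (hU.mem_nhds hyU) ?_
  rintro _ hz ⟨z, rfl⟩
  exact hy ⟨(H ⟨z, hz⟩).2.1, (H ⟨z, hz⟩).2.2⟩

theorem covering_surjective [Nonempty X] [PreconnectedSpace M] (hp : IsCoveringMap p) :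
    Function.Surjective p := by
  rw [← range_eq_univ]
  exact IsClopen.eq_univ ⟨decktop_isClosed_range hp, hp.isOpenMap.isOpen_range⟩ (range_nonempty p)

theorem CatCover.quad {d : X → X → ℝ} (h : CatCover p d) (x y z w : X) :
    d x z ^ 2 + d y w ^ 2 ≤ d x y ^ 2 + d y z ^ 2 + d z w ^ 2 + d w x ^ 2 := by
  obtain ⟨m, -, -, hm⟩ := h.mid x z
  have h1 := hm y
  have h2 := hm w
  have h3 := h.triangle y m w
  rw [h.comm m w] at h3
  rw [h.comm x w, h.comm w z] at h2
  have h4 := pow_le_pow_left₀ (h.nonneg y w) h3 2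
  nlinarith [sq_nonneg (d y m - d w m)]

theorem CatCover.decktop_half {d : X → X → ℝ} (h : CatCover p d) {g : X ≃ₜ X} (hg : g ∈ Deck p)
    (x : X) : ∃ m, d m (g m) ≤ d x ((g ^ 2) x) / 2 := by
  obtain ⟨m, -, h2, hm⟩ := h.mid x (g x)
  refine ⟨m, ?_⟩
  have a1 := hm (g.symm m)
  have a2 := hm (g (g x))
  rw [← h.deck g hg (g.symm m) m, ← h.deck g hg x (g.symm m), ← h.deck g hg (g.symm m) (g x),
    Homeomorph.apply_symm_apply, h.comm (g x) m, h2, h.comm m (g (g x))] at a1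
  rw [h.deck g hg (g x) x, h.comm (g x) x] at a2
  have e : (g ^ 2) x = g (g x) := by rw [pow_two]; rfl
  rw [e]
  exact (pow_le_pow_iff_left₀ (h.nonneg _ _) (div_nonneg (h.nonneg _ _) zero_le_two)
    two_ne_zero).1 (by nlinarith)

theorem CatCover.decktop_pow {d : X → X → ℝ} (h : CatCover p d) (x : X) (k : ℕ) :
    ∀ g ∈ Deck p, ∃ y, d y (g y) ≤ d x ((g ^ 2 ^ k) x) / 2 ^ k := by
  induction k with
  | zero => intro g _; exact ⟨x, by simp⟩
  | succ k ih =>
    intro g hg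
    obtain ⟨y, hy⟩ := ih (g ^ 2) (pow_mem hg 2)
    obtain ⟨m, hm⟩ := h.decktop_half hg y
    refine ⟨m, hm.trans ?_⟩
    rw [← pow_mul, ← pow_succ'] at hy
    rw [pow_succ (2 : ℝ), ← div_div]
    linarith

/-- a deck transformation of stable length zero is trivial. -/
theorem CatCover.eq_one [SimplyConnectedSpace X] [LocallyPathConnectedSpace X] [CompactSpace M]
    {d : X → X → ℝ} (h : CatCover p d) {c : X ≃ₜ X} (hc : c ∈ Deck p) (x : X)
    (h0 : Tendsto (fun k : ℕ => d x ((c ^ k) x) / k) atTop (𝓝 0)) : c = 1 := by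
  have h1 : ∀ n : ℕ, ∃ y, d y (c y) < 1 / ((n : ℝ) + 1) := by
    intro n
    have h2 := (h0.comp (tendsto_pow_atTop_atTop_of_one_lt (one_lt_two (α := ℕ)))).eventually
      (gt_mem_nhds (show (0 : ℝ) < 1 / ((n : ℝ) + 1) by positivity))
    obtain ⟨k, hk⟩ := h2.exists
    obtain ⟨y, hy⟩ := h.decktop_pow x k c hc
    refine ⟨y, hy.trans_lt ?_⟩
    simpa using hk
  choose u hu using h1
  obtain ⟨_, ⟨y, rfl⟩, hy⟩ := (decktop_isClosed_range h.cov).isCompact.exists_mapClusterPt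
    (f := atTop) (u := fun n => p (u n)) (by simp)
  obtain ⟨U, hU, hyU, hinj⟩ := h.cov.isLocalHomeomorph.isLocallyInjective y
  obtain ⟨ε, hε, W, hW, hs⟩ := h.small y U (hU.mem_nhds hyU)
  have h3 := hy.frequently (p := fun z => z ∈ p '' (W ∩ U))
    (h.cov.isOpenMap.image_mem_nhds (inter_mem hW (hU.mem_nhds hyU)))
  have h4 : ∀ᶠ n : ℕ in atTop, 1 / ((n : ℝ) + 1) < ε :=
    tendsto_one_div_add_atTop_nhds_zero_nat.eventually (gt_mem_nhds hε)
  obtain ⟨n, ⟨x', ⟨hx1, hx2⟩, hx3⟩, hn⟩ := (h3.and_eventually h4).exists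
  obtain ⟨δ, hδ, hδx⟩ := deck_exists h.cov hx3.symm
  have h5 : δ (c (u n)) ∈ U := hs x' hx1 _ (by
    rw [← hδx, h.deck δ hδ]; exact (hu n).trans hn)
  have h6 : δ (c (u n)) = x' := hinj h5 hx2 (by rw [hδ, hc, hx3])
  exact deck_eq h.cov hc (one_mem _) (x := u n) (δ.injective (h6.trans hδx.symm))

end

end Crest.Agent.R244
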