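import Crest.Prelude.Def_Geodesic

/-! Row 244 (no conjugate points versus non-positive curvature): shared definitions.

Riemannian geometry is developed for an abstract *Riemannian atlas* `RAtlas` (charts with
coordinate metrics and isometric transition maps), so that no tangent bundle appears. -/

set_option autoImplicit false

open Set Filter
open scoped ContDiff Topology

namespace Crest.Agent.R244

open Crest.GeometryTopology.CoordMetric Crest.GeometryTopology.ChartCurvature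

noncomputable section

/-- the model space. -/
abbrev E (n : ℕ) : Type := EuclideanSpace ℝ (Fin n)

section Coord
variable {n : ℕ}

/-- the bilinear form of a matrix. -/
def bil (g : Matrix (Fin n) (Fin n) ℝ) (u v : E n) : ℝ := ∑ i, ∑ j, g i j * u i * v j

/-- the Christoffel map `Γ_x(u, v)`. -/
def Gam (g : MetricField n) (x u v : E n) : E n :=
  WithLp.toLp 2 fun k => ∑ i, ∑ j, christoffel g x k i j * u i * v j

/-- the vector `R(u, v) v`. -/
def Rv (g : MetricField n) (x u v : E n) : E n :=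
  WithLp.toLp 2 fun l => ∑ k, ∑ i, ∑ j, riemann g x l k i j * v k * u i * v j

/-- the geodesic spray on phase space. -/
def spray (g : MetricField n) (z : E n × E n) : E n × E n := (z.2, -Gam g z.1 z.2 z.2)

/-- position and velocity of a coordinate curve. -/
def jet (c : ℝ → E n) (s : ℝ) : E n × E n := (c s, deriv c s)

/-- the tangent map of a coordinate change. -/
def tmap (ψ : E n → E n) (z : E n × E n) : E n × E n := (ψ z.1, fderiv ℝ ψ z.1 z.2)

/-- covariant derivative of `ξ` along `c`. -/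
def cov (g : MetricField n) (c ξ : ℝ → E n) (s : ℝ) : E n :=
  deriv ξ s + Gam g (c s) (deriv c s) (ξ s)

end Coord

/-- charts with coordinate metrics and smooth isometric transition maps. -/
structure RAtlas (n : ℕ) (M : Type) [TopologicalSpace M] where
  ι : Type
  chart : ι → OpenPartialHomeomorph M (E n)
  G : ι → MetricField n
  cover : ∀ x, ∃ i, x ∈ (chart i).source
  riem : ∀ i, IsRiemannianOn (G i) (chart i).target
  smooth : ∀ i j x, x ∈ (chart i).source → x ∈ (chart j).source →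
    ContDiffAt ℝ ∞ (chart j ∘ (chart i).symm) (chart i x)
  isom : ∀ i j x, x ∈ (chart i).source → x ∈ (chart j).source → ∀ u v,
    bil (G i (chart i x)) u v =
      bil (G j (chart j x)) (fderiv ℝ (chart j ∘ (chart i).symm) (chart i x) u)
        (fderiv ℝ (chart j ∘ (chart i).symm) (chart i x) v)

namespace RAtlas

variable {n : ℕ} {M : Type} [TopologicalSpace M] (A : RAtlas n M)

/-- transition map. -/
def tr (i j : A.ι) : E n → E n := A.chart j ∘ (A.chart i).symm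

/-- a curve read in the chart `i`. -/
def crd (i : A.ι) (γ : ℝ → M) : ℝ → E n := fun s => A.chart i (γ s)

/-- `γ` is a geodesic on the (open) set of times `S`. -/
def GeoOn (γ : ℝ → M) (S : Set ℝ) : Prop :=
  ContinuousOn γ S ∧ ∀ s ∈ S, ∀ i, γ s ∈ (A.chart i).source →
    HasDerivAt (jet (A.crd i γ)) (spray (A.G i) (jet (A.crd i γ) s)) s

/-- `γ` is a geodesic defined for all times. -/
def Geo (γ : ℝ → M) : Prop := A.GeoOn γ univ

/-- `ξ i` are the coordinates of a Jacobi field along `γ`: they transform as a vector field and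
solve the linearised geodesic equation in every chart. -/
structure Jac (γ : ℝ → M) (ξ : A.ι → ℝ → E n) : Prop where
  compat : ∀ i j s, γ s ∈ (A.chart i).source → γ s ∈ (A.chart j).source →
    ξ j s = fderiv ℝ (A.tr i j) (A.chart i (γ s)) (ξ i s)
  eqn : ∀ i s, γ s ∈ (A.chart i).source →
    HasDerivAt (jet (ξ i)) (fderiv ℝ (spray (A.G i)) (jet (A.crd i γ) s) (jet (ξ i) s)) s

/-- the field `ξ` vanishes at time `s`. -/
def Van (γ : ℝ → M) (ξ : A.ι → ℝ → E n) (s : ℝ) : Prop :=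
  ∀ i, γ s ∈ (A.chart i).source → ξ i s = 0

/-- no conjugate points. -/
def NCP : Prop :=
  ∀ γ ξ, A.Geo γ → A.Jac γ ξ → ∀ a b : ℝ, a ≠ b → A.Van γ ξ a → A.Van γ ξ b → ∀ s, A.Van γ ξ s

/-- non-positive sectional curvature (tested in one chart at each point). -/
def NPC : Prop :=
  ∀ x, ∃ i, x ∈ (A.chart i).source ∧ ∀ u v, secNumer (A.G i) (A.chart i x) u v ≤ 0

/-- all transition maps have positive Jacobian. -/
def Oriented : Prop :=
  ∀ i j x, x ∈ (A.chart i).source → x ∈ (A.chart j).source →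
    0 < LinearMap.det (fderiv ℝ (A.tr i j) (A.chart i x) : E n →ₗ[ℝ] E n)

/-- derivative of `p : E n → M` read in the chart `j`. -/
def dp (p : E n → M) (j : A.ι) (v : E n) : E n →L[ℝ] E n :=
  fderiv ℝ (fun w => A.chart j (p w)) v

/-- `p` is the exponential map at `x`, tangent vectors being read in the chart `i`. -/
structure IsExp (i : A.ι) (x : M) (p : E n → M) : Prop where
  mem : x ∈ (A.chart i).source
  zero : p 0 = x
  geo : ∀ v, A.Geo (fun s : ℝ => p (s • v))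
  vel : ∀ v, deriv (A.crd i (fun s : ℝ => p (s • v))) 0 = v
  cont : Continuous p
  strict : ∀ j v, p v ∈ (A.chart j).source →
    HasStrictFDerivAt (fun w => A.chart j (p w)) (A.dp p j v) v
  jac : ∀ v w, A.Jac (fun s : ℝ => p (s • v)) (fun j s => A.dp p j (s • v) (s • w))
  jac0 : ∀ v w, deriv (fun s : ℝ => A.dp p i (s • v) (s • w)) 0 = w

end RAtlas

/-- the group of deck transformations. -/
def Deck {X M : Type} [TopologicalSpace X] (p : X → M) : Subgroup (X ≃ₜ X) where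
  carrier := {φ | ∀ x, p (φ x) = p x}
  mul_mem' := fun {a b} ha hb x => by
    change p (a (b x)) = p x
    rw [ha, hb]
  one_mem' := fun _ => rfl
  inv_mem' := fun {a} ha x => by
    have := ha (a.symm x)
    rw [Homeomorph.apply_symm_apply] at this
    exact this.symm

/-- a covering space with a deck invariant distance satisfying the CN inequality. -/
structure CatCover {X M : Type} [TopologicalSpace X] [TopologicalSpace M] (p : X → M)
    (d : X → X → ℝ) : Prop where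
  cov : IsCoveringMap p
  nonneg : ∀ x y, 0 ≤ d x y
  self : ∀ x, d x x = 0
  comm : ∀ x y, d x y = d y x
  triangle : ∀ x y z, d x z ≤ d x y + d y z
  mid : ∀ x z, ∃ m, d x m = d x z / 2 ∧ d m z = d x z / 2 ∧
    ∀ y, d y m ^ 2 ≤ d x y ^ 2 / 2 + d y z ^ 2 / 2 - d x z ^ 2 / 4
  deck : ∀ φ ∈ Deck p, ∀ x y, d (φ x) (φ y) = d x y
  small : ∀ x, ∀ U ∈ 𝓝 x, ∃ ε > 0, ∃ W ∈ 𝓝 x, ∀ y ∈ W, ∀ z, d y z < ε → z ∈ U

/-- data for pasting open subsets of `E n` along the fibres of an invariant `F`. -/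
structure PData (n : ℕ) (κ Z : Type) [TopologicalSpace Z] where
  Ω : κ → Set (E n)
  F : κ → E n → Z
  g : κ → MetricField n
  riem : ∀ k, IsRiemannianOn (g k) (Ω k)
  cont : ∀ k, ContinuousOn (F k) (Ω k)
  locinj : ∀ k, ∀ a ∈ Ω k, ∃ U ∈ 𝓝 a, InjOn (F k) U
  trans : ∀ k l, ∀ a ∈ Ω k, ∀ b ∈ Ω l, F k a = F l b → ∃ ψ : E n → E n,
    ContDiffAt ℝ ∞ ψ a ∧ ψ a = b ∧ (∀ᶠ y in 𝓝 a, F l (ψ y) = F k y) ∧
    0 < LinearMap.det (fderiv ℝ ψ a : E n →ₗ[ℝ] E n) ∧
    ∀ u v, bil (g k a) u v = bil (g l b) (fderiv ℝ ψ a u) (fderiv ℝ ψ a v)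

/-- the atlas `A` on `M` presents the pasted space, with parametrisations `P k`. -/
structure Presents {n : ℕ} {κ Z : Type} [TopologicalSpace Z] (D : PData n κ Z) {M : Type}
    [TopologicalSpace M] (A : RAtlas n M) (P : κ → E n → M) (kind : A.ι → κ) : Prop where
  target : ∀ i, (A.chart i).target ⊆ D.Ω (kind i)
  symm : ∀ i, ∀ y ∈ (A.chart i).target, (A.chart i).symm y = P (kind i) y
  G : ∀ i, A.G i = D.g (kind i)
  cover : ∀ k, ∀ a ∈ D.Ω k, ∃ i, kind i = k ∧ a ∈ (A.chart i).target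
  eq_iff : ∀ k l, ∀ a ∈ D.Ω k, ∀ b ∈ D.Ω l, P k a = P l b ↔ D.F k a = D.F l b
  cont : ∀ k, ContinuousOn (P k) (D.Ω k)

/-- the Riccati type inequality of the neck (left type). -/
def IV (A C D : ℝ → ℝ) : Prop :=
  ∀ t r : ℝ, deriv A t + 2 * deriv C t * r + deriv D t * r ^ 2 ≤ 0 →
    A t * (deriv C t + deriv D t * r) ^ 2
      - C t * (deriv A t + deriv C t * r) * (deriv C t + deriv D t * r)
      - D t * r * (deriv A t + deriv C t * r) * (deriv C t + deriv D t * r)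
      + C t * r * (deriv C t + deriv D t * r) ^ 2
      + D t * (deriv A t + 2 * deriv C t * r + deriv D t * r ^ 2) ^ 2 / 4 ≤
    (A t * D t - C t ^ 2) *
      (deriv (deriv A) t + 2 * deriv (deriv C) t * r + deriv (deriv D) t * r ^ 2) / 2

/-- the neck metric `dt² + A dX² + 2 C dX dY + D dY²`. -/
structure Neck where
  A : ℝ → ℝ
  C : ℝ → ℝ
  D : ℝ → ℝ
  eL : ℝ
  eR : ℝ
  hA : ContDiff ℝ ∞ A
  hC : ContDiff ℝ ∞ C
  hD : ContDiff ℝ ∞ D
  posA : ∀ t, 0 < A t
  posD : ∀ t, 0 < D t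
  posDet : ∀ t, C t ^ 2 < A t * D t
  dA_neg : ∀ t, t < 1 → deriv A t < 0
  dA_zero : ∀ t, 1 ≤ t → deriv A t = 0
  dD_pos : ∀ t, -1 < t → 0 < deriv D t
  dD_zero : ∀ t, t ≤ -1 → deriv D t = 0
  CL : ∀ t, t ≤ -1 / 2 → C t = eL * D t
  CR : ∀ t, 1 / 2 ≤ t → C t = eR * A t
  ivL : IV A C D
  ivR : IV (fun t => D (-t)) (fun t => C (-t)) (fun t => A (-t))

namespace Neck
variable (N : Neck)

/-- the metric field of the neck. -/
def gN : MetricField 3 := fun y =>
  !![1, 0, 0; 0, N.A (y 0), N.C (y 0); 0, N.C (y 0), N.D (y 0)]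

/-- determinant of the torus metric. -/
def Δ (t : ℝ) : ℝ := N.A t * N.D t - N.C t ^ 2

/-- first component of the vector dual to the covector `(p₁, p₂)`. -/
def ν₁ (p₁ p₂ t : ℝ) : ℝ := (N.D t * p₁ - N.C t * p₂) / N.Δ t

/-- second component of the vector dual to the covector `(p₁, p₂)`. -/
def ν₂ (p₁ p₂ t : ℝ) : ℝ := (N.A t * p₂ - N.C t * p₁) / N.Δ t

/-- `-g'(ν, ν) / 2`. -/
def mh (p₁ p₂ t : ℝ) : ℝ :=
  -(deriv N.A t * N.ν₁ p₁ p₂ t ^ 2 + 2 * deriv N.C t * N.ν₁ p₁ p₂ t * N.ν₂ p₁ p₂ t +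
    deriv N.D t * N.ν₂ p₁ p₂ t ^ 2) / 2

end Neck

/-- a neck whose two ends are flat, in polar coordinates. -/
structure NeckG extends Neck where
  T : ℝ
  aV : ℝ
  aW : ℝ
  rL : ℝ
  rR : ℝ
  hT : 3 ≤ T
  haV : 0 < aV
  haW : 0 < aW
  hrL : 0 < rL + T - 1
  hrR : 0 < rR + T - 1
  farL : ∀ t, t ≤ -T + 1 → A t = ((rL - t) / aW) ^ 2 ∧ C t = 0 ∧ D t = 1
  farR : ∀ t, T - 1 ≤ t →
    A t = 1 ∧ C t = -(aW / aV) ∧ D t = (aW / aV) ^ 2 + ((rR + t) / aV) ^ 2

/-- the point `(a, b, c)` of `E 3`. -/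
def pt (a b c : ℝ) : E 3 := WithLp.toLp 2 ![a, b, c]

/-- a parametrisation of (square torus minus a disc) times a circle. -/
structure Side {M : Type} [TopologicalSpace M] (P : ℝ × ℝ × ℝ → M) (R h : ℝ) : Prop where
  pos : 0 < R
  le : R ≤ h
  cont : ContinuousOn P {z | R ^ 2 ≤ z.1 ^ 2 + z.2.1 ^ 2 ∧ |z.1| ≤ h ∧ |z.2.1| ≤ h}
  per1 : ∀ b φ, |b| ≤ h → P (-h, b, φ) = P (h, b, φ)
  per2 : ∀ a φ, |a| ≤ h → P (a, -h, φ) = P (a, h, φ)
  per3 : ∀ a b φ, R ^ 2 ≤ a ^ 2 + b ^ 2 → |a| ≤ h → |b| ≤ h →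
    P (a, b, φ + 2 * Real.pi) = P (a, b, φ)

/-- what is used about the glued manifold. -/
structure Model (N : NeckG) {M : Type} [TopologicalSpace M] (A : RAtlas 3 M) (PN : E 3 → M)
    (isN : A.ι → Prop) : Prop where
  neckG : ∀ i, isN i → A.G i = N.gN
  flatG : ∀ i, ¬ isN i → A.G i = fun _ => 1
  neck_cover : ∀ y : E 3, |y 0| < N.T → ∃ i, isN i ∧ y ∈ (A.chart i).target ∧
    ∀ y' ∈ (A.chart i).target, (A.chart i).symm y' = PN y'
  neck_tr : ∀ i j x, isN i → isN j → x ∈ (A.chart i).source → x ∈ (A.chart j).source →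
    ∃ l : E 3, l 0 = 0 ∧ A.tr i j =ᶠ[𝓝 (A.chart i x)] fun y => y + l
  core : ∀ x, (∃ i, isN i ∧ x ∈ (A.chart i).source) ∨
    ∀ᶠ x' in 𝓝 x, ∀ i, isN i → x' ∈ (A.chart i).source → 2 ≤ |A.chart i x' 0|
  contN : ContinuousOn PN {y | |y 0| < N.T}
  perX : ∀ t X Y, |t| < N.T → PN (pt t (X + 2 * Real.pi * N.aW) Y) = PN (pt t X Y)
  perY : ∀ t X Y, |t| < N.T → PN (pt t X (Y + 2 * Real.pi * N.aV)) = PN (pt t X Y)
  left : ∃ (P : ℝ × ℝ × ℝ → M) (R h : ℝ), Side P R h ∧ ∀ θ φ,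
    P (R * Real.cos θ, R * Real.sin θ, φ) = PN (pt (-N.T + 1 / 2) (N.aW * θ) (N.aV * φ))
  right : ∃ (P : ℝ × ℝ × ℝ → M) (R h : ℝ), Side P R h ∧ ∀ θ φ,
    P (R * Real.cos θ, R * Real.sin θ, φ) = PN (pt (N.T - 1 / 2) (N.aW * (θ + φ)) (N.aV * θ))

end

end Crest.Agent.R244
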