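import Crest.Agent.R244.Defs

/-! Row 244: the algebraic obstruction. -/

set_option autoImplicit false

open Set Filter
open scoped ContDiff Topology

namespace Crest.Agent.R244

open Crest.GeometryTopology.CoordMetric Crest.GeometryTopology.ChartCurvature
  Crest.GeometryTopology.Geodesic

section aux

variable {Γ : Type} [Group Γ] {l τ : Γ → ℝ}

theorem group_exists_tau (h0 : ∀ g, 0 ≤ l g) (htri : ∀ g h, l (g * h) ≤ l g + l h) (g : Γ) :
    ∃ t, Tendsto (fun k : ℕ => l (g ^ k) / k) atTop (𝓝 t) := by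
  have h : Subadditive fun k => l (g ^ k) := fun m n => by
    simp only [pow_add]; exact htri _ _
  refine ⟨_, h.tendsto_lim ⟨0, ?_⟩⟩
  rintro _ ⟨n, rfl⟩
  exact div_nonneg (h0 _) (Nat.cast_nonneg _)

theorem group_tau_inv (hinv : ∀ g, l g⁻¹ = l g)
    (hτ : ∀ g, Tendsto (fun k : ℕ => l (g ^ k) / k) atTop (𝓝 (τ g))) (g : Γ) :
    τ g⁻¹ = τ g := by
  have h := hτ g⁻¹
  simp only [inv_pow, hinv] at h
  exact tendsto_nhds_unique h (hτ g)

theorem group_tau_mul_self
    (hτ : ∀ g, Tendsto (fun k : ℕ => l (g ^ k) / k) atTop (𝓝 (τ g))) (g : Γ) :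
    τ (g * g) = 2 * τ g := by
  have h2 : Tendsto (fun k : ℕ => 2 * k) atTop atTop :=
    tendsto_id.const_mul_atTop' (by norm_num)
  have h := ((hτ g).comp h2).const_mul 2
  refine tendsto_nhds_unique (hτ (g * g)) (h.congr fun k => ?_)
  simp only [Function.comp, pow_mul, sq]
  push_cast
  rcases eq_or_ne (k : ℝ) 0 with hk | hk
  · simp [hk]
  · field_simp

theorem group_par_le (hinv : ∀ g, l g⁻¹ = l g)
    (hquad : ∀ u v w, l (u * v) ^ 2 + l (v * w) ^ 2 ≤
      l u ^ 2 + l v ^ 2 + l w ^ 2 + l (u * v * w) ^ 2)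
    (hτ : ∀ g, Tendsto (fun k : ℕ => l (g ^ k) / k) atTop (𝓝 (τ g))) {u v : Γ}
    (h : Commute u v) : τ (u * v) ^ 2 + τ (u⁻¹ * v) ^ 2 ≤ 2 * τ u ^ 2 + 2 * τ v ^ 2 := by
  refine le_of_tendsto_of_tendsto' (((hτ (u * v)).pow 2).add ((hτ (u⁻¹ * v)).pow 2))
    ((((hτ u).pow 2).const_mul 2).add (((hτ v).pow 2).const_mul 2)) fun k => ?_
  have h1 := hquad (u ^ k) (v ^ k) (u ^ k)⁻¹
  have h2 : u ^ k * v ^ k * (u ^ k)⁻¹ = v ^ k := by
    rw [(h.pow_pow k k).eq, mul_inv_cancel_right]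
  have h3 : v ^ k * (u ^ k)⁻¹ = (u⁻¹ * v) ^ k := by
    rw [h.inv_left.mul_pow, inv_pow, (h.pow_pow k k).inv_left.eq]
  rw [h2, h3, hinv, ← h.mul_pow] at h1
  simp only [div_pow, ← mul_div_assoc, ← add_div]
  exact div_le_div_of_nonneg_right (by linarith) (by positivity)

theorem group_par (hinv : ∀ g, l g⁻¹ = l g)
    (hquad : ∀ u v w, l (u * v) ^ 2 + l (v * w) ^ 2 ≤
      l u ^ 2 + l v ^ 2 + l w ^ 2 + l (u * v * w) ^ 2)
    (hτ : ∀ g, Tendsto (fun k : ℕ => l (g ^ k) / k) atTop (𝓝 (τ g))) {u v : Γ}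
    (h : Commute u v) : τ (u * v) ^ 2 + τ (u⁻¹ * v) ^ 2 = 2 * τ u ^ 2 + 2 * τ v ^ 2 := by
  refine le_antisymm (group_par_le hinv hquad hτ h) ?_
  have hc : Commute (u * v) (u⁻¹ * v) :=
    (((Commute.refl u).inv_right).mul_right h).mul_left
      (h.symm.inv_right.mul_right (Commute.refl v))
  have h1 := group_par_le hinv hquad hτ hc
  have h2 : u * v * (u⁻¹ * v) = v * v := by
    rw [h.eq, mul_assoc, mul_inv_cancel_left]
  have h3 : (u * v)⁻¹ * (u⁻¹ * v) = (u * u)⁻¹ := by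
    rw [h.inv_left.eq, h.eq, mul_inv_rev, mul_inv_rev, mul_assoc, inv_mul_cancel_left]
  rw [h2, h3, group_tau_inv hinv hτ, group_tau_mul_self hτ, group_tau_mul_self hτ] at h1
  linarith

theorem group_quadr (hinv : ∀ g, l g⁻¹ = l g)
    (hquad : ∀ u v w, l (u * v) ^ 2 + l (v * w) ^ 2 ≤
      l u ^ 2 + l v ^ 2 + l w ^ 2 + l (u * v * w) ^ 2)
    (hτ : ∀ g, Tendsto (fun k : ℕ => l (g ^ k) / k) atTop (𝓝 (τ g))) {u v : Γ}
    (h : Commute u v) (n : ℕ) : τ (u ^ n * v) ^ 2 =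
      n ^ 2 * τ u ^ 2 + n * (τ (u * v) ^ 2 - τ u ^ 2 - τ v ^ 2) + τ v ^ 2 := by
  induction n using Nat.twoStepInduction with
  | zero => simp
  | one => rw [pow_one]; push_cast; ring
  | more n ih1 ih2 =>
    have hc : Commute u (u ^ (n + 1) * v) := ((Commute.refl u).pow_right _).mul_right h
    have h1 := group_par hinv hquad hτ hc
    have h2 : u * (u ^ (n + 1) * v) = u ^ (n + 2) * v := by rw [← mul_assoc, ← pow_succ']
    have h3 : u⁻¹ * (u ^ (n + 1) * v) = u ^ n * v := by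
      rw [pow_succ', mul_assoc, inv_mul_cancel_left]
    rw [h2, h3, ih1, ih2] at h1
    push_cast at h1 ⊢
    linarith

theorem group_lin_bound {u : ℕ → ℝ} {t : ℝ} (h0 : ∀ n, 0 ≤ u n)
    (h : Tendsto (fun k : ℕ => u k / k) atTop (𝓝 t)) {ε : ℝ} (hε : 0 < ε) :
    ∃ C, 0 ≤ C ∧ ∀ n : ℕ, u n ≤ (t + ε) * n + C := by
  have ht : 0 ≤ t := ge_of_tendsto' h fun k => div_nonneg (h0 _) (Nat.cast_nonneg _)
  obtain ⟨N, hN⟩ := eventually_atTop.mp (h.eventually (gt_mem_nhds (lt_add_of_pos_right t hε)))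
  have hC : 0 ≤ ∑ i ∈ Finset.range (N + 1), u i := Finset.sum_nonneg fun i _ => h0 i
  refine ⟨_, hC, fun n => ?_⟩
  rcases le_or_gt n N with hn | hn
  · have h1 : u n ≤ ∑ i ∈ Finset.range (N + 1), u i :=
      Finset.single_le_sum (fun i _ => h0 i) (Finset.mem_range.mpr (by omega))
    have h2 : 0 ≤ (t + ε) * n := by positivity
    linarith
  · have h1 := hN n hn.le
    have h2 : (0 : ℝ) < n := by exact_mod_cast (by omega : 0 < n)
    rw [div_lt_iff₀ h2] at h1
    linarith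

theorem group_exists_H (h0 : ∀ g, 0 ≤ l g) (h1 : l 1 = 0)
    (hinv : ∀ g, l g⁻¹ = l g) (htri : ∀ g h, l (g * h) ≤ l g + l h)
    (hquad : ∀ u v w, l (u * v) ^ 2 + l (v * w) ^ 2 ≤
      l u ^ 2 + l v ^ 2 + l w ^ 2 + l (u * v * w) ^ 2)
    (hτ : ∀ g, Tendsto (fun k : ℕ => l (g ^ k) / k) atTop (𝓝 (τ g))) (z : Γ) :
    ∃ H : Γ → ℝ, (∀ g h, Commute g z → H (g * h) = H g + H h) ∧ H z = τ z ^ 2 ∧
      ∀ g, |H g| ≤ τ z * l g := by
  set D : Γ → ℕ → ℝ := fun g n => l (z ^ (n + 1)) ^ 2 - l (g⁻¹ * z ^ (n + 1)) ^ 2 with hD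
  set S : Γ → ℕ → ℝ := fun g N => (∑ n ∈ Finset.range N, D g n) / (N : ℝ) ^ 2 with hS
  have hτ0 : 0 ≤ τ z := ge_of_tendsto' (hτ z) fun k => div_nonneg (h0 _) (Nat.cast_nonneg _)
  have hDb : ∀ g n, |D g n| ≤ l g * (2 * l (z ^ (n + 1)) + l g) := by
    intro g n
    have a1 := htri g⁻¹ (z ^ (n + 1))
    have a2 := htri g (g⁻¹ * z ^ (n + 1))
    rw [hinv] at a1
    rw [mul_inv_cancel_left] at a2
    have a3 := h0 (z ^ (n + 1))
    have a4 := h0 (g⁻¹ * z ^ (n + 1))
    have a5 := h0 g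
    simp only [hD]
    rw [abs_le]
    constructor <;> nlinarith
  have hSb : ∀ g, ∀ ε > 0, ∃ K, 0 ≤ K ∧ ∀ N : ℕ, |S g N| ≤ l g * (τ z + ε) + K / N := by
    intro g ε hε
    obtain ⟨C, hC0, hC⟩ := group_lin_bound (fun n => h0 (z ^ n)) (hτ z) hε
    have a5 := h0 g
    refine ⟨l g * (τ z + ε + 2 * C + l g), by positivity, fun N => ?_⟩
    have a1 : |∑ n ∈ Finset.range N, D g n|
        ≤ l g * ((τ z + ε) * N ^ 2 + (τ z + ε + 2 * C + l g) * N) := by
      induction N with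
      | zero => simp
      | succ N ih =>
        rw [Finset.sum_range_succ]
        refine (abs_add_le _ _).trans ?_
        have a2 := hDb g N
        have a3 := mul_le_mul_of_nonneg_left (hC (N + 1)) a5
        push_cast at a3 ⊢
        nlinarith
    rcases Nat.eq_zero_or_pos N with rfl | hN
    · simp only [hS]; simp; positivity
    · have hN' : (0 : ℝ) < N := by exact_mod_cast hN
      simp only [hS]
      rw [abs_div, abs_of_pos (pow_pos hN' 2), div_le_iff₀ (pow_pos hN' 2)]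
      refine a1.trans (le_of_eq ?_)
      field_simp
  have hlim : ∀ g, ∃ t, Tendsto (S g) (hyperfilter ℕ) (𝓝 t) := by
    intro g
    obtain ⟨K, hK0, hK⟩ := hSb g 1 one_pos
    have hb : ∀ N : ℕ, S g N ∈ Icc (-(l g * (τ z + 1) + K)) (l g * (τ z + 1) + K) := by
      intro N
      refine abs_le.mp ((hK N).trans ?_)
      have : K / N ≤ K := by
        rcases Nat.eq_zero_or_pos N with rfl | hN
        · simpa using hK0
        · exact div_le_self hK0 (by exact_mod_cast hN)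
      linarith
    obtain ⟨t, -, ht⟩ := isCompact_Icc.ultrafilter_le_nhds ((hyperfilter ℕ).map (S g))
      (le_principal_iff.mpr (mem_map.mpr (univ_mem' hb)))
    exact ⟨t, ht⟩
  choose H hH using hlim
  have hzero : ∀ K : ℝ, Tendsto (fun N : ℕ => K / N) (hyperfilter ℕ) (𝓝 0) := fun K =>
    (tendsto_const_div_atTop_nhds_zero_nat K).mono_left Nat.hyperfilter_le_atTop
  refine ⟨H, fun g h hg => ?_, ?_, fun g => ?_⟩
  · have hg' : ∀ n, Commute g (z ^ n) := fun n => hg.pow_right n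
    have a1 : ∀ n, |D (g * h) n - D g n - D h n| ≤ l g ^ 2 + l h ^ 2 := by
      intro n
      have b1 := hquad h⁻¹ (z ^ (n + 1)) g⁻¹
      have b2 := hquad h⁻¹ (g⁻¹ * z ^ (n + 1)) g
      have e1 : z ^ (n + 1) * g⁻¹ = g⁻¹ * z ^ (n + 1) := (hg' _).inv_left.eq.symm
      have e2 : g⁻¹ * z ^ (n + 1) * g = z ^ (n + 1) := by
        rw [← e1, inv_mul_cancel_right]
      rw [mul_assoc h⁻¹, e1, hinv, hinv] at b1
      rw [mul_assoc h⁻¹ _ g, e2, hinv] at b2
      simp only [hD, mul_inv_rev, mul_assoc]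
      rw [abs_le]
      constructor <;> linarith
    have a2 : ∀ N : ℕ, |S (g * h) N - S g N - S h N| ≤ (l g ^ 2 + l h ^ 2) / N := by
      intro N
      rcases Nat.eq_zero_or_pos N with rfl | hN
      · simp [hS]
      · have hN' : (0 : ℝ) < N := by exact_mod_cast hN
        simp only [hS]
        rw [← sub_div, ← sub_div, ← Finset.sum_sub_distrib, ← Finset.sum_sub_distrib, abs_div,
          abs_of_pos (pow_pos hN' 2), div_le_iff₀ (pow_pos hN' 2)]
        refine (Finset.abs_sum_le_sum_abs _ _).trans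
          ((Finset.sum_le_sum fun n _ => a1 n).trans (le_of_eq ?_))
        rw [Finset.sum_const, Finset.card_range, nsmul_eq_mul]
        field_simp
    have a3 := le_of_tendsto_of_tendsto' (((hH (g * h)).sub (hH g)).sub (hH h)).abs (hzero _) a2
    have a4 := abs_nonpos_iff.mp a3
    linarith
  · refine tendsto_nhds_unique (hH z) ?_
    refine (((hτ z).pow 2).mono_left Nat.hyperfilter_le_atTop).congr fun N => ?_
    have a1 : ∀ n, D z n = l (z ^ (n + 1)) ^ 2 - l (z ^ n) ^ 2 := fun n => by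
      simp only [hD]; rw [pow_succ' z n, inv_mul_cancel_left]
    simp only [hS, a1]
    rw [Finset.sum_range_sub (fun n => l (z ^ n) ^ 2), pow_zero, h1, div_pow]
    simp
  · refine le_of_forall_pos_le_add fun ε hε => ?_
    have a5 := h0 g
    obtain ⟨K, -, hK⟩ := hSb g (ε / (l g + 1)) (by positivity)
    have a1 := le_of_tendsto_of_tendsto' (hH g).abs ((hzero K).const_add _) hK
    have a2 : l g * (ε / (l g + 1)) ≤ ε := by
      rw [← mul_div_assoc, div_le_iff₀ (by positivity)]; nlinarith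
    nlinarith

theorem group_H_pow {H : Γ → ℝ} {z : Γ} (hH : ∀ g h, Commute g z → H (g * h) = H g + H h)
    {g : Γ} (hg : Commute g z) (h : Γ) (n : ℕ) : H (g ^ n * h) = n * H g + H h := by
  induction n with
  | zero => simp
  | succ n ih => rw [pow_succ', mul_assoc, hH _ _ hg, ih]; push_cast; ring

theorem group_H_sq_le {H : Γ → ℝ} {z : Γ} (hH : ∀ g h, Commute g z → H (g * h) = H g + H h)
    (hτ : ∀ g, Tendsto (fun k : ℕ => l (g ^ k) / k) atTop (𝓝 (τ g)))
    (hb : ∀ g, |H g| ≤ τ z * l g) {g : Γ} (hg : Commute g z) :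
    H g ^ 2 ≤ τ z ^ 2 * τ g ^ 2 := by
  have h1 : H 1 = 0 := by
    have := hH 1 1 (Commute.one_left z)
    rw [mul_one] at this
    linarith
  have h2 : |H g| ≤ τ z * τ g := by
    refine ge_of_tendsto ((hτ g).const_mul (τ z)) ?_
    filter_upwards [eventually_gt_atTop 0] with k hk
    have hk' : (0 : ℝ) < k := by exact_mod_cast hk
    have h3 := group_H_pow hH hg 1 k
    have h4 := hb (g ^ k)
    rw [mul_one, h1, add_zero] at h3
    rw [h3, abs_mul, abs_of_pos hk'] at h4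
    rw [← mul_div_assoc, le_div_iff₀ hk']
    linarith
  rw [← mul_pow, ← sq_abs]
  exact pow_le_pow_left₀ (abs_nonneg _) h2 2

theorem group_arch {x y : ℝ} (h : ∀ n : ℕ, n * x ≤ y) : x ≤ 0 := by
  by_contra hx
  obtain ⟨n, hn⟩ := exists_nat_gt (y / x)
  rw [div_lt_iff₀ (not_le.mp hx)] at hn
  exact absurd (h n) (not_le.mpr hn)

end aux

/-- In a group with a length function satisfying the quadrilateral inequality, the relations of the
graph manifold group force the stable length of `c` to vanish. -/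
theorem stable_length_zero {Γ : Type} [Group Γ] (l : Γ → ℝ) (h0 : ∀ g, 0 ≤ l g) (h1 : l 1 = 0)
    (hinv : ∀ g, l g⁻¹ = l g) (htri : ∀ g h, l (g * h) ≤ l g + l h)
    (hquad : ∀ u v w, l (u * v) ^ 2 + l (v * w) ^ 2 ≤
      l u ^ 2 + l v ^ 2 + l w ^ 2 + l (u * v * w) ^ 2)
    {f c a b a' b' : Γ} (hfc : Commute f c) (ha : Commute a f) (hb : Commute b f)
    (hab : b * a * c = a * b) (ha' : Commute a' c) (hb' : Commute b' c)
    (hab' : b' * a' * (c * f) = a' * b') :
    Tendsto (fun k : ℕ => l (c ^ k) / k) atTop (𝓝 0) := by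
  choose τ hτ using group_exists_tau h0 htri
  have hneg : ∀ {H : Γ → ℝ} {z : Γ}, (∀ g h, Commute g z → H (g * h) = H g + H h) →
      H z⁻¹ = -H z := by
    intro H z hH
    have a1 := hH 1 1 (Commute.one_left z)
    have a2 := hH z z⁻¹ (Commute.refl z)
    rw [mul_one] at a1
    rw [mul_inv_cancel] at a2
    linarith
  -- the cross term vanishes
  have hB : τ (f * c) ^ 2 - τ f ^ 2 - τ c ^ 2 = 0 := by
    obtain ⟨H, hH, hz, hb'⟩ := group_exists_H h0 h1 hinv htri hquad hτ f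
    have hc0 : H c = 0 := by
      have a1 := congrArg H hab
      rw [mul_assoc, hH _ _ hb, hH _ _ ha, hH _ _ ha] at a1
      linarith
    have hpar := group_par hinv hquad hτ hfc
    have key : ∀ n : ℕ, 0 ≤ n * (τ (f * c) ^ 2 - τ f ^ 2 - τ c ^ 2) + τ c ^ 2 ∧
        0 ≤ -(n * (τ (f * c) ^ 2 - τ f ^ 2 - τ c ^ 2)) + τ c ^ 2 := by
      intro n
      have q1 := group_quadr hinv hquad hτ hfc n
      have q2 := group_quadr hinv hquad hτ hfc.inv_left n
      rw [group_tau_inv hinv hτ] at q2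
      have q3 : τ (f⁻¹ * c) ^ 2 - τ f ^ 2 - τ c ^ 2 = -(τ (f * c) ^ 2 - τ f ^ 2 - τ c ^ 2) := by
        linarith
      rw [q3] at q2
      have s1 := group_H_sq_le hH hτ hb' (((Commute.refl f).pow_left n).mul_left hfc.symm)
      have s2 := group_H_sq_le hH hτ hb'
        (((Commute.refl f).inv_left.pow_left n).mul_left hfc.symm)
      rw [group_H_pow hH (Commute.refl f), hc0, hz, q1] at s1
      rw [group_H_pow hH (Commute.refl f).inv_left, hc0, hneg hH, hz, q2] at s2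
      rcases (sq_nonneg (τ f)).eq_or_lt with hα | hα
      · have p1 := sq_nonneg (τ (f ^ n * c))
        have p2 := sq_nonneg (τ (f⁻¹ ^ n * c))
        rw [q1] at p1
        rw [q2] at p2
        rw [← hα] at p1 p2 ⊢
        constructor <;> linarith
      · constructor
        · refine nonneg_of_mul_nonneg_right ?_ hα
          nlinarith
        · refine nonneg_of_mul_nonneg_right ?_ hα
          nlinarith
    have k1 := group_arch (x := τ (f * c) ^ 2 - τ f ^ 2 - τ c ^ 2) (y := τ c ^ 2)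
      fun n => by linarith [(key n).2]
    have k2 := group_arch (x := -(τ (f * c) ^ 2 - τ f ^ 2 - τ c ^ 2)) (y := τ c ^ 2)
      fun n => by linarith [(key n).1]
    linarith
  have hγ : τ c = 0 := by
    obtain ⟨H, hH, hz, hb''⟩ := group_exists_H h0 h1 hinv htri hquad hτ c
    have hf : H f = -τ c ^ 2 := by
      have a1 := congrArg H hab'
      rw [mul_assoc, hH _ _ hb', hH _ _ ha', hH _ _ ha', hH _ _ (Commute.refl c), hz] at a1
      linarith
    have hpar := group_par hinv hquad hτ hfc.symm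
    rw [← hfc.eq] at hpar
    have key : ∀ n : ℕ, n * (τ c ^ 2) ^ 2 ≤ τ c ^ 2 * τ f ^ 2 := by
      intro n
      have q2 := group_quadr hinv hquad hτ hfc.symm.inv_left n
      rw [group_tau_inv hinv hτ] at q2
      have q3 : τ (c⁻¹ * f) ^ 2 - τ c ^ 2 - τ f ^ 2 = 0 := by linarith
      rw [q3] at q2
      have s2 := group_H_sq_le hH hτ hb''
        (((Commute.refl c).inv_left.pow_left n).mul_left hfc)
      rw [group_H_pow hH (Commute.refl c).inv_left, hf, hneg hH, hz, q2] at s2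
      have hn : (0 : ℝ) ≤ n := Nat.cast_nonneg n
      nlinarith [sq_nonneg (τ c ^ 2), mul_nonneg hn (sq_nonneg (τ c ^ 2))]
    have k1 := group_arch key
    have k2 : (τ c ^ 2) ^ 2 = 0 := le_antisymm k1 (sq_nonneg _)
    exact pow_eq_zero_iff two_ne_zero |>.mp (pow_eq_zero_iff two_ne_zero |>.mp k2)
  rw [← hγ]
  exact hτ c

end Crest.Agent.R244
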