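import Crest.Agent.R244.NeckGam

/-! Row 244: the invariant used to glue the neck and the two flat pieces. -/

set_option autoImplicit false

open Set Filter
open scoped ContDiff Topology

namespace Crest.Agent.R244

open Crest.GeometryTopology.CoordMetric

noncomputable section

@[simp] theorem pt_zero (a b c : ℝ) : pt a b c 0 = a := rfl
@[simp] theorem pt_one (a b c : ℝ) : pt a b c 1 = b := rfl
@[simp] theorem pt_two (a b c : ℝ) : pt a b c 2 = c := rfl

theorem ext3 {u v : E 3} (h0 : u 0 = v 0) (h1 : u 1 = v 1) (h2 : u 2 = v 2) : u = v := by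
  ext i
  fin_cases i
  exacts [h0, h1, h2]

theorem pt_eta (u : E 3) : pt (u 0) (u 1) (u 2) = u := ext3 rfl rfl rfl

theorem contDiff_pt {X : Type} [NormedAddCommGroup X] [NormedSpace ℝ X] {f g h : X → ℝ}
    {k : WithTop ℕ∞} (hf : ContDiff ℝ k f) (hg : ContDiff ℝ k g) (hh : ContDiff ℝ k h) :
    ContDiff ℝ k (fun x => pt (f x) (g x) (h x)) := by
  rw [contDiff_euclidean]
  intro i
  fin_cases i
  exacts [hf, hg, hh]

@[fun_prop] theorem continuous_pt {X : Type} [TopologicalSpace X] {f g h : X → ℝ}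
    (hf : Continuous f) (hg : Continuous g) (hh : Continuous h) :
    Continuous (fun x => pt (f x) (g x) (h x)) := by
  refine (PiLp.continuous_toLp 2 _).comp (continuous_pi fun i => ?_)
  fin_cases i
  exacts [hf, hg, hh]

/-- `exp (i a)`. -/
def cis (a : ℝ) : ℂ := Complex.exp (a * Complex.I)

@[fun_prop] theorem continuous_cis : Continuous cis := by
  unfold cis
  fun_prop

theorem cis_zero : cis 0 = 1 := by simp [cis]

theorem cis_add (a b : ℝ) : cis (a + b) = cis a * cis b := by
  simp [cis, add_mul, Complex.exp_add]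

theorem cis_eq_iff {a b : ℝ} : cis a = cis b ↔ ∃ n : ℤ, a = b + n * (2 * Real.pi) := by
  unfold cis
  rw [Complex.exp_eq_exp_iff_exists_int]
  refine exists_congr fun n => ⟨fun h => ?_, fun h => ?_⟩
  · have := congrArg Complex.im h
    simpa using this
  · rw [h]
    push_cast
    ring

theorem cis_add_int (a : ℝ) (n : ℤ) : cis (a + n * (2 * Real.pi)) = cis a :=
  cis_eq_iff.2 ⟨n, rfl⟩

theorem cis_eq (a : ℝ) : cis a = Real.cos a + Real.sin a * Complex.I := by
  simp [cis, Complex.exp_mul_I]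

theorem norm_cis (a : ℝ) : ‖cis a‖ = 1 := Complex.norm_exp_ofReal_mul_I a

/-- the sign of a side. -/
def sg (b : Bool) : ℝ := if b then 1 else -1

theorem sg_mul_sg (b : Bool) : sg b * sg b = 1 := by cases b <;> simp [sg]

theorem abs_sg_mul (b : Bool) (t : ℝ) : |sg b * t| = |t| := by cases b <;> simp [sg]

theorem sg_not (b : Bool) : sg (!b) = -sg b := by cases b <;> simp [sg]

/-- the horizontal part of a point as a complex number. -/
def zc (z : E 3) : ℂ := z 0 + z 1 * Complex.I

@[fun_prop] theorem continuous_zc : Continuous zc := by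
  unfold zc
  fun_prop

theorem norm_zc_sq (z : E 3) : ‖zc z‖ ^ 2 = z 0 ^ 2 + z 1 ^ 2 := by
  rw [Complex.sq_norm, zc, Complex.normSq_add_mul_I]

theorem abs_le_zc0 (z : E 3) : |z 0| ≤ ‖zc z‖ := by
  have := Complex.abs_re_le_norm (zc z)
  simpa [zc] using this

theorem abs_le_zc1 (z : E 3) : |z 1| ≤ ‖zc z‖ := by
  have := Complex.abs_im_le_norm (zc z)
  simpa [zc] using this

/-- clamp to `[0, 1]`. -/
def lam (t : ℝ) : ℝ := max 0 (min 1 t)

@[fun_prop] theorem continuous_lam : Continuous lam := by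
  unfold lam
  fun_prop

theorem lam_one {t : ℝ} (h : 1 ≤ t) : lam t = 1 := by
  unfold lam
  rw [min_eq_left h]
  norm_num

theorem lam_zero {t : ℝ} (h : t ≤ 0) : lam t = 0 := by
  unfold lam
  exact max_eq_left ((min_le_right _ _).trans h)

/-- the target of the invariant. -/
abbrev Zt : Type := ℝ × (Bool → ℂ × ℂ × ℂ × ℂ)

namespace NeckG
variable (N : NeckG)

/-- inner radius of the gluing annulus. -/
def Rb (b : Bool) : ℝ := if b then N.rR + N.T - 1 else N.rL + N.T - 1

/-- half side of the square torus. -/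
def hb (b : Bool) : ℝ := N.Rb b + 3

/-- scale of the fibre. -/
def aF (b : Bool) : ℝ := if b then N.aW else N.aV

/-- polar angle. -/
def th (b : Bool) (y : E 3) : ℝ := if b then y 2 / N.aV else y 1 / N.aW

/-- fibre angle. -/
def ph (b : Bool) (y : E 3) : ℝ := if b then y 1 / N.aW - y 2 / N.aV else y 2 / N.aV

/-- polar radius. -/
def rad (b : Bool) (y : E 3) : ℝ := sg b * y 0 + N.Rb b + 1 - N.T

/-- polar coordinates. -/
def pol (b : Bool) (y : E 3) : E 3 :=
  pt (N.rad b y * Real.cos (N.th b y)) (N.rad b y * Real.sin (N.th b y)) (-(N.aF b * N.ph b y))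

/-- the invariant on the neck. -/
def FN (y : E 3) : Zt :=
  (y 0, fun b => (((N.T - |y 0| : ℝ) : ℂ) * cis (N.th b y),
    cis (Real.pi * (lam (sg b * y 0) * N.pol b y 0) / N.hb b),
    cis (Real.pi * (lam (sg b * y 0) * N.pol b y 1) / N.hb b),
    (lam (sg b * y 0) : ℂ) * cis (N.ph b y)))

/-- the cut off on a flat piece. -/
def om (b : Bool) (z : E 3) : ℝ := max (N.Rb b + 1 - ‖zc z‖) 0

/-- the invariant on a flat piece. -/
def FS (b : Bool) (z : E 3) : Zt :=
  (sg b * (N.T - N.om b z), fun b' =>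
    if b' = b then ((N.om b z : ℂ) * (zc z / ‖zc z‖), cis (Real.pi * z 0 / N.hb b),
      cis (Real.pi * z 1 / N.hb b), cis (-(z 2) / N.aF b))
    else ((N.om b z : ℂ) * (cis (-(z 2) / N.aF b) * if b then zc z / ‖zc z‖ else 1), 1, 1, 0))

/-- domain of the neck. -/
def ΩN : Set (E 3) := {y | |y 0| < N.T}

/-- domain of a flat piece. -/
def ΩS (b : Bool) : Set (E 3) :=
  {z | N.Rb b < ‖zc z‖ ∧ |z 0| < N.hb b + 1 ∧ |z 1| < N.hb b + 1}

theorem Rb_pos (b : Bool) : 0 < N.Rb b := by
  cases b
  exacts [N.hrL, N.hrR]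

theorem hb_pos (b : Bool) : 0 < N.hb b := by
  have := N.Rb_pos b
  unfold hb
  linarith

theorem aF_pos (b : Bool) : 0 < N.aF b := by
  cases b
  exacts [N.haV, N.haW]

theorem isOpen_ΩN : IsOpen N.ΩN := isOpen_lt (by fun_prop) continuous_const

theorem isOpen_ΩS (b : Bool) : IsOpen (N.ΩS b) := by
  have h1 : IsOpen {z : E 3 | N.Rb b < ‖zc z‖} := isOpen_lt continuous_const (by fun_prop)
  have h2 : IsOpen {z : E 3 | |z 0| < N.hb b + 1} := isOpen_lt (by fun_prop) continuous_const
  have h3 : IsOpen {z : E 3 | |z 1| < N.hb b + 1} := isOpen_lt (by fun_prop) continuous_const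
  exact h1.inter (h2.inter h3)

@[fun_prop] theorem continuous_th (b : Bool) : Continuous (N.th b) := by
  unfold th
  split_ifs <;> fun_prop

@[fun_prop] theorem continuous_ph (b : Bool) : Continuous (N.ph b) := by
  unfold ph
  split_ifs <;> fun_prop

@[fun_prop] theorem continuous_rad (b : Bool) : Continuous (N.rad b) := by
  unfold rad
  fun_prop

@[fun_prop] theorem continuous_pol (b : Bool) : Continuous (N.pol b) := by
  unfold pol
  fun_prop

@[fun_prop] theorem continuous_om (b : Bool) : Continuous (N.om b) := by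
  unfold om
  fun_prop

theorem continuous_FN : Continuous N.FN := by
  unfold FN
  refine Continuous.prodMk (by fun_prop) (continuous_pi fun b => ?_)
  have := N.continuous_pol b
  fun_prop

theorem continuousOn_FS (b : Bool) : ContinuousOn (N.FS b) (N.ΩS b) := by
  have hz : ContinuousOn (fun z => zc z / (‖zc z‖ : ℂ)) (N.ΩS b) := by
    refine ContinuousOn.div (by fun_prop) (by fun_prop) fun z hz => ?_
    have := (N.Rb_pos b).trans hz.1
    exact_mod_cast this.ne'
  unfold FS
  refine ContinuousOn.prodMk (by fun_prop) (continuousOn_pi.2 fun b' => ?_)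
  split_ifs
  · exact ContinuousOn.prodMk (ContinuousOn.mul (by fun_prop) hz) (by fun_prop)
  · exact ContinuousOn.prodMk (ContinuousOn.mul (by fun_prop)
      (ContinuousOn.mul (by fun_prop) hz)) (by fun_prop)
  · fun_prop

theorem zc_pol (b : Bool) (y : E 3) : zc (N.pol b y) = N.rad b y * cis (N.th b y) := by
  simp only [zc, pol, pt_zero, pt_one, cis_eq]
  push_cast
  ring

theorem norm_zc_pol (b : Bool) (y : E 3) (h : 0 ≤ N.rad b y) : ‖zc (N.pol b y)‖ = N.rad b y := by
  rw [zc_pol, norm_mul, norm_cis, mul_one, Complex.norm_real, Real.norm_of_nonneg h]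

theorem th_not (b : Bool) (y : E 3) :
    N.th (!b) y = N.ph b y + if b then N.th b y else 0 := by
  cases b <;> simp [th, ph]

/-- compatibility of the invariants on the gluing annulus. -/
theorem FS_pol (b : Bool) {y : E 3} (h1 : N.T - 1 < sg b * y 0) (h2 : sg b * y 0 < N.T) :
    N.FS b (N.pol b y) = N.FN y := by
  have hT := N.hT
  have hR := N.Rb_pos b
  have hr : 0 < N.rad b y := by unfold rad; linarith
  have hn := N.norm_zc_pol b y hr.le
  have habs : |y 0| = sg b * y 0 := by
    rw [← abs_sg_mul b, abs_of_pos (by linarith)]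
  have hom : N.om b (N.pol b y) = N.T - |y 0| := by
    unfold om
    rw [hn, habs, max_eq_left (by unfold rad; linarith)]
    unfold rad
    ring
  have hu : zc (N.pol b y) / (‖zc (N.pol b y)‖ : ℂ) = cis (N.th b y) := by
    rw [hn, zc_pol]
    have : (N.rad b y : ℂ) ≠ 0 := by exact_mod_cast hr.ne'
    field_simp
  have hf : -(N.pol b y 2) / N.aF b = N.ph b y := by
    have := (N.aF_pos b).ne'
    simp only [pol, pt_two]
    field_simp
  unfold FS FN
  refine Prod.ext ?_ (funext fun b' => ?_)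
  · simp only [hom, habs]
    rw [sub_sub_cancel, ← mul_assoc, sg_mul_sg, one_mul]
  · by_cases hb : b' = b
    · subst hb
      simp only [if_true, hom, hu, hf, lam_one (show 1 ≤ sg b' * y 0 by linarith), one_mul,
        Complex.ofReal_one]
    · have hb' : b' = !b := by cases b <;> cases b' <;> simp_all
      have hl : lam (sg b' * y 0) = 0 := by
        rw [hb', sg_not]
        exact lam_zero (by linarith)
      simp only [if_neg hb, hom, hu, hf, hl, zero_mul, mul_zero, zero_div, cis_zero,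
        Complex.ofReal_zero]
      rw [hb', th_not, cis_add]
      cases b <;> simp [cis_zero]

/-- lattice translations of the neck. -/
theorem FN_add (y : E 3) (m n : ℤ) :
    N.FN (y + pt 0 (m * (2 * Real.pi * N.aW)) (n * (2 * Real.pi * N.aV))) = N.FN y := by
  have hV := N.haV.ne'
  have hW := N.haW.ne'
  set y' := y + pt 0 (m * (2 * Real.pi * N.aW)) (n * (2 * Real.pi * N.aV)) with hy'
  have h0 : y' 0 = y 0 := by simp [hy']
  have hth : ∀ b, ∃ k : ℤ, N.th b y' = N.th b y + k * (2 * Real.pi) := by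
    intro b
    cases b
    · refine ⟨m, ?_⟩
      simp only [th, hy', PiLp.add_apply, pt_one, Bool.false_eq_true, if_false]
      field_simp
    · refine ⟨n, ?_⟩
      simp only [th, hy', PiLp.add_apply, pt_two, if_true]
      field_simp
  have hph : ∀ b, ∃ k : ℤ, N.ph b y' = N.ph b y + k * (2 * Real.pi) := by
    intro b
    cases b
    · refine ⟨n, ?_⟩
      simp only [ph, hy', PiLp.add_apply, pt_two, Bool.false_eq_true, if_false]
      field_simp
    · refine ⟨m - n, ?_⟩
      simp only [ph, hy', PiLp.add_apply, pt_one, pt_two, if_true]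
      push_cast
      field_simp
      ring
  unfold FN
  refine Prod.ext h0 (funext fun b => ?_)
  obtain ⟨k, hk⟩ := hth b
  obtain ⟨k', hk'⟩ := hph b
  simp only [pol, rad, pt_zero, pt_one, h0, hk, hk', cis_add_int, Real.cos_add_int_mul_two_pi,
    Real.sin_add_int_mul_two_pi]

theorem FN_eq {a b : E 3} (ha : a ∈ N.ΩN) (h : N.FN a = N.FN b) :
    ∃ m n : ℤ, b = a + pt 0 (m * (2 * Real.pi * N.aW)) (n * (2 * Real.pi * N.aV)) := by
  have hV := N.haV.ne'
  have hW := N.haW.ne'
  have h0 : a 0 = b 0 := congrArg Prod.fst h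
  have hw : ((N.T - |a 0| : ℝ) : ℂ) ≠ 0 := by
    have : |a 0| < N.T := ha
    exact Complex.ofReal_ne_zero.2 (sub_pos.2 this).ne'
  have hc : ∀ c, cis (N.th c b) = cis (N.th c a) := by
    intro c
    have := congrArg (fun z : Zt => (z.2 c).1) h
    simp only [FN, ← h0] at this
    exact (mul_left_cancel₀ hw this).symm
  obtain ⟨m, hm⟩ := cis_eq_iff.1 (hc false)
  obtain ⟨n, hn⟩ := cis_eq_iff.1 (hc true)
  simp only [th, Bool.false_eq_true, if_false, if_true] at hm hn
  refine ⟨m, n, ext3 (by simp [h0]) ?_ ?_⟩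
  · simp only [PiLp.add_apply, pt_one]
    field_simp at hm
    linarith
  · simp only [PiLp.add_apply, pt_two]
    field_simp at hn
    linarith

/-- fibre translations of a flat piece. -/
theorem FS_add_fibre (b : Bool) (z : E 3) (n : ℤ) :
    N.FS b (z + pt 0 0 (n * (2 * Real.pi * N.aF b))) = N.FS b z := by
  have hF := (N.aF_pos b).ne'
  set z' := z + pt 0 0 (n * (2 * Real.pi * N.aF b)) with hz'
  have h0 : z' 0 = z 0 := by simp [hz']
  have h1 : z' 1 = z 1 := by simp [hz']
  have hc : zc z' = zc z := by simp only [zc, h0, h1]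
  have h2 : cis (-(z' 2) / N.aF b) = cis (-(z 2) / N.aF b) := by
    refine cis_eq_iff.2 ⟨-n, ?_⟩
    simp only [hz', PiLp.add_apply, pt_two]
    push_cast
    field_simp
    ring
  simp only [FS, om, hc, h0, h1, h2]

/-- horizontal translations of a flat piece, away from the disc. -/
theorem FS_add_far (b : Bool) (z : E 3) (m n : ℤ) (hz : N.Rb b + 1 ≤ ‖zc z‖)
    (hz' : N.Rb b + 1 ≤ ‖zc (z + pt (m * (2 * N.hb b)) (n * (2 * N.hb b)) 0)‖) :
    N.FS b (z + pt (m * (2 * N.hb b)) (n * (2 * N.hb b)) 0) = N.FS b z := by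
  have hh := (N.hb_pos b).ne'
  set z' := z + pt (m * (2 * N.hb b)) (n * (2 * N.hb b)) 0 with hz''
  have o1 : N.om b z = 0 := max_eq_right (by linarith)
  have o2 : N.om b z' = 0 := max_eq_right (by linarith)
  have h2 : z' 2 = z 2 := by simp [hz'']
  have h0 : cis (Real.pi * z' 0 / N.hb b) = cis (Real.pi * z 0 / N.hb b) := by
    refine cis_eq_iff.2 ⟨m, ?_⟩
    simp only [hz'', PiLp.add_apply, pt_zero]
    field_simp
  have h1 : cis (Real.pi * z' 1 / N.hb b) = cis (Real.pi * z 1 / N.hb b) := by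
    refine cis_eq_iff.2 ⟨n, ?_⟩
    simp only [hz'', PiLp.add_apply, pt_one]
    field_simp
  simp only [FS, o1, o2, h0, h1, h2, Complex.ofReal_zero, zero_mul]

theorem FS_eq (b : Bool) {z z' : E 3} (h : N.FS b z = N.FS b z') : ∃ m n k : ℤ,
    z' = z + pt (m * (2 * N.hb b)) (n * (2 * N.hb b)) (k * (2 * Real.pi * N.aF b)) := by
  have hh := (N.hb_pos b).ne'
  have hF := (N.aF_pos b).ne'
  have hpi := Real.pi_pos.ne'
  have h2 := congrArg (fun z : Zt => (z.2 b).2) h
  simp only [FS, if_true, Prod.mk.injEq] at h2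
  obtain ⟨m, hm⟩ := cis_eq_iff.1 h2.1.symm
  obtain ⟨n, hn⟩ := cis_eq_iff.1 h2.2.1.symm
  obtain ⟨k, hk⟩ := cis_eq_iff.1 h2.2.2
  refine ⟨m, n, k, ext3 ?_ ?_ ?_⟩
  · simp only [PiLp.add_apply, pt_zero]
    field_simp at hm
    linarith
  · simp only [PiLp.add_apply, pt_one]
    field_simp at hn
    linarith
  · simp only [PiLp.add_apply, pt_two]
    field_simp at hk
    linarith

theorem om_lt {b : Bool} {z : E 3} (hz : z ∈ N.ΩS b) : N.om b z < 1 :=
  max_lt (by have := hz.1; linarith) one_pos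

theorem om_nonneg (b : Bool) (z : E 3) : 0 ≤ N.om b z := le_max_right _ _

theorem FS_ne {b b' : Bool} (hb : b ≠ b') {z z' : E 3} (hz : z ∈ N.ΩS b) (hz' : z' ∈ N.ΩS b') :
    N.FS b z ≠ N.FS b' z' := by
  intro h
  have h1 : sg b * (N.T - N.om b z) = sg b' * (N.T - N.om b' z') := congrArg Prod.fst h
  have := N.om_lt hz
  have := N.om_lt hz'
  have := N.hT
  cases b <;> cases b' <;> simp [sg] at hb h1 <;> linarith

theorem FN_eq_FS (b : Bool) {y z : E 3} (hy : y ∈ N.ΩN) (hz : z ∈ N.ΩS b)
    (h : N.FN y = N.FS b z) : N.T - 1 < sg b * y 0 ∧ sg b * y 0 < N.T ∧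
      ∃ n : ℤ, z = N.pol b y + pt 0 0 (n * (2 * Real.pi * N.aF b)) := by
  have hT := N.hT
  have hF := (N.aF_pos b).ne'
  have h0 : y 0 = sg b * (N.T - N.om b z) := congrArg Prod.fst h
  have h1 : sg b * y 0 = N.T - N.om b z := by rw [h0, ← mul_assoc, sg_mul_sg, one_mul]
  have ho := N.om_lt hz
  have hlt : sg b * y 0 < N.T := by
    have : |y 0| < N.T := hy
    rw [← abs_sg_mul b] at this
    exact (le_abs_self _).trans_lt this
  have hgt : N.T - 1 < sg b * y 0 := by linarith
  refine ⟨hgt, hlt, ?_⟩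
  have hop : 0 < N.om b z := by linarith
  have hom : N.om b z = N.Rb b + 1 - ‖zc z‖ := by
    unfold om at hop ⊢
    rcases le_total (N.Rb b + 1 - ‖zc z‖) 0 with h' | h'
    · rw [max_eq_right h'] at hop
      exact absurd hop (lt_irrefl _)
    · exact max_eq_left h'
  have hrad : N.rad b y = ‖zc z‖ := by unfold rad; linarith
  have habs : |y 0| = sg b * y 0 := by
    rw [← abs_sg_mul b, abs_of_pos (by linarith)]
  have h2 := congrArg (fun z : Zt => z.2 b) h
  simp only [FN, FS, if_true, Prod.mk.injEq, lam_one (show 1 ≤ sg b * y 0 by linarith),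
    Complex.ofReal_one, one_mul] at h2
  have hw : N.T - |y 0| = N.om b z := by rw [habs]; linarith
  rw [hw] at h2
  have hc : cis (N.th b y) = zc z / ‖zc z‖ :=
    mul_left_cancel₀ (by exact_mod_cast hop.ne') h2.1
  have hzc : zc (N.pol b y) = zc z := by
    rw [zc_pol, hc, hrad]
    have : ((‖zc z‖ : ℝ) : ℂ) ≠ 0 := by exact_mod_cast ((N.Rb_pos b).trans hz.1).ne'
    field_simp
  obtain ⟨n, hn⟩ := cis_eq_iff.1 h2.2.2.2
  refine ⟨n, ext3 ?_ ?_ ?_⟩
  · have := congrArg Complex.re hzc
    simpa [zc] using this.symm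
  · have := congrArg Complex.im hzc
    simpa [zc] using this.symm
  · simp only [PiLp.add_apply, pol, pt_two, hn]
    field_simp
    ring

end NeckG

end

end Crest.Agent.R244
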