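import Crest.Agent.R244.NeckU
import Crest.Agent.R244.Flow
import Crest.Agent.R244.ModelDefs

/-! Row 244: the glued manifold has no conjugate points. -/

set_option autoImplicit false

open Set Filter
open scoped ContDiff Topology

namespace Crest.Agent.R244

open Crest.GeometryTopology.CoordMetric Crest.GeometryTopology.ChartCurvature
  Crest.GeometryTopology.Geodesic

/-- a monotone quantity rules out conjugate points. -/
theorem RAtlas.ncp_of_mono {n : ℕ} {M : Type} [TopologicalSpace M] (A : RAtlas n M)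
    (h : ∀ γ ξ, A.Geo γ → A.Jac γ ξ → ∃ Φ : ℝ → ℝ, Continuous Φ ∧ (∀ s, A.Van γ ξ s → Φ s = 0) ∧
      ∀ s, ∃ φ', HasDerivWithinAt Φ φ' (Ici s) s ∧ 0 ≤ φ' ∧
        (A.Van γ ξ s → φ' = 0 → ∃ i, γ s ∈ (A.chart i).source ∧ deriv (ξ i) s = 0)) :
    A.NCP := by
  have main : ∀ γ ξ, A.Geo γ → A.Jac γ ξ → ∀ a b : ℝ, a < b → A.Van γ ξ a → A.Van γ ξ b →
      ∀ s, A.Van γ ξ s := by
    intro γ ξ hγ hξ a b hab ha hb s
    obtain ⟨Φ, hΦ, h0, hd⟩ := h γ ξ hγ hξ
    choose φ' hφ' hnn hstr using hd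
    have mono : ∀ x y, x ≤ y → Φ x ≤ Φ y := by
      intro x y hxy
      exact image_le_of_deriv_right_le_deriv_boundary (f := fun _ => Φ x) (f' := fun _ => 0)
        (a := x) (b := y) continuousOn_const (fun z _ => hasDerivWithinAt_const _ _ _)
        (B := Φ) (B' := φ') le_rfl hΦ.continuousOn (fun z _ => hφ' z) (fun z _ => hnn z)
        ⟨hxy, le_rfl⟩
    have hz : Φ =ᶠ[𝓝[Ici a] a] fun _ => 0 := by
      filter_upwards [Ico_mem_nhdsGE hab] with x hx
      have h1 := mono a x hx.1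
      have h2 := mono x b hx.2.le
      rw [h0 a ha] at h1
      rw [h0 b hb] at h2
      exact le_antisymm h2 h1
    have hda : HasDerivWithinAt Φ 0 (Ici a) a :=
      (hasDerivWithinAt_const a (Ici a) (0 : ℝ)).congr_of_eventuallyEq hz (h0 a ha)
    have he : φ' a = 0 := (uniqueDiffWithinAt_Ici a).eq_deriv _ (hφ' a) hda
    obtain ⟨i, hi, hdi⟩ := hstr a ha he
    exact hξ.unique hγ hi (ha i hi) hdi s
  intro γ ξ hγ hξ a b hab ha hb
  rcases lt_or_gt_of_ne hab with h' | h'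
  · exact main γ ξ hγ hξ a b h' ha hb
  · exact main γ ξ hγ hξ b a h' hb ha

theorem Model.ncp {M : Type} [TopologicalSpace M] {N : NeckG} {A : RAtlas 3 M} {PN : E 3 → M}
    {isN : A.ι → Prop} (hM : Model N A PN isN) : A.NCP := by
  classical
  obtain ⟨U, hU2, hU0, hU⟩ := N.toNeck.exists_U
  refine A.ncp_of_mono fun γ ξ hγ hξ => ?_
  choose ix hix using A.cover
  let Φ₀ : ℝ → ℝ := fun s => bil (A.G (ix (γ s)) (A.chart (ix (γ s)) (γ s)))
    (cov (A.G (ix (γ s))) (A.crd (ix (γ s)) γ) (ξ (ix (γ s))) s) (ξ (ix (γ s)) s)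
  let W : ℝ → ℝ := fun s => if h : ∃ i, isN i ∧ γ s ∈ (A.chart i).source then
    U (A.chart h.choose (γ s) 0) (deriv (A.crd h.choose γ) s) (ξ h.choose s) else 0
  have hΦ₀ : ∀ i s, γ s ∈ (A.chart i).source → Φ₀ s =
      bil (A.G i (A.chart i (γ s))) (cov (A.G i) (A.crd i γ) (ξ i) s) (ξ i s) :=
    fun i s hi => hξ.pair_indep hγ (hix _) hi
  have hW : ∀ i s, isN i → γ s ∈ (A.chart i).source →
      W s = U (A.chart i (γ s) 0) (deriv (A.crd i γ) s) (ξ i s) := by
    intro i s hi hs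
    have h : ∃ i, isN i ∧ γ s ∈ (A.chart i).source := ⟨i, hi, hs⟩
    simp only [W, dif_pos h]
    obtain ⟨hj, hjs⟩ := h.choose_spec
    generalize h.choose = j at hj hjs ⊢
    obtain ⟨l, hl0, hl⟩ := hM.neck_tr i j (γ s) hi hj hs hjs
    have hd : fderiv ℝ (A.tr i j) (A.chart i (γ s)) = ContinuousLinearMap.id ℝ (E 3) := by
      rw [hl.fderiv_eq]
      exact ((hasFDerivAt_id _).add_const l).fderiv
    have e1 : A.chart j (γ s) 0 = A.chart i (γ s) 0 := by
      rw [← A.tr_apply j hs, hl.eq_of_nhds]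
      simp [hl0]
    rw [e1, RAtlas.GeoOn.vel_compat hγ isOpen_univ (mem_univ s) hs hjs, hξ.compat i j s hs hjs, hd]
    rfl
  have hsrc : ∀ i s, γ s ∈ (A.chart i).source → ∀ᶠ s' in 𝓝 s, γ s' ∈ (A.chart i).source :=
    fun i s hs => hγ.continuous.continuousAt.eventually ((A.chart i).open_source.mem_nhds hs)
  have key : ∀ s, ContinuousAt (fun s => Φ₀ s - W s) s ∧
      ∃ φ', HasDerivWithinAt (fun s => Φ₀ s - W s) φ' (Ici s) s ∧ 0 ≤ φ' ∧
        (A.Van γ ξ s → φ' = 0 → ∃ i, γ s ∈ (A.chart i).source ∧ deriv (ξ i) s = 0) := by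
    intro s
    by_cases hn : ∃ i, isN i ∧ γ s ∈ (A.chart i).source
    · obtain ⟨i, hi, hs⟩ := hn
      have hG := hM.neckG i hi
      obtain ⟨h1, φ', h2, h3, h4⟩ := hU (A.crd i γ) (ξ i) s
        ((hsrc i s hs).mono fun s' hs' => hG ▸ hγ.2 s' (mem_univ _) i hs')
        ((hsrc i s hs).mono fun s' hs' => hG ▸ hξ.eqn i s' hs')
      have he : (fun s => Φ₀ s - W s) =ᶠ[𝓝 s] fun s =>
          bil (N.gN (A.crd i γ s)) (cov N.gN (A.crd i γ) (ξ i) s) (ξ i s) -
            U (A.crd i γ s 0) (deriv (A.crd i γ) s) (ξ i s) := by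
        filter_upwards [hsrc i s hs] with s' hs'
        rw [hΦ₀ i s' hs', hW i s' hi hs', hG]
        rfl
      exact ⟨h1.congr he.symm, φ',
        h2.congr_of_eventuallyEq (he.filter_mono nhdsWithin_le_nhds) he.eq_of_nhds, h3,
        fun hv h0 => ⟨i, hs, h4 (hv i hs) h0⟩⟩
    · have hcore := (hM.core (γ s)).resolve_left hn
      have hs := hix (γ s)
      generalize ix (γ s) = i at hs
      have hG := hM.flatG i fun hi => hn ⟨i, hi, hs⟩
      have he : (fun s => Φ₀ s - W s) =ᶠ[𝓝 s] fun s => inner ℝ (deriv (ξ i) s) (ξ i s) := by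
        filter_upwards [hsrc i s hs, hγ.continuous.continuousAt.eventually hcore] with s' hs' hc
        have hW0 : W s' = 0 := by
          by_cases h : ∃ i, isN i ∧ γ s' ∈ (A.chart i).source
          · obtain ⟨j, hj, hjs⟩ := h
            rw [hW j s' hj hjs]
            exact hU2 _ _ _ (hc j hj hjs)
          · simp only [W, dif_neg h]
        rw [hΦ₀ i s' hs', hW0, hG, sub_zero, bil_one]
        simp [cov, Gam_const]
      have hj := hξ.eqn i s hs
      have hsp : spray (A.G i) = fun z : E 3 × E 3 => (z.2, (0 : E 3)) := by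
        funext z
        simp [spray, hG, Gam_const]
      have hfd : fderiv ℝ (spray (A.G i)) (jet (A.crd i γ) s) (jet (ξ i) s) =
          (deriv (ξ i) s, 0) := by
        rw [hsp, (hasFDerivAt_snd.prodMk (hasFDerivAt_const (0 : E 3) _)).fderiv]
        rfl
      rw [hfd] at hj
      have hd := (jet_snd hj).inner ℝ (jet_fst hj).1
      simp only [inner_zero_left, add_zero] at hd
      have hd' := hd.congr_of_eventuallyEq he
      exact ⟨hd'.continuousAt, _, hd'.hasDerivWithinAt, real_inner_self_nonneg,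
        fun _ h0 => ⟨i, hs, inner_self_eq_zero.1 h0⟩⟩
  refine ⟨fun s => Φ₀ s - W s, continuous_iff_continuousAt.2 fun s => (key s).1, fun s hv => ?_,
    fun s => (key s).2⟩
  have h1 : Φ₀ s = 0 := by
    simp only [Φ₀, hv _ (hix _), bil_zero_right]
  have h2 : W s = 0 := by
    by_cases h : ∃ i, isN i ∧ γ s ∈ (A.chart i).source
    · obtain ⟨j, hj, hjs⟩ := h
      rw [hW j s hj hjs, hv j hjs, hU0]
    · simp only [W, dif_neg h]
  simp only [h1, h2, sub_zero]

/-- the fibre of the right piece is a geodesic. -/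
theorem Model.geo_fibre {M : Type} [TopologicalSpace M] {N : NeckG} {A : RAtlas 3 M}
    {PN : E 3 → M} {isN : A.ι → Prop} (hM : Model N A PN isN) :
    A.Geo (fun s => PN (pt 2 s 0)) ∧ ∃ i, PN (pt 2 0 0) ∈ (A.chart i).source ∧
      deriv (A.crd i (fun s => PN (pt 2 s 0))) 0 = pt 0 1 0 := by
  have hT := N.hT
  have hmem : ∀ s : ℝ, |pt 2 s 0 0| < N.T := fun s => by
    simp only [pt_zero, abs_two]
    linarith
  have hc : Continuous (fun s : ℝ => pt 2 s 0) := by fun_prop
  have hγ : Continuous (fun s : ℝ => PN (pt 2 s 0)) := hM.contN.comp_continuous hc hmem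
  have hd : ∀ s : ℝ, HasDerivAt (fun s : ℝ => pt 2 s 0) (pt 0 1 0) s := by
    intro s
    have e : (fun s : ℝ => pt 2 s 0) = fun s : ℝ => pt 2 0 0 + s • pt 0 1 0 :=
      funext fun s => ext3 (by simp) (by simp) (by simp)
    rw [e]
    simpa using ((hasDerivAt_id s).smul_const (pt 0 1 0)).const_add (pt 2 0 0)
  have hloc : ∀ s : ℝ, ∃ i, isN i ∧ PN (pt 2 s 0) ∈ (A.chart i).source ∧
      A.crd i (fun s => PN (pt 2 s 0)) =ᶠ[𝓝 s] fun s => pt 2 s 0 := by
    intro s
    obtain ⟨i, hi, ht, hsymm⟩ := hM.neck_cover _ (hmem s)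
    refine ⟨i, hi, hsymm _ ht ▸ (A.chart i).map_target ht, ?_⟩
    filter_upwards [hc.continuousAt.eventually ((A.chart i).open_target.mem_nhds ht)] with s' hs'
    simp only [RAtlas.crd]
    rw [← hsymm _ hs', (A.chart i).right_inv hs']
  refine ⟨A.geoOn_of_pointwise isOpen_univ hγ.continuousOn fun s _ => ?_, ?_⟩
  · obtain ⟨i, hi, hs, he⟩ := hloc s
    have hj : jet (A.crd i fun s => PN (pt 2 s 0)) =ᶠ[𝓝 s] fun s => (pt 2 s 0, pt 0 1 0) := by
      filter_upwards [he.eventually_nhds] with s' hs'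
      simp only [jet]
      rw [EventuallyEq.eq_of_nhds hs', EventuallyEq.deriv_eq hs', (hd s').deriv]
    refine ⟨i, hs, ?_, ?_⟩
    · filter_upwards [he.eventually_nhds] with s' hs'
      exact (hd s').differentiableAt.congr_of_eventuallyEq hs'
    · rw [hj.eq_of_nhds, hM.neckG i hi]
      refine HasDerivAt.congr_of_eventuallyEq ?_ hj
      have h0 : Gam N.gN (pt 2 s 0) (pt 0 1 0) (pt 0 1 0) = 0 := by
        rw [Neck.Gam_gN]
        have := N.dA_zero 2 (by norm_num)
        exact ext3 (by simp [this]) (by simp) (by simp)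
      simp only [spray, h0, neg_zero]
      exact (hd s).prodMk (hasDerivAt_const _ _)
  · obtain ⟨i, -, hs, he⟩ := hloc 0
    exact ⟨i, hs, by rw [he.deriv_eq, (hd 0).deriv]⟩

end Crest.Agent.R244
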