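import Crest.Agent.R244.DeckTop

/-! Row 244: relations among deck transformations. -/

set_option autoImplicit false

open Set Filter
open scoped ContDiff Topology

namespace Crest.Agent.R244

open Crest.GeometryTopology.CoordMetric Crest.GeometryTopology.ChartCurvature
  Crest.GeometryTopology.Geodesic

section
variable {X M : Type} [TopologicalSpace X] [TopologicalSpace M] {p : X → M}

theorem sideRel_deck {A : Type} [TopologicalSpace A] [SimplyConnectedSpace X]
    [LocallyPathConnectedSpace X] (hp : IsCoveringMap p) {g₁ g₂ : A → X} (h₁ : Continuous g₁)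
    (h₂ : Continuous g₂) {s : Set A} (hs : IsPreconnected s) {a₀ : A} (ha : a₀ ∈ s)
    (he : ∀ z ∈ s, p (g₁ z) = p (g₂ z)) : ∃ b ∈ Deck p, ∀ z ∈ s, b (g₁ z) = g₂ z := by
  obtain ⟨b, hb, hb0⟩ := deck_exists hp (he a₀ ha)
  refine ⟨b, hb, ?_⟩
  exact hp.eqOn_of_comp_eqOn (g₁ := fun z => b (g₁ z)) hs
    (b.continuous.comp h₁).continuousOn h₂.continuousOn
    (fun z hz => by simp only [Function.comp, mem_deck.1 hb, he z hz]) ha hb0

theorem sideRel_abs_sin_le {t : ℝ} (ht : t ∈ Icc (-(Real.pi / 4)) (Real.pi / 4)) :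
    |Real.sin t| ≤ Real.cos t := by
  have hpi := Real.pi_pos
  have h1 : 0 ≤ Real.cos t := Real.cos_nonneg_of_mem_Icc ⟨by linarith [ht.1], by linarith [ht.2]⟩
  have h2 : 0 ≤ Real.cos (2 * t) :=
    Real.cos_nonneg_of_mem_Icc ⟨by linarith [ht.1], by linarith [ht.2]⟩
  rw [Real.cos_two_mul'] at h2
  exact abs_le.2 (abs_le_of_sq_le_sq' (by linarith) h1)

/-- the sup norm of the unit vector of angle `θ` -/
noncomputable def sideRelM (θ : ℝ) : ℝ := max |Real.cos θ| |Real.sin θ|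

theorem sideRelM_pos (θ : ℝ) : 0 < sideRelM θ := by
  unfold sideRelM
  by_contra h
  rw [not_lt, max_le_iff, abs_nonpos_iff, abs_nonpos_iff] at h
  have := Real.cos_sq_add_sin_sq θ
  rw [h.1, h.2] at this
  norm_num at this

theorem sideRelM_le (θ : ℝ) : sideRelM θ ≤ 1 :=
  max_le (Real.abs_cos_le_one θ) (Real.abs_sin_le_one θ)

theorem sideRelM_cont : Continuous sideRelM := by
  unfold sideRelM
  fun_prop

theorem sideRel_mem {R h r θ : ℝ} (hR : 0 < R) (h1 : R ≤ r) (h2 : r ≤ h / sideRelM θ) :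
    R ^ 2 ≤ (r * Real.cos θ) ^ 2 + (r * Real.sin θ) ^ 2 ∧ |r * Real.cos θ| ≤ h ∧
      |r * Real.sin θ| ≤ h := by
  have hm := sideRelM_pos θ
  rw [le_div_iff₀ hm] at h2
  have hr : 0 ≤ r := by linarith
  refine ⟨?_, ?_, ?_⟩
  · have : (r * Real.cos θ) ^ 2 + (r * Real.sin θ) ^ 2 = r ^ 2 := by
      rw [mul_pow, mul_pow, ← mul_add, Real.cos_sq_add_sin_sq, mul_one]
    rw [this]
    exact pow_le_pow_left₀ hR.le h1 2
  · rw [abs_mul, abs_of_nonneg hr]
    exact (mul_le_mul_of_nonneg_left (le_max_left _ _) hr).trans h2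
  · rw [abs_mul, abs_of_nonneg hr]
    exact (mul_le_mul_of_nonneg_left (le_max_right _ _) hr).trans h2

/-- the boundary class of a punctured torus is a commutator of elements commuting with the fibre. -/
theorem side_relation [SimplyConnectedSpace X] [LocallyPathConnectedSpace X] (hp : IsCoveringMap p)
    {P : ℝ × ℝ × ℝ → M} {R h : ℝ} (hP : Side P R h) {L : ℝ × ℝ → X} (hL : Continuous L)
    (hpL : ∀ θ φ, p (L (θ, φ)) = P (R * Real.cos θ, R * Real.sin θ, φ)) {c f : X ≃ₜ X}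
    (hc : c ∈ Deck p) (hf : f ∈ Deck p) (hcL : ∀ θ φ, c (L (θ, φ)) = L (θ + 2 * Real.pi, φ))
    (hfL : ∀ θ φ, f (L (θ, φ)) = L (θ, φ + 2 * Real.pi)) :
    ∃ a ∈ Deck p, ∃ b ∈ Deck p, Commute a f ∧ Commute b f ∧ b * a * c = a * b := by
  have hpi := Real.pi_pos
  have hR := hP.pos
  have hRh := hP.le
  set r : unitInterval × ℝ × ℝ → ℝ :=
    fun z => (1 - (z.1 : ℝ)) * R + (z.1 : ℝ) * (h / sideRelM z.2.1) with hr
  have hrc : Continuous r := by
    have h1 : Continuous fun z : unitInterval × ℝ × ℝ => h / sideRelM z.2.1 :=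
      continuous_const.div (sideRelM_cont.comp (by fun_prop)) fun z => (sideRelM_pos _).ne'
    have h2 : Continuous fun z : unitInterval × ℝ × ℝ => (z.1 : ℝ) := by fun_prop
    exact ((continuous_const.sub h2).mul continuous_const).add (h2.mul h1)
  have hmem : ∀ z : unitInterval × ℝ × ℝ,
      R ^ 2 ≤ (r z * Real.cos z.2.1) ^ 2 + (r z * Real.sin z.2.1) ^ 2 ∧
        |r z * Real.cos z.2.1| ≤ h ∧ |r z * Real.sin z.2.1| ≤ h := by
    intro z
    have h0 : R ≤ h / sideRelM z.2.1 := by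
      rw [le_div_iff₀ (sideRelM_pos _)]
      have := mul_le_mul_of_nonneg_left (sideRelM_le z.2.1) hR.le
      linarith
    have h1 := z.1.2.1
    have h2 := z.1.2.2
    refine sideRel_mem hR ?_ ?_
    · simp only [hr]; nlinarith
    · simp only [hr]; nlinarith
  let H : C(unitInterval × ℝ × ℝ, M) :=
    ⟨fun z => P (r z * Real.cos z.2.1, r z * Real.sin z.2.1, z.2.2),
      hP.cont.comp_continuous (by fun_prop) hmem⟩
  have H0 : ∀ a, H (0, a) = p ((⟨L, hL⟩ : C(ℝ × ℝ, X)) a) := by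
    rintro ⟨θ, φ⟩
    simp [H, hr, hpL]
  set Q := hp.liftHomotopy H ⟨L, hL⟩ H0 with hQ
  have hQp : ∀ z, p (Q z) = P (r z * Real.cos z.2.1, r z * Real.sin z.2.1, z.2.2) := fun z =>
    congrFun (hp.liftHomotopy_lifts H ⟨L, hL⟩ H0) z
  have hQ0 : ∀ a, Q (0, a) = L a := hp.liftHomotopy_zero H ⟨L, hL⟩ H0
  have hcQ : ∀ z : unitInterval × ℝ × ℝ, c (Q z) = Q (z.1, z.2.1 + 2 * Real.pi, z.2.2) := by
    have := hp.eq_of_comp_eq (g₁ := fun z : unitInterval × ℝ × ℝ => c (Q z))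
      (g₂ := fun z => Q (z.1, z.2.1 + 2 * Real.pi, z.2.2)) (by fun_prop) (by fun_prop) ?_ (0, 0, 0)
      (by simp only [hQ0, hcL])
    · exact congrFun this
    · funext z
      simp only [Function.comp, mem_deck.1 hc, hQp, hr, sideRelM, Real.cos_add_two_pi,
        Real.sin_add_two_pi]
  have hfQ : ∀ z : unitInterval × ℝ × ℝ, f (Q z) = Q (z.1, z.2.1, z.2.2 + 2 * Real.pi) := by
    have := hp.eq_of_comp_eq (g₁ := fun z : unitInterval × ℝ × ℝ => f (Q z))
      (g₂ := fun z => Q (z.1, z.2.1, z.2.2 + 2 * Real.pi)) (by fun_prop) (by fun_prop) ?_ (0, 0, 0)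
      (by simp only [hQ0, hfL])
    · exact congrFun this
    · funext z
      simp only [Function.comp, mem_deck.1 hf, hQp]
      exact (hP.per3 _ _ _ (hmem z).1 (hmem z).2.1 (hmem z).2.2).symm
  set B : ℝ → ℝ → X := fun θ φ => Q (1, θ, φ) with hB
  have hBp : ∀ θ φ, p (B θ φ) = P (h / sideRelM θ * Real.cos θ, h / sideRelM θ * Real.sin θ, φ) := by
    intro θ φ
    simp [hB, hQp, hr]
  have hBm : ∀ θ, |h / sideRelM θ * Real.cos θ| ≤ h ∧ |h / sideRelM θ * Real.sin θ| ≤ h := by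
    intro θ
    simpa [hr] using (hmem (1, θ, 0)).2
  have hcB : ∀ θ φ, c (B θ φ) = B (θ + 2 * Real.pi) φ := fun θ φ => hcQ _
  have hfB : ∀ θ φ, f (B θ φ) = B θ (φ + 2 * Real.pi) := fun θ φ => hfQ _
  have hs : IsPreconnected (Icc (-(Real.pi / 4)) (Real.pi / 4) ×ˢ (univ : Set ℝ)) :=
    isPreconnected_Icc.prod isPreconnected_univ
  have h0 : ((0 : ℝ), (0 : ℝ)) ∈ Icc (-(Real.pi / 4)) (Real.pi / 4) ×ˢ (univ : Set ℝ) :=
    ⟨⟨by simp only; linarith, by simp only; linarith⟩, mem_univ _⟩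
  have hcos : ∀ t ∈ Icc (-(Real.pi / 4)) (Real.pi / 4), 0 < Real.cos t := fun t ht =>
    Real.cos_pos_of_mem_Ioo ⟨by linarith [ht.1], by linarith [ht.2]⟩
  obtain ⟨b, hb, hbB⟩ := sideRel_deck hp (g₁ := fun z : ℝ × ℝ => B (z.1 - Real.pi / 2) z.2)
    (g₂ := fun z => B (Real.pi / 2 - z.1) z.2) (by simp only [hB]; fun_prop)
    (by simp only [hB]; fun_prop) hs h0 (by
      rintro ⟨t, φ⟩ ⟨ht, -⟩
      have a1 := sideRel_abs_sin_le ht
      have a2 := hcos t ht
      have m1 : sideRelM (t - Real.pi / 2) = Real.cos t := by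
        rw [sideRelM, Real.cos_sub_pi_div_two, Real.sin_sub_pi_div_two, abs_neg, abs_of_pos a2]
        exact max_eq_right a1
      have m2 : sideRelM (Real.pi / 2 - t) = Real.cos t := by
        rw [sideRelM, Real.cos_pi_div_two_sub, Real.sin_pi_div_two_sub, abs_of_pos a2]
        exact max_eq_right a1
      have a3 := (hBm (Real.pi / 2 - t)).1
      simp only [hBp]
      rw [m2, Real.cos_pi_div_two_sub] at a3
      rw [m1, m2, Real.cos_sub_pi_div_two, Real.sin_sub_pi_div_two, Real.cos_pi_div_two_sub,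
        Real.sin_pi_div_two_sub, mul_neg, div_mul_cancel₀ _ a2.ne']
      exact hP.per2 _ _ a3)
  obtain ⟨a, ha, haB⟩ := sideRel_deck hp (g₁ := fun z : ℝ × ℝ => B (Real.pi - z.1) z.2)
    (g₂ := fun z => B z.1 z.2) (by simp only [hB]; fun_prop)
    (by simp only [hB]; fun_prop) hs h0 (by
      rintro ⟨t, φ⟩ ⟨ht, -⟩
      have a1 := sideRel_abs_sin_le ht
      have a2 := hcos t ht
      have m1 : sideRelM (Real.pi - t) = Real.cos t := by
        rw [sideRelM, Real.cos_pi_sub, Real.sin_pi_sub, abs_neg, abs_of_pos a2]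
        exact max_eq_left a1
      have m2 : sideRelM t = Real.cos t := by
        rw [sideRelM, abs_of_pos a2]
        exact max_eq_left a1
      have a3 := (hBm t).2
      simp only [hBp]
      rw [m2] at a3
      rw [m1, m2, Real.cos_pi_sub, Real.sin_pi_sub, mul_neg, div_mul_cancel₀ _ a2.ne']
      exact hP.per1 _ _ a3)
  have hl : -(Real.pi / 4) ∈ Icc (-(Real.pi / 4)) (Real.pi / 4) := ⟨le_rfl, by linarith⟩
  have hu : Real.pi / 4 ∈ Icc (-(Real.pi / 4)) (Real.pi / 4) := ⟨by linarith, le_rfl⟩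
  have b0 : ∀ φ, b (B (-(3 * Real.pi / 4)) φ) = B (3 * Real.pi / 4) φ := fun φ => by
    have := hbB (-(Real.pi / 4), φ) ⟨hl, mem_univ _⟩
    simp only at this
    convert this using 3 <;> ring
  have b1 : ∀ φ, b (B (-(Real.pi / 4)) φ) = B (Real.pi / 4) φ := fun φ => by
    have := hbB (Real.pi / 4, φ) ⟨hu, mem_univ _⟩
    simp only at this
    convert this using 3 <;> ring
  have a3 : ∀ φ, a (B (3 * Real.pi / 4) φ) = B (Real.pi / 4) φ := fun φ => by
    have := haB (Real.pi / 4, φ) ⟨hu, mem_univ _⟩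
    simp only at this
    convert this using 3
    ring
  have a4 : ∀ φ, a (B (-(3 * Real.pi / 4) + 2 * Real.pi) φ) = B (-(Real.pi / 4)) φ := fun φ => by
    have := haB (-(Real.pi / 4), φ) ⟨hl, mem_univ _⟩
    simp only at this
    convert this using 3
    ring
  refine ⟨a, ha, b, hb, ?_, ?_, ?_⟩
  · refine deck_eq hp (mul_mem ha hf) (mul_mem hf ha) (x := B (3 * Real.pi / 4) 0) ?_
    simp only [Homeomorph.mul_apply, hfB, a3]
  · refine deck_eq hp (mul_mem hb hf) (mul_mem hf hb) (x := B (-(Real.pi / 4)) 0) ?_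
    simp only [Homeomorph.mul_apply, hfB, b1]
  · refine deck_eq hp (mul_mem (mul_mem hb ha) hc) (mul_mem ha hb)
      (x := B (-(3 * Real.pi / 4)) 0) ?_
    simp only [Homeomorph.mul_apply, hcB, a4, b1, b0, a3]

end

/-- the relations of the graph manifold group among deck transformations. -/
theorem Model.relations {X M : Type} [TopologicalSpace X] [TopologicalSpace M] {p : X → M}
    [SimplyConnectedSpace X] [LocallyPathConnectedSpace X] [PreconnectedSpace M]
    (hp : IsCoveringMap p) {N : NeckG} {A : RAtlas 3 M} {PN : E 3 → M} {isN : A.ι → Prop}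
    (hM : Model N A PN isN) :
    ∃ (f c a b a' b' : Deck p) (L : ℝ → X), Continuous L ∧ (∀ s, p (L s) = PN (pt 2 s 0)) ∧
      (∀ s, (c : X ≃ₜ X) (L s) = L (s + 2 * Real.pi * N.aW)) ∧
      Commute f c ∧ Commute a f ∧ Commute b f ∧ b * a * c = a * b ∧
      Commute a' c ∧ Commute b' c ∧ b' * a' * (c * f) = a' * b' := by
  have hT := N.hT
  set cl : ℝ → ℝ := fun t => max (-N.T + 1 / 2) (min (N.T - 1 / 2) t) with hcl
  have hclT : ∀ t, |cl t| < N.T := by
    intro t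
    have h1 : -N.T + 1 / 2 ≤ cl t := le_max_left _ _
    have h2 : cl t ≤ N.T - 1 / 2 := max_le (by linarith) (min_le_left _ _)
    rw [abs_lt]; constructor <;> linarith
  have hcl_id : ∀ t, -N.T + 1 / 2 ≤ t → t ≤ N.T - 1 / 2 → cl t = t := by
    intro t h1 h2
    simp only [hcl]
    rw [min_eq_right h2, max_eq_right h1]
  have hptc : Continuous fun z : ℝ × ℝ × ℝ => pt (cl z.1) z.2.1 z.2.2 := by
    unfold pt
    refine (PiLp.continuous_toLp 2 _).comp (continuous_pi fun i => ?_)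
    fin_cases i <;> simp [hcl] <;> fun_prop
  let Φ : C(ℝ × ℝ × ℝ, M) := ⟨fun z => PN (pt (cl z.1) z.2.1 z.2.2),
    hM.contN.comp_continuous hptc fun z => by simpa [pt] using hclT z.1⟩
  obtain ⟨e₀, he₀⟩ := covering_surjective hp (Φ 0)
  obtain ⟨Lt, ⟨-, hLt⟩, -⟩ := hp.existsUnique_continuousMap_lifts Φ 0 e₀ he₀
  have hLp : ∀ z, p (Lt z) = PN (pt (cl z.1) z.2.1 z.2.2) := fun z => congrFun hLt z
  obtain ⟨c, hc, hcL⟩ := sideRel_deck hp (g₁ := Lt)
    (g₂ := fun z => Lt (z.1, z.2.1 + 2 * Real.pi * N.aW, z.2.2)) Lt.continuous (by fun_prop)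
    isPreconnected_univ (mem_univ 0) (fun z _ => by simp only [hLp, hM.perX _ _ _ (hclT _)])
  obtain ⟨f, hf, hfL⟩ := sideRel_deck hp (g₁ := Lt)
    (g₂ := fun z => Lt (z.1, z.2.1, z.2.2 + 2 * Real.pi * N.aV)) Lt.continuous (by fun_prop)
    isPreconnected_univ (mem_univ 0) (fun z _ => by simp only [hLp, hM.perY _ _ _ (hclT _)])
  have hc' : ∀ t x y, c (Lt (t, x, y)) = Lt (t, x + 2 * Real.pi * N.aW, y) :=
    fun t x y => hcL _ (mem_univ _)
  have hf' : ∀ t x y, f (Lt (t, x, y)) = Lt (t, x, y + 2 * Real.pi * N.aV) :=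
    fun t x y => hfL _ (mem_univ _)
  have hfc : Commute f c := by
    refine deck_eq hp (mul_mem hf hc) (mul_mem hc hf) (x := Lt (0, 0, 0)) ?_
    simp only [Homeomorph.mul_apply, hc', hf']
  obtain ⟨P, R, h, hP, hPN⟩ := hM.left
  obtain ⟨a, ha, b, hb, h1, h2, h3⟩ := side_relation hp hP
    (L := fun z => Lt (-N.T + 1 / 2, N.aW * z.1, N.aV * z.2)) (by fun_prop)
    (fun θ φ => by rw [hLp, hPN, hcl_id _ le_rfl (by linarith)]) hc hf
    (fun θ φ => by rw [hc']; congr 3; ring) (fun θ φ => by rw [hf']; congr 3; ring)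
  obtain ⟨P', R', h', hP', hPN'⟩ := hM.right
  obtain ⟨a', ha', b', hb', h1', h2', h3'⟩ := side_relation hp hP'
    (L := fun z => Lt (N.T - 1 / 2, N.aW * (z.1 + z.2), N.aV * z.1)) (by fun_prop)
    (fun θ φ => by rw [hLp, hPN', hcl_id _ (by linarith) le_rfl]) (mul_mem hc hf) hc
    (fun θ φ => by rw [Homeomorph.mul_apply, hf', hc']; congr 3 <;> ring)
    (fun θ φ => by rw [hc']; congr 3; ring)
  refine ⟨⟨f, hf⟩, ⟨c, hc⟩, ⟨a, ha⟩, ⟨b, hb⟩, ⟨a', ha'⟩, ⟨b', hb'⟩, fun s => Lt (2, s, 0),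
    by fun_prop, fun s => ?_, fun s => hc' _ _ _, Subtype.ext hfc, Subtype.ext h1, Subtype.ext h2,
    Subtype.ext h3, Subtype.ext h1', Subtype.ext h2', Subtype.ext h3'⟩
  rw [hLp, hcl_id _ (by linarith) (by linarith)]

end Crest.Agent.R244
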