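import Crest.Agent.R244.Cat
import Crest.Agent.R244.Group
import Crest.Agent.R244.SideRel
import Crest.Agent.R244.NCP

/-! Row 244: the glued manifold has no metric of non-positive curvature. -/

set_option autoImplicit false

open Set Filter
open scoped ContDiff Topology

namespace Crest.Agent.R244

theorem pt_smul (s : ℝ) : s • pt 0 1 0 = pt 0 s 0 := by
  ext i
  fin_cases i <;> simp [pt]

theorem Model.not_npc {M : Type} [TopologicalSpace M] [CompactSpace M] [T2Space M]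
    [ConnectedSpace M] {N : NeckG} {A : RAtlas 3 M} {PN : E 3 → M} {isN : A.ι → Prop}
    (hM : Model N A PN isN) (A' : RAtlas 3 M) : ¬ A'.NPC := by
  intro hA'
  obtain ⟨p, d, hcat⟩ := A'.exists_catCover hA'
  obtain ⟨f, c, a, b, a', b', L, hL, hpL, hcL, hfc, ha, hb, hab, ha', hb', hab'⟩ :=
    hM.relations hcat.cov
  let x₀ : E 3 := 0
  let l : Deck p → ℝ := fun g => d x₀ ((g : E 3 ≃ₜ E 3) x₀)
  have hmul : ∀ g h : Deck p, d ((g : E 3 ≃ₜ E 3) x₀) (((g * h : Deck p) : E 3 ≃ₜ E 3) x₀) = l h :=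
    fun g h => hcat.deck g g.2 x₀ ((h : E 3 ≃ₜ E 3) x₀)
  have hinv : ∀ g, l g⁻¹ = l g := by
    intro g
    rw [← hmul g g⁻¹, mul_inv_cancel, hcat.comm]
    rfl
  have hlim := stable_length_zero l (fun g => hcat.nonneg _ _) (hcat.self _) hinv
    (fun g h => by
      rw [← hmul g h]
      exact hcat.triangle _ _ _)
    (fun u v w => by
      have hq := hcat.quad x₀ ((u : E 3 ≃ₜ E 3) x₀) (((u * v : Deck p) : E 3 ≃ₜ E 3) x₀)
        (((u * v * w : Deck p) : E 3 ≃ₜ E 3) x₀)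
      rw [hmul u v, hmul (u * v) w, hcat.comm (((u * v * w : Deck p) : E 3 ≃ₜ E 3) x₀) x₀,
        mul_assoc u v w, hmul u (v * w), ← mul_assoc u v w] at hq
      exact hq)
    hfc ha hb hab ha' hb' hab'
  have hc1 : (c : E 3 ≃ₜ E 3) = 1 := hcat.eq_one c.2 x₀ (by simpa [l] using hlim)
  obtain ⟨hgeo, i, hi, hvel⟩ := hM.geo_fibre
  obtain ⟨q, hq⟩ := A.exists_exp hi
  have hqc : IsCoveringMap q := hq.isCoveringMap (hq.inj_of_ncp hM.ncp)
  have hqγ : ∀ s : ℝ, q (s • pt 0 1 0) = PN (pt 2 s 0) := by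
    intro s
    refine (hq.geo (pt 0 1 0)).unique hgeo isOpen_univ isPreconnected_univ (mem_univ 0) (i := i)
      ?_ ?_ ?_ (mem_univ s)
    · simpa [hq.zero] using hi
    · simp [hq.zero]
    · rw [hq.vel, hvel]
  obtain ⟨lift, ⟨hl0, hl⟩, -⟩ := hqc.existsUnique_continuousMap_lifts
    ⟨p, hcat.cov.continuous⟩ (L 0) (0 : E 3) (by simp [hq.zero, hpL])
  have heq : (fun s => lift (L s)) = fun s : ℝ => s • pt 0 1 0 := by
    refine hqc.eq_of_comp_eq (by fun_prop) (by fun_prop) ?_ 0 (by simp [hl0])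
    funext s
    have := congrFun hl (L s)
    simp only [Function.comp_apply, ContinuousMap.coe_mk] at this ⊢
    rw [this, hpL, hqγ]
  have h1 := congrFun heq 0
  have h2 := congrFun heq (0 + 2 * Real.pi * N.aW)
  rw [← hcL 0, hc1] at h2
  have h3 : (0 + 2 * Real.pi * N.aW) • pt 0 1 0 = (0 : ℝ) • pt 0 1 0 := h2.symm.trans h1
  rw [pt_smul, pt_smul] at h3
  have h4 := congrArg (fun v : E 3 => v 1) h3
  simp only [pt] at h4
  have h5 : 0 < 2 * Real.pi * N.aW := by
    have := N.haW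
    have := Real.pi_pos
    positivity
  simp at h4
  exact N.haW.ne' h4

end Crest.Agent.R244
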