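import Crest.Agent.R244.Defs

/-! Row 244: pasting open subsets of Euclidean space. -/

set_option autoImplicit false

open Set Filter
open scoped ContDiff Topology

namespace Crest.Agent.R244

open Crest.GeometryTopology.CoordMetric Crest.GeometryTopology.ChartCurvature
  Crest.GeometryTopology.Geodesic

theorem paste_chart {X M : Type} [TopologicalSpace X] [TopologicalSpace M] [Nonempty X]
    (f : X → M) {U : Set X} (hU : IsOpen U) (hc : ContinuousOn f U) (hi : InjOn f U)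
    (ho : ∀ V, IsOpen V → V ⊆ U → IsOpen (f '' V)) :
    ∃ e : OpenPartialHomeomorph X M, e.source = U ∧ (e : X → M) = f := by
  refine ⟨OpenPartialHomeomorph.ofContinuousOpenRestrict (hi.toPartialEquiv f U) hc ?_ hU,
    rfl, rfl⟩
  intro V hV
  have := ho (Subtype.val '' V) (hU.isOpenMap_subtype_val V hV) (by
    rintro _ ⟨y, -, rfl⟩
    exact y.2)
  rw [image_image] at this
  exact this

theorem paste_space {n : ℕ} {κ Z : Type} [TopologicalSpace Z] [T2Space Z] [Countable κ]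
    (D : PData n κ Z) (hne : ∃ k, (D.Ω k).Nonempty) :
    ∃ (M : Type) (_ : TopologicalSpace M) (P : κ → E n → M),
      T2Space M ∧ SecondCountableTopology M ∧ (∀ x, ∃ k, ∃ a ∈ D.Ω k, P k a = x) ∧
      (∀ k l, ∀ a ∈ D.Ω k, ∀ b ∈ D.Ω l, P k a = P l b ↔ D.F k a = D.F l b) ∧
      (∀ k, ContinuousOn (P k) (D.Ω k)) ∧
      ∀ k V, IsOpen V → V ⊆ D.Ω k → IsOpen (P k '' V) := by
  classical
  obtain ⟨k₀, a₀, ha₀⟩ := hne
  let f : (Σ k, D.Ω k) → Z := fun x => D.F x.1 x.2
  let S : Setoid (Σ k, D.Ω k) := Setoid.ker f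
  let P : κ → E n → Quotient S := fun k y =>
    if h : y ∈ D.Ω k then Quotient.mk S ⟨k, ⟨y, h⟩⟩ else Quotient.mk S ⟨k₀, ⟨a₀, ha₀⟩⟩
  have hP : ∀ k (y : D.Ω k), P k y = Quotient.mk S ⟨k, y⟩ := fun k y => dif_pos y.2
  have heq : ∀ k l, ∀ a ∈ D.Ω k, ∀ b ∈ D.Ω l, P k a = P l b ↔ D.F k a = D.F l b := by
    intro k l a ha b hb
    rw [hP k ⟨a, ha⟩, hP l ⟨b, hb⟩, Quotient.eq]
    rfl
  have hopen : ∀ k V, IsOpen V → V ⊆ D.Ω k → IsOpen (P k '' V) := by
    intro k V hV hVk
    rw [← isQuotientMap_quotient_mk'.isOpen_preimage, isOpen_sigma_iff]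
    intro l
    rw [isOpen_iff_mem_nhds]
    rintro b ⟨a, ha, hab⟩
    have h1 : D.F l b = D.F k a := ((heq k l a (hVk ha) b b.2).1 (hab.trans (hP l b).symm)).symm
    obtain ⟨ψ, h2, h3, h4, -⟩ := D.trans l k b b.2 a (hVk ha) h1
    have h5 : ∀ᶠ y in 𝓝 (b : E n), ψ y ∈ V :=
      h2.continuousAt.preimage_mem_nhds (hV.mem_nhds (h3.symm ▸ ha))
    have h6 := continuous_subtype_val.continuousAt.eventually (h4.and h5)
    filter_upwards [h6] with y hy
    exact ⟨ψ y, hy.2, ((heq k l _ (hVk hy.2) y y.2).2 hy.1).trans (hP l y)⟩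
  refine ⟨Quotient S, inferInstance, P, ?_, ?_, ?_, heq, fun k => ?_, hopen⟩
  · have hf : Continuous f := continuous_sigma fun k => (D.cont k).domRestrict
    refine T2Space.of_injective_continuous (f := Quotient.lift (s := S) f fun _ _ h => h) ?_
      (hf.quotient_lift _)
    intro x y
    induction x using Quotient.inductionOn
    induction y using Quotient.inductionOn
    exact fun h => Quotient.sound h
  · refine TopologicalSpace.Quotient.secondCountableTopology (isOpenMap_sigma.2 fun k V hV => ?_)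
    have := hopen k (Subtype.val '' V) ((D.riem k).isOpen.isOpenMap_subtype_val V hV) (by
      rintro _ ⟨y, -, rfl⟩
      exact y.2)
    rw [image_image] at this
    simp only [hP] at this
    exact this
  · intro x
    induction x using Quotient.inductionOn with
    | h x => exact ⟨x.1, x.2, x.2.2, hP _ _⟩
  · rw [continuousOn_iff_continuous_domRestrict]
    have : (D.Ω k).domRestrict (P k) = fun y => Quotient.mk S ⟨k, y⟩ := funext fun y => hP k y
    rw [this]
    exact continuous_quotient_mk'.comp continuous_sigmaMk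

theorem PData.exists_manifold {n : ℕ} {κ Z : Type} [TopologicalSpace Z] [T2Space Z] [Countable κ]
    (D : PData n κ Z) (hne : ∃ k, (D.Ω k).Nonempty) :
    ∃ (M : Type) (_ : TopologicalSpace M) (A : RAtlas n M) (P : κ → E n → M) (kind : A.ι → κ),
      T2Space M ∧ SecondCountableTopology M ∧ A.Oriented ∧ Presents D A P kind := by
  obtain ⟨M, _, P, h1, h2, h3, h4, h5, h6⟩ := paste_space D hne
  let ι : Type := {q : κ × Set (E n) // IsOpen q.2 ∧ q.2 ⊆ D.Ω q.1 ∧ InjOn (D.F q.1) q.2}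
  have hex : ∀ i : ι, ∃ e : OpenPartialHomeomorph (E n) M,
      e.source = i.1.2 ∧ (e : E n → M) = P i.1.1 := by
    intro i
    refine paste_chart _ i.2.1 ((h5 _).mono i.2.2.1) (fun a ha b hb e => ?_)
      fun V hV hVU => h6 _ V hV (hVU.trans i.2.2.1)
    exact i.2.2.2 ha hb ((h4 _ _ a (i.2.2.1 ha) b (i.2.2.1 hb)).1 e)
  choose e hs hf using hex
  have hcov : ∀ k, ∀ a ∈ D.Ω k, ∃ i : ι, i.1.1 = k ∧ a ∈ (e i).source := by
    intro k a ha
    obtain ⟨U, hU, hi⟩ := D.locinj k a ha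
    obtain ⟨V, hV1, hV2, hV3⟩ := mem_nhds_iff.1 (inter_mem hU ((D.riem k).isOpen.mem_nhds ha))
    refine ⟨⟨(k, V), hV2, hV1.trans inter_subset_right, hi.mono (hV1.trans inter_subset_left)⟩,
      rfl, ?_⟩
    rw [hs]
    exact hV3
  have key : ∀ (i j : ι) (x : M), x ∈ (e i).target → x ∈ (e j).target → ∃ ψ : E n → E n,
      ((e j).symm ∘ e i) =ᶠ[𝓝 ((e i).symm x)] ψ ∧ ContDiffAt ℝ ∞ ψ ((e i).symm x) ∧
      0 < LinearMap.det (fderiv ℝ ψ ((e i).symm x) : E n →ₗ[ℝ] E n) ∧
      ∀ u v, bil (D.g i.1.1 ((e i).symm x)) u v = bil (D.g j.1.1 ((e j).symm x))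
        (fderiv ℝ ψ ((e i).symm x) u) (fderiv ℝ ψ ((e i).symm x) v) := by
    intro i j x hi hj
    have a1 := (e i).map_target hi
    have a2 := (e j).map_target hj
    have hΩ : ∀ (i : ι), ∀ y ∈ (e i).source, y ∈ D.Ω i.1.1 := fun i y hy =>
      i.2.2.1 (hs i ▸ hy)
    have a3 : P i.1.1 ((e i).symm x) = P j.1.1 ((e j).symm x) := by
      rw [← hf, ← hf, (e i).right_inv hi, (e j).right_inv hj]
    obtain ⟨ψ, b1, b2, b3, b4, b5⟩ := D.trans _ _ _ (hΩ i _ a1) _ (hΩ j _ a2)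
      ((h4 _ _ _ (hΩ i _ a1) _ (hΩ j _ a2)).1 a3)
    refine ⟨ψ, ?_, b1, b4, b5⟩
    have c1 : ∀ᶠ y in 𝓝 ((e i).symm x), ψ y ∈ (e j).source :=
      b1.continuousAt.preimage_mem_nhds ((e j).open_source.mem_nhds (b2.symm ▸ a2))
    filter_upwards [b3, c1, (e i).open_source.mem_nhds a1] with y d1 d2 d3
    have d4 : e j (ψ y) = e i y := by
      rw [hf, hf]
      exact (h4 _ _ _ (hΩ j _ d2) _ (hΩ i _ d3)).2 d1
    show (e j).symm (e i y) = ψ y
    rw [← d4, (e j).left_inv d2]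
  let A : RAtlas n M :=
    { ι := ι
      chart := fun i => (e i).symm
      G := fun i => D.g i.1.1
      cover := fun x => by
        obtain ⟨k, a, ha, rfl⟩ := h3 x
        obtain ⟨i, rfl, hi⟩ := hcov k a ha
        exact ⟨i, hf i ▸ (e i).map_source hi⟩
      riem := fun i => by
        have hsub : (e i).source ⊆ D.Ω i.1.1 := hs i ▸ i.2.2.1
        exact ⟨(e i).open_source, fun a b => ((D.riem _).contDiffOn a b).mono hsub,
          fun x hx => (D.riem _).posDef x (hsub hx)⟩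
      smooth := fun i j x hi hj => by
        obtain ⟨ψ, b1, b2, -⟩ := key i j x hi hj
        exact b2.congr_of_eventuallyEq b1
      isom := fun i j x hi hj u v => by
        obtain ⟨ψ, b1, -, -, b2⟩ := key i j x hi hj
        have := b1.fderiv_eq (𝕜 := ℝ)
        rw [← this] at b2
        exact b2 u v }
  refine ⟨M, inferInstance, A, P, fun i => i.1.1, h1, h2, fun i j x hi hj => ?_,
    ⟨fun i => (hs i ▸ i.2.2.1 : (e i).source ⊆ D.Ω i.1.1), fun i y _ => congrFun (hf i) y,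
      fun i => rfl, hcov, h4, h5⟩⟩
  obtain ⟨ψ, b1, -, b2, -⟩ := key i j x hi hj
  have := b1.fderiv_eq (𝕜 := ℝ)
  rw [← this] at b2
  exact b2

end Crest.Agent.R244
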