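import Crest.Agent.R244.ModelTrans
import Crest.Agent.R244.Paste

/-! Row 244: the glued manifold. -/

set_option autoImplicit false

open Set Filter
open scoped ContDiff Topology

namespace Crest.Agent.R244

open Crest.GeometryTopology.CoordMetric

noncomputable section

theorem exists_int_mem_Icc {c : ℝ} (hc : 0 < c) (a x : ℝ) :
    ∃ n : ℤ, a ≤ x + n * c ∧ x + n * c ≤ a + c := by
  obtain ⟨n, hn, -⟩ := existsUnique_add_zsmul_mem_Ico hc x a
  rw [zsmul_eq_mul] at hn
  exact ⟨n, hn.1, hn.2.le⟩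

/-- a compact box. -/
def box3 (a₀ b₀ a₁ b₁ a₂ b₂ : ℝ) : Set (E 3) :=
  {y | y 0 ∈ Icc a₀ b₀ ∧ y 1 ∈ Icc a₁ b₁ ∧ y 2 ∈ Icc a₂ b₂}

theorem isCompact_box3 (a₀ b₀ a₁ b₁ a₂ b₂ : ℝ) : IsCompact (box3 a₀ b₀ a₁ b₁ a₂ b₂) := by
  have : box3 a₀ b₀ a₁ b₁ a₂ b₂ = (fun q : ℝ × ℝ × ℝ => pt q.1 q.2.1 q.2.2) ''
      (Icc a₀ b₀ ×ˢ Icc a₁ b₁ ×ˢ Icc a₂ b₂) := by
    ext y
    constructor
    · intro hy
      exact ⟨(y 0, y 1, y 2), hy, pt_eta y⟩
    · rintro ⟨q, hq, rfl⟩
      exact hq
  rw [this]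
  exact (isCompact_Icc.prod (isCompact_Icc.prod isCompact_Icc)).image (by fun_prop)

namespace NeckG
variable (N : NeckG)

/-- the neck point with prescribed height, polar angle and fibre angle. -/
def unpol (b : Bool) (t θ φ : ℝ) : E 3 :=
  if b then pt t (N.aW * (θ + φ)) (N.aV * θ) else pt t (N.aW * θ) (N.aV * φ)

theorem unpol_zero (b : Bool) (t θ φ : ℝ) : N.unpol b t θ φ 0 = t := by
  cases b <;> simp [unpol]

theorem th_unpol (b : Bool) (t θ φ : ℝ) : N.th b (N.unpol b t θ φ) = θ := by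
  have hV := N.haV.ne'
  have hW := N.haW.ne'
  cases b <;> simp [unpol, th, hV, hW]

theorem ph_unpol (b : Bool) (t θ φ : ℝ) : N.ph b (N.unpol b t θ φ) = φ := by
  have hV := N.haV.ne'
  have hW := N.haW.ne'
  cases b <;> simp [unpol, ph, hV, hW]

theorem mem_ΩN_of_sg {b : Bool} {y : E 3} (h1 : N.T - 1 < sg b * y 0) (h2 : sg b * y 0 < N.T) :
    y ∈ N.ΩN := by
  have := N.hT
  change |y 0| < N.T
  rw [← abs_sg_mul b, abs_of_pos (by linarith)]
  exact h2

theorem pol_mem (b : Bool) {y : E 3} (h1 : N.T - 1 < sg b * y 0) (h2 : sg b * y 0 < N.T) :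
    N.pol b y ∈ N.ΩS b := by
  have hR := N.Rb_pos b
  have hr : 0 < N.rad b y := by unfold rad; linarith
  have hn := N.norm_zc_pol b y hr.le
  have h0 := abs_le_zc0 (N.pol b y)
  have h1' := abs_le_zc1 (N.pol b y)
  rw [hn] at h0 h1'
  refine ⟨?_, ?_, ?_⟩
  · rw [hn]; unfold rad; linarith
  · unfold rad at h0; unfold hb; linarith
  · unfold rad at h1'; unfold hb; linarith

theorem exists_pol (b : Bool) (z : E 3) :
    ∃ y, sg b * y 0 = ‖zc z‖ - N.Rb b - 1 + N.T ∧ N.pol b y = z := by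
  have hF := (N.aF_pos b).ne'
  refine ⟨N.unpol b (sg b * (‖zc z‖ - N.Rb b - 1 + N.T)) (Complex.arg (zc z)) (-(z 2) / N.aF b),
    ?_, ?_⟩
  · rw [unpol_zero, ← mul_assoc, sg_mul_sg, one_mul]
  · have hr : N.rad b (N.unpol b (sg b * (‖zc z‖ - N.Rb b - 1 + N.T)) (Complex.arg (zc z))
        (-(z 2) / N.aF b)) = ‖zc z‖ := by
      unfold rad
      rw [unpol_zero, ← mul_assoc, sg_mul_sg]
      ring
    unfold pol
    rw [hr, th_unpol, ph_unpol]
    refine ext3 ?_ ?_ ?_
    · simp [zc]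
    · simp [zc]
    · simp only [pt_two]
      field_simp

variable {N} {M : Type} [TopologicalSpace M] {A : RAtlas 3 M} {P : Option Bool → E 3 → M}
  {kind : A.ι → Option Bool}

theorem surj (hP : Presents N.pdata A P kind) (x : M) : ∃ k, ∃ a ∈ N.pdata.Ω k, P k a = x := by
  obtain ⟨i, hi⟩ := A.cover x
  have ht := (A.chart i).map_source hi
  exact ⟨kind i, _, hP.target i ht, by rw [← hP.symm i _ ht, (A.chart i).left_inv hi]⟩

theorem P_pol (hP : Presents N.pdata A P kind) (b : Bool) {y : E 3} (h1 : N.T - 1 < sg b * y 0)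
    (h2 : sg b * y 0 < N.T) : P (some b) (N.pol b y) = P none y :=
  (hP.eq_iff (some b) none _ (N.pol_mem b h1 h2) _ (N.mem_ΩN_of_sg h1 h2)).2 (N.FS_pol b h1 h2)

theorem P_add (hP : Presents N.pdata A P kind) {y : E 3} (hy : y ∈ N.ΩN) (m n : ℤ) :
    P none (y + pt 0 (m * (2 * Real.pi * N.aW)) (n * (2 * Real.pi * N.aV))) = P none y := by
  refine (hP.eq_iff none none _ ?_ _ hy).2 (N.FN_add y m n)
  have hy' : |y 0| < N.T := hy
  change |_| < N.T
  simpa using hy'

theorem neck_reduce (hP : Presents N.pdata A P kind) {y : E 3} {r : ℝ} (hr : r < N.T)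
    (hy : |y 0| ≤ r) :
    P none y ∈ P none '' box3 (-r) r 0 (2 * Real.pi * N.aW) 0 (2 * Real.pi * N.aV) := by
  have hpi := Real.pi_pos
  have hV := N.haV
  have hW := N.haW
  obtain ⟨m, hm⟩ := exists_int_mem_Icc (c := 2 * Real.pi * N.aW) (by positivity) 0 (y 1)
  obtain ⟨n, hn⟩ := exists_int_mem_Icc (c := 2 * Real.pi * N.aV) (by positivity) 0 (y 2)
  refine ⟨_, ⟨?_, ?_, ?_⟩, P_add hP (hy.trans_lt hr) m n⟩
  · simpa using abs_le.1 hy
  · simpa using hm
  · simpa using hn

theorem isCompact_neck (hP : Presents N.pdata A P kind) {r : ℝ} (hr : r < N.T) :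
    IsCompact (P none '' box3 (-r) r 0 (2 * Real.pi * N.aW) 0 (2 * Real.pi * N.aV)) :=
  (isCompact_box3 ..).image_of_continuousOn ((hP.cont none).mono fun _ hy =>
    (abs_le.2 hy.1).trans_lt hr)

/-- the compact core of a flat piece. -/
def KS (N : NeckG) (b : Bool) : Set (E 3) :=
  box3 (-N.hb b) (N.hb b) (-N.hb b) (N.hb b) 0 (2 * Real.pi * N.aF b) ∩
    {z | N.Rb b + 1 / 2 ≤ ‖zc z‖}

theorem KS_subset (N : NeckG) (b : Bool) : N.KS b ⊆ N.ΩS b := fun z hz =>
  ⟨by have := hz.2; simp only [mem_ofPred_eq] at this; linarith,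
    (abs_le.2 hz.1.1).trans_lt (by linarith), (abs_le.2 hz.1.2.1).trans_lt (by linarith)⟩

theorem isCompact_KS (N : NeckG) (b : Bool) : IsCompact (N.KS b) :=
  (isCompact_box3 ..).inter_right (isClosed_le continuous_const (by fun_prop))

theorem side_reduce (hP : Presents N.pdata A P kind) (b : Bool) {z : E 3} (hz : z ∈ N.ΩS b)
    (hr : N.Rb b + 1 / 2 ≤ ‖zc z‖) : P (some b) z ∈ P (some b) '' N.KS b := by
  have hpi := Real.pi_pos
  have hh := N.hb_pos b
  have hF := N.aF_pos b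
  obtain ⟨m, hm⟩ := exists_int_mem_Icc (c := 2 * N.hb b) (by positivity) (-N.hb b) (z 0)
  obtain ⟨n, hn⟩ := exists_int_mem_Icc (c := 2 * N.hb b) (by positivity) (-N.hb b) (z 1)
  obtain ⟨k, hk⟩ := exists_int_mem_Icc (c := 2 * Real.pi * N.aF b) (by positivity) 0 (z 2)
  set z' := z + pt (m * (2 * N.hb b)) (n * (2 * N.hb b)) 0 with hz'
  have h0 : z' 0 = z 0 + m * (2 * N.hb b) := by simp [hz']
  have h1 : z' 1 = z 1 + n * (2 * N.hb b) := by simp [hz']
  have h2 : z' 2 = z 2 := by simp [hz']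
  have a0 : |z' 0| ≤ N.hb b := by rw [h0, abs_le]; constructor <;> linarith [hm.1, hm.2]
  have a1 : |z' 1| ≤ N.hb b := by rw [h1, abs_le]; constructor <;> linarith [hn.1, hn.2]
  have key : N.Rb b + 1 / 2 ≤ ‖zc z'‖ ∧ N.FS b z' = N.FS b z := by
    by_cases hmn : m = 0 ∧ n = 0
    · have : z' = z := ext3 (by simp [h0, hmn.1]) (by simp [h1, hmn.2]) h2
      rw [this]
      exact ⟨hr, rfl⟩
    have hfar : N.Rb b + 1 < ‖zc z‖ ∧ N.Rb b + 1 < ‖zc z'‖ := by
      rcases not_and_or.1 hmn with hm | hn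
      · have := far_of_shift (x := z 0) (h := N.hb b) rfl (N.Rb_pos b) hm hz.2.1
          (by rw [← h0]; linarith)
        exact ⟨this.1.trans_le (abs_le_zc0 _), this.2.trans_le (h0 ▸ abs_le_zc0 z')⟩
      · have := far_of_shift (x := z 1) (h := N.hb b) rfl (N.Rb_pos b) hn hz.2.2
          (by rw [← h1]; linarith)
        exact ⟨this.1.trans_le (abs_le_zc1 _), this.2.trans_le (h1 ▸ abs_le_zc1 z')⟩
    exact ⟨by linarith [hfar.2], N.FS_add_far b z m n hfar.1.le hfar.2.le⟩
  have hmem : z' + pt 0 0 (k * (2 * Real.pi * N.aF b)) ∈ N.KS b := by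
    refine ⟨⟨?_, ?_, ?_⟩, ?_⟩
    · simpa using abs_le.1 a0
    · simpa using abs_le.1 a1
    · simpa [h2] using hk
    · have : zc (z' + pt 0 0 (k * (2 * Real.pi * N.aF b))) = zc z' := by simp [zc]
      simp only [mem_ofPred_eq, this]
      exact key.1
  refine ⟨_, hmem, (hP.eq_iff (some b) (some b) _ (N.KS_subset b hmem) _ hz).2 ?_⟩
  exact (N.FS_add_fibre b z' k).trans key.2

theorem compactSpace (hP : Presents N.pdata A P kind) : CompactSpace M := by
  have hT := N.hT
  have hK : ∀ b, IsCompact (P (some b) '' N.KS b) := fun b =>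
    (N.isCompact_KS b).image_of_continuousOn ((hP.cont (some b)).mono (N.KS_subset b))
  have hc := (isCompact_neck hP (r := N.T - 1 / 2) (by linarith)).union
    (isCompact_iUnion hK)
  refine ⟨hc.of_isClosed_subset isClosed_univ fun x _ => ?_⟩
  obtain ⟨k, a, ha, rfl⟩ := surj hP x
  cases k with
  | none =>
    by_cases h : |a 0| ≤ N.T - 1 / 2
    · exact Or.inl (neck_reduce hP (by linarith) h)
    · have ha' : |a 0| < N.T := ha
      obtain ⟨b, hb⟩ : ∃ b, sg b * a 0 = |a 0| := by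
        rcases le_total 0 (a 0) with h' | h'
        · exact ⟨true, by simp [sg, abs_of_nonneg h']⟩
        · exact ⟨false, by simp [sg, abs_of_nonpos h']⟩
      have h1 : N.T - 1 < sg b * a 0 := by rw [hb]; linarith [not_le.1 h]
      have h2 : sg b * a 0 < N.T := by rw [hb]; exact ha'
      refine Or.inr (mem_iUnion.2 ⟨b, ?_⟩)
      rw [← P_pol hP b h1 h2]
      refine side_reduce hP b (N.pol_mem b h1 h2) ?_
      have hR := N.Rb_pos b
      rw [N.norm_zc_pol b a (by unfold rad; linarith)]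
      unfold rad
      linarith [not_le.1 h]
  | some b =>
    by_cases h : N.Rb b + 1 / 2 ≤ ‖zc a‖
    · exact Or.inr (mem_iUnion.2 ⟨b, side_reduce hP b ha h⟩)
    · obtain ⟨y, hy, rfl⟩ := N.exists_pol b a
      have h0 : N.Rb b < ‖zc (N.pol b y)‖ := ha.1
      have h1 : N.T - 1 < sg b * y 0 := by linarith
      have h2 : sg b * y 0 ≤ N.T - 1 / 2 := by linarith [not_le.1 h]
      rw [P_pol hP b h1 (by linarith)]
      refine Or.inl (neck_reduce hP (by linarith) ?_)
      rw [← abs_sg_mul b, abs_of_pos (by linarith)]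
      exact h2

theorem convex_ΩN (N : NeckG) : Convex ℝ N.ΩN := by
  have : N.ΩN = (EuclideanSpace.proj (0 : Fin 3) : E 3 →L[ℝ] ℝ) ⁻¹' Ioo (-N.T) N.T := by
    ext y
    simp [ΩN, abs_lt]
  rw [this]
  exact (convex_Ioo _ _).linear_preimage _

theorem connectedSpace (hP : Presents N.pdata A P kind) : ConnectedSpace M := by
  have hT := N.hT
  have h0 : (0 : E 3) ∈ N.ΩN := by
    change |_| < N.T
    simp
    linarith
  have hN : IsPreconnected (P none '' N.ΩN) :=
    N.convex_ΩN.isPreconnected.image _ (hP.cont none)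
  have : PreconnectedSpace M := ⟨isPreconnected_of_forall (P none 0) fun x _ => by
    obtain ⟨k, a, ha, rfl⟩ := surj hP x
    cases k with
    | none => exact ⟨_, subset_univ _, mem_image_of_mem _ h0, mem_image_of_mem _ ha, hN⟩
    | some b =>
      have hR := N.Rb_pos b
      have ha0 : N.Rb b < ‖zc a‖ := ha.1
      let r₀ : ℝ := min ‖zc a‖ (N.Rb b + 1 / 2)
      have hr₀ : N.Rb b < r₀ := lt_min ha0 (by linarith)
      have hap : 0 < ‖zc a‖ := hR.trans ha0
      let w : ℝ → E 3 := fun s => pt (s * a 0) (s * a 1) (a 2)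
      have hw : ∀ s, 0 ≤ s → ‖zc (w s)‖ = s * ‖zc a‖ := by
        intro s hs
        have : zc (w s) = s * zc a := by
          simp only [zc, w, pt_zero, pt_one]
          push_cast
          ring
        rw [this, norm_mul, Complex.norm_real, Real.norm_of_nonneg hs]
      have hs0 : 0 < r₀ / ‖zc a‖ := div_pos (hR.trans hr₀) hap
      have hs1 : r₀ / ‖zc a‖ ≤ 1 := (div_le_one hap).2 (min_le_left _ _)
      have hmem : ∀ s ∈ Icc (r₀ / ‖zc a‖) 1, w s ∈ N.ΩS b := by
        intro s hs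
        have hsp : 0 ≤ s := hs0.le.trans hs.1
        refine ⟨?_, ?_, ?_⟩
        · rw [hw s hsp]
          have := (div_le_iff₀ hap).1 hs.1
          linarith
        · have := ha.2.1
          simp only [w, pt_zero, abs_mul, abs_of_nonneg hsp]
          nlinarith [hs.2, abs_nonneg (a 0)]
        · have := ha.2.2
          simp only [w, pt_one, abs_mul, abs_of_nonneg hsp]
          nlinarith [hs.2, abs_nonneg (a 1)]
      have hseg : IsPreconnected ((fun s => P (some b) (w s)) '' Icc (r₀ / ‖zc a‖) 1) :=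
        isPreconnected_Icc.image _ ((hP.cont (some b)).comp (by fun_prop) hmem)
      obtain ⟨y, hy, hy'⟩ := N.exists_pol b (w (r₀ / ‖zc a‖))
      rw [hw _ hs0.le, div_mul_cancel₀ _ hap.ne'] at hy
      have h1 : N.T - 1 < sg b * y 0 := by linarith
      have h2 : sg b * y 0 < N.T := by
        have : r₀ ≤ N.Rb b + 1 / 2 := min_le_right _ _
        linarith
      refine ⟨P none '' N.ΩN ∪ (fun s => P (some b) (w s)) '' Icc (r₀ / ‖zc a‖) 1, subset_univ _,
        Or.inl (mem_image_of_mem _ h0), Or.inr ⟨1, ⟨hs1, le_rfl⟩, ?_⟩,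
        hN.union (P none y) (mem_image_of_mem _ (N.mem_ΩN_of_sg h1 h2))
          ⟨r₀ / ‖zc a‖, ⟨le_rfl, hs1⟩, ?_⟩ hseg⟩
      · simp only [w, one_mul, pt_eta]
      · simp only [← hy', P_pol hP b h1 h2]⟩
  exact ⟨⟨P none 0⟩⟩

theorem side (hP : Presents N.pdata A P kind) (b : Bool) :
    Side (fun q : ℝ × ℝ × ℝ => P (some b) (pt q.1 q.2.1 (-(N.aF b * q.2.2)))) (N.Rb b + 1 / 2)
      (N.hb b) := by
  have hR := N.Rb_pos b
  have hh := N.hb_pos b
  have hmem : ∀ x y φ : ℝ, (N.Rb b + 1 / 2) ^ 2 ≤ x ^ 2 + y ^ 2 → |x| ≤ N.hb b → |y| ≤ N.hb b →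
      pt x y φ ∈ N.ΩS b := by
    intro x y φ h1 h2 h3
    refine ⟨?_, by simp only [pt_zero]; linarith, by simp only [pt_one]; linarith⟩
    have h4 := norm_zc_sq (pt x y φ)
    simp only [pt_zero, pt_one] at h4
    have h5 : N.Rb b + 1 / 2 ≤ ‖zc (pt x y φ)‖ :=
      le_of_sq_le_sq (by rw [h4]; exact h1) (norm_nonneg _)
    linarith
  have hsq : (N.Rb b + 1 / 2) ^ 2 ≤ N.hb b ^ 2 :=
    pow_le_pow_left₀ (by linarith) (by unfold hb; linarith) 2
  have hfar : N.Rb b + 1 ≤ N.hb b := by unfold hb; linarith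
  refine ⟨by linarith, by unfold hb; linarith, ?_, fun y φ hy => ?_, fun x φ hx => ?_,
    fun x y φ h1 h2 h3 => ?_⟩
  · exact (hP.cont (some b)).comp (by fun_prop) fun q hq => hmem _ _ _ hq.1 hq.2.1 hq.2.2
  · have e : pt (N.hb b) y (-(N.aF b * φ)) = pt (-N.hb b) y (-(N.aF b * φ)) +
        pt ((1 : ℤ) * (2 * N.hb b)) ((0 : ℤ) * (2 * N.hb b)) 0 :=
      ext3 (by simp; ring) (by simp) (by simp)
    refine (hP.eq_iff (some b) (some b) _ (hmem _ _ _ (by nlinarith) (by simp [abs_of_pos hh]) hy)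
      _ (hmem _ _ _ (by nlinarith) (by simp [abs_of_pos hh]) hy)).2 ?_
    change N.FS b _ = N.FS b _
    rw [e]
    refine (N.FS_add_far b _ 1 0 (hfar.trans ?_) (hfar.trans ?_)).symm
    · simpa [abs_of_pos hh] using abs_le_zc0 (pt (-N.hb b) y (-(N.aF b * φ)))
    · rw [← e]
      simpa [abs_of_pos hh] using abs_le_zc0 (pt (N.hb b) y (-(N.aF b * φ)))
  · have e : pt x (N.hb b) (-(N.aF b * φ)) = pt x (-N.hb b) (-(N.aF b * φ)) +
        pt ((0 : ℤ) * (2 * N.hb b)) ((1 : ℤ) * (2 * N.hb b)) 0 :=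
      ext3 (by simp) (by simp; ring) (by simp)
    refine (hP.eq_iff (some b) (some b) _ (hmem _ _ _ (by nlinarith) hx (by simp [abs_of_pos hh]))
      _ (hmem _ _ _ (by nlinarith) hx (by simp [abs_of_pos hh]))).2 ?_
    change N.FS b _ = N.FS b _
    rw [e]
    refine (N.FS_add_far b _ 0 1 (hfar.trans ?_) (hfar.trans ?_)).symm
    · simpa [abs_of_pos hh] using abs_le_zc1 (pt x (-N.hb b) (-(N.aF b * φ)))
    · rw [← e]
      simpa [abs_of_pos hh] using abs_le_zc1 (pt x (N.hb b) (-(N.aF b * φ)))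
  · have e : pt x y (-(N.aF b * (φ + 2 * Real.pi))) = pt x y (-(N.aF b * φ)) +
        pt 0 0 ((-1 : ℤ) * (2 * Real.pi * N.aF b)) :=
      ext3 (by simp) (by simp) (by simp; ring)
    refine (hP.eq_iff (some b) (some b) _ (hmem _ _ _ h1 h2 h3) _ (hmem _ _ _ h1 h2 h3)).2 ?_
    change N.FS b _ = N.FS b _
    rw [e]
    exact N.FS_add_fibre b _ _

theorem side_eq (hP : Presents N.pdata A P kind) (b : Bool) (θ φ : ℝ) :
    P (some b) (pt ((N.Rb b + 1 / 2) * Real.cos θ) ((N.Rb b + 1 / 2) * Real.sin θ)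
      (-(N.aF b * φ))) = P none (N.unpol b (sg b * (N.T - 1 / 2)) θ φ) := by
  have h0 : sg b * N.unpol b (sg b * (N.T - 1 / 2)) θ φ 0 = N.T - 1 / 2 := by
    rw [unpol_zero, ← mul_assoc, sg_mul_sg, one_mul]
  rw [← P_pol hP b (by rw [h0]; linarith) (by rw [h0]; linarith)]
  unfold pol rad
  rw [h0, th_unpol, ph_unpol]
  congr 2 <;> ring

theorem model [T2Space M] (hP : Presents N.pdata A P kind) :
    Model N A (P none) (fun i => kind i = none) where
  neckG i hi := by
    rw [hP.G i, hi]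
    rfl
  flatG i hi := by
    rw [hP.G i]
    cases hk : kind i with
    | none => exact absurd hk hi
    | some b => rfl
  neck_cover y hy := by
    obtain ⟨i, hi, hy'⟩ := hP.cover none y hy
    exact ⟨i, hi, hy', fun y' h => by rw [hP.symm i y' h, hi]⟩
  neck_tr i j x hi hj hxi hxj := by
    have hti : ∀ y ∈ (A.chart i).target, y ∈ N.ΩN := fun y hy => by
      have := hP.target i hy
      rwa [hi] at this
    have htj : ∀ y ∈ (A.chart j).target, y ∈ N.ΩN := fun y hy => by
      have := hP.target j hy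
      rwa [hj] at this
    have hF : ∀ y ∈ (A.chart i).target, (A.chart i).symm y ∈ (A.chart j).source →
        N.FN (A.tr i j y) = N.FN y := by
      intro y hy hy'
      have h1 := (A.chart j).map_source hy'
      refine (hP.eq_iff none none _ (htj _ h1) _ (hti y hy)).1 ?_
      have h2 := hP.symm j _ h1
      have h3 := hP.symm i y hy
      rw [hj, (A.chart j).left_inv hy'] at h2
      rw [hi] at h3
      exact h2.symm.trans h3
    have ha := (A.chart i).map_source hxi
    have hx' : (A.chart i).symm (A.chart i x) ∈ (A.chart j).source := by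
      rwa [(A.chart i).left_inv hxi]
    obtain ⟨m, n, hmn⟩ := N.FN_eq (hti _ ha) (hF _ ha hx').symm
    refine ⟨pt 0 (m * (2 * Real.pi * N.aW)) (n * (2 * Real.pi * N.aV)), rfl, ?_⟩
    obtain ⟨U, hU, hinj⟩ := N.pdata.locinj none _ (htj _ ((A.chart j).map_source hx'))
    have c1 : ContinuousAt (A.tr i j) (A.chart i x) := (A.smooth i j x hxi hxj).continuousAt
    have c2 : Tendsto (fun y => y + pt 0 (m * (2 * Real.pi * N.aW)) (n * (2 * Real.pi * N.aV)))
        (𝓝 (A.chart i x)) (𝓝 (A.tr i j (A.chart i x))) := by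
      rw [hmn]
      exact (continuous_add_const _).continuousAt
    have c3 : ∀ᶠ y in 𝓝 (A.chart i x), (A.chart i).symm y ∈ (A.chart j).source :=
      ((A.chart i).continuousAt_symm ha).eventually ((A.chart j).open_source.mem_nhds hx')
    filter_upwards [c1.eventually hU, c2.eventually hU, c3, (A.chart i).open_target.mem_nhds ha]
      with y h1 h2 h3 h4
    exact hinj h1 h2 ((hF y h4 h3).trans (N.FN_add y m n).symm)
  core x := by
    have hT := N.hT
    by_cases hx : ∃ i, kind i = none ∧ x ∈ (A.chart i).source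
    · exact Or.inl hx
    right
    have hK := (isCompact_neck hP (r := 2) (by linarith)).isClosed
    have hxK : x ∉ P none '' box3 (-2) 2 0 (2 * Real.pi * N.aW) 0 (2 * Real.pi * N.aV) := by
      rintro ⟨y, hy, rfl⟩
      obtain ⟨i, hi, hy'⟩ := hP.cover none y ((abs_le.2 hy.1).trans_lt (by linarith))
      refine hx ⟨i, hi, ?_⟩
      have := (A.chart i).map_target hy'
      rwa [hP.symm i y hy', hi] at this
    filter_upwards [hK.isOpen_compl.mem_nhds hxK] with x' hx' i hi hxi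
    by_contra hlt
    have h1 := hP.symm i _ ((A.chart i).map_source hxi)
    rw [hi, (A.chart i).left_inv hxi] at h1
    exact hx' (h1 ▸ neck_reduce hP (by linarith) (not_le.1 hlt).le)
  contN := hP.cont none
  perX t X Y ht := by
    rw [← P_add hP (y := pt t X Y) ht 1 0]
    congr 1
    exact ext3 (by simp) (by simp) (by simp)
  perY t X Y ht := by
    rw [← P_add hP (y := pt t X Y) ht 0 1]
    congr 1
    exact ext3 (by simp) (by simp) (by simp)
  left := ⟨_, _, _, side hP false, fun θ φ => by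
    rw [side_eq hP false θ φ]
    congr 1
    exact ext3 (by simp [unpol, sg]; ring) (by simp [unpol]) (by simp [unpol])⟩
  right := ⟨_, _, _, side hP true, fun θ φ => by
    rw [side_eq hP true θ φ]
    congr 1
    exact ext3 (by simp [unpol, sg]) (by simp [unpol]) (by simp [unpol])⟩

end NeckG

theorem exists_model (N : NeckG) :
    ∃ (M : Type) (_ : TopologicalSpace M) (A : RAtlas 3 M) (PN : E 3 → M) (isN : A.ι → Prop),
      T2Space M ∧ SecondCountableTopology M ∧ CompactSpace M ∧ ConnectedSpace M ∧ A.Oriented ∧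
      Model N A PN isN := by
  have hT := N.hT
  obtain ⟨M, _, A, P, kind, hT2, hsc, hor, hP⟩ := N.pdata.exists_manifold
    ⟨none, 0, show |_| < N.T by simp; linarith⟩
  exact ⟨M, inferInstance, A, P none, fun i => kind i = none, hT2, hsc, NeckG.compactSpace hP,
    NeckG.connectedSpace hP, hor, NeckG.model hP⟩

end

end Crest.Agent.R244
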