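import Crest.Agent.R244.ModelDefs

/-! Row 244: the pasting data of the glued manifold. -/

set_option autoImplicit false

open Set Filter
open scoped ContDiff Topology

namespace Crest.Agent.R244

open Crest.GeometryTopology.CoordMetric

noncomputable section

/-- a local transition map. -/
def IsTrans {n : ℕ} {Z : Type} (F F' : E n → Z) (g g' : MetricField n) (a b : E n) : Prop :=
  ∃ ψ : E n → E n, ContDiffAt ℝ ∞ ψ a ∧ ψ a = b ∧ (∀ᶠ y in 𝓝 a, F' (ψ y) = F y) ∧
    0 < LinearMap.det (fderiv ℝ ψ a : E n →ₗ[ℝ] E n) ∧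
    ∀ u v, bil (g a) u v = bil (g' b) (fderiv ℝ ψ a u) (fderiv ℝ ψ a v)

theorem IsTrans.symm {n : ℕ} {Z : Type} {F F' : E n → Z} {g g' : MetricField n} {a b : E n}
    (h : IsTrans F F' g g' a b) : IsTrans F' F g' g b a := by
  obtain ⟨ψ, hψ, rfl, hF, hdet, hiso⟩ := h
  let f' : E n ≃L[ℝ] E n := (fderiv ℝ ψ a).toContinuousLinearEquivOfDetNeZero hdet.ne'
  have hf'eq : (f' : E n →L[ℝ] E n) = fderiv ℝ ψ a :=
    ContinuousLinearMap.coe_toContinuousLinearEquivOfDetNeZero _ _
  have hn : (∞ : WithTop ℕ∞) ≠ 0 := by simp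
  have hf' : HasFDerivAt ψ (f' : E n →L[ℝ] E n) a := by
    rw [hf'eq]
    exact (hψ.differentiableAt hn).hasFDerivAt
  have hs := hψ.hasStrictFDerivAt' hf' hn
  have hc := hψ.to_localInverse hf' hn
  have hd : fderiv ℝ (hψ.localInverse hf' hn) (ψ a) = (f'.symm : E n →L[ℝ] E n) :=
    hs.to_localInverse.hasFDerivAt.fderiv
  have ha := hψ.localInverse_apply_image hf' hn
  refine ⟨hψ.localInverse hf' hn, hc, ha, ?_, ?_, fun u v => ?_⟩
  · have h1 : Tendsto (hψ.localInverse hf' hn) (𝓝 (ψ a)) (𝓝 a) := by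
      have := hc.continuousAt.tendsto
      rwa [ha] at this
    filter_upwards [h1.eventually hF, hs.eventually_right_inverse] with z h1 h2
    rw [← h1]
    exact congrArg F' h2 |>.symm ▸ rfl
  · rw [hd]
    have h2 := ContinuousLinearEquiv.det_coe_symm f'
    change 0 < ContinuousLinearMap.det _
    rw [h2, hf'eq]
    exact inv_pos.2 hdet
  · rw [hd, hiso, ← hf'eq]
    simp

theorem isTrans_add {n : ℕ} {Z : Type} {F F' : E n → Z} {g g' : MetricField n} {a : E n} (l : E n)
    (hF : ∀ᶠ y in 𝓝 a, F' (y + l) = F y) (hg : g a = g' (a + l)) :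
    IsTrans F F' g g' a (a + l) := by
  have hd : fderiv ℝ (fun y : E n => y + l) a = ContinuousLinearMap.id ℝ (E n) :=
    ((hasFDerivAt_id a).add_const l).fderiv
  refine ⟨fun y => y + l, contDiffAt_id.add contDiffAt_const, rfl, hF, ?_, fun u v => ?_⟩
  · rw [hd]
    simp
  · rw [hd, hg]
    rfl

theorem det_E3 (f : E 3 →ₗ[ℝ] E 3) :
    LinearMap.det f =
      f (pt 1 0 0) 0 * f (pt 0 1 0) 1 * f (pt 0 0 1) 2 - f (pt 1 0 0) 0 * f (pt 0 0 1) 1 * f (pt 0 1 0) 2
      - f (pt 0 1 0) 0 * f (pt 1 0 0) 1 * f (pt 0 0 1) 2 + f (pt 0 1 0) 0 * f (pt 0 0 1) 1 * f (pt 1 0 0) 2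
      + f (pt 0 0 1) 0 * f (pt 1 0 0) 1 * f (pt 0 1 0) 2
      - f (pt 0 0 1) 0 * f (pt 0 1 0) 1 * f (pt 1 0 0) 2 := by
  have e0 : (EuclideanSpace.basisFun (Fin 3) ℝ).toBasis 0 = pt 1 0 0 :=
    ext3 (by simp) (by simp) (by simp)
  have e1 : (EuclideanSpace.basisFun (Fin 3) ℝ).toBasis 1 = pt 0 1 0 :=
    ext3 (by simp) (by simp) (by simp)
  have e2 : (EuclideanSpace.basisFun (Fin 3) ℝ).toBasis 2 = pt 0 0 1 :=
    ext3 (by simp) (by simp) (by simp)
  rw [← LinearMap.det_toMatrix (EuclideanSpace.basisFun (Fin 3) ℝ).toBasis, Matrix.det_fin_three]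
  simp only [LinearMap.toMatrix_apply, e0, e1, e2, OrthonormalBasis.coe_toBasis_repr_apply,
    EuclideanSpace.basisFun_repr]

theorem bil_one3 (u v : E 3) :
    bil (1 : Matrix (Fin 3) (Fin 3) ℝ) u v = u 0 * v 0 + u 1 * v 1 + u 2 * v 2 := by
  simp [bil, Fin.sum_univ_three, Matrix.one_apply]

theorem bil_gN (N : Neck) (y u v : E 3) :
    bil (N.gN y) u v = u 0 * v 0 + N.A (y 0) * u 1 * v 1 + N.C (y 0) * (u 1 * v 2 + u 2 * v 1) +
      N.D (y 0) * u 2 * v 2 := by
  simp [bil, Fin.sum_univ_three, Neck.gN]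
  ring

namespace NeckG
variable (N : NeckG)

theorem contDiff_th (b : Bool) : ContDiff ℝ ∞ (N.th b) := by
  unfold th
  split_ifs <;> fun_prop

theorem contDiff_ph (b : Bool) : ContDiff ℝ ∞ (N.ph b) := by
  unfold ph
  split_ifs <;> fun_prop

theorem contDiff_rad (b : Bool) : ContDiff ℝ ∞ (N.rad b) := by
  unfold rad
  fun_prop

theorem contDiff_pol (b : Bool) : ContDiff ℝ ∞ (N.pol b) :=
  contDiff_pt ((N.contDiff_rad b).mul (N.contDiff_th b).cos)
    ((N.contDiff_rad b).mul (N.contDiff_th b).sin) (contDiff_const.mul (N.contDiff_ph b)).neg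

theorem fderiv_pol (b : Bool) (y u : E 3) : fderiv ℝ (N.pol b) y u =
    pt (sg b * u 0 * Real.cos (N.th b y) - N.rad b y * Real.sin (N.th b y) * N.th b u)
      (sg b * u 0 * Real.sin (N.th b y) + N.rad b y * Real.cos (N.th b y) * N.th b u)
      (-(N.aF b * N.ph b u)) := by
  have hd := ((N.contDiff_pol b).differentiable (by simp) y).hasFDerivAt
  have hl : HasDerivAt (fun s : ℝ => y + s • u) u 0 := by
    simpa using ((hasDerivAt_id (0 : ℝ)).smul_const u).const_add y
  have h1 : HasDerivAt (fun s : ℝ => N.pol b (y + s • u)) (fderiv ℝ (N.pol b) y u) 0 :=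
    hd.comp_hasDerivAt_of_eq 0 hl (by simp)
  have hth : HasDerivAt (fun s : ℝ => N.th b (y + s • u)) (N.th b u) 0 := by
    have e : (fun s : ℝ => N.th b (y + s • u)) = fun s => N.th b y + s * N.th b u := by
      funext s
      cases b <;> simp [th] <;> ring
    rw [e]
    simpa using ((hasDerivAt_id (0 : ℝ)).mul_const (N.th b u)).const_add (N.th b y)
  have hph : HasDerivAt (fun s : ℝ => N.ph b (y + s • u)) (N.ph b u) 0 := by
    have e : (fun s : ℝ => N.ph b (y + s • u)) = fun s => N.ph b y + s * N.ph b u := by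
      funext s
      cases b <;> simp [ph] <;> ring
    rw [e]
    simpa using ((hasDerivAt_id (0 : ℝ)).mul_const (N.ph b u)).const_add (N.ph b y)
  have hr : HasDerivAt (fun s : ℝ => N.rad b (y + s • u)) (sg b * u 0) 0 := by
    have e : (fun s : ℝ => N.rad b (y + s • u)) = fun s => N.rad b y + s * (sg b * u 0) := by
      funext s
      simp [rad]
      ring
    rw [e]
    simpa using ((hasDerivAt_id (0 : ℝ)).mul_const (sg b * u 0)).const_add (N.rad b y)
  have hc : ∀ i : Fin 3, HasDerivAt (fun s : ℝ => N.pol b (y + s • u) i)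
      (fderiv ℝ (N.pol b) y u i) 0 := fun i =>
    (EuclideanSpace.proj i : E 3 →L[ℝ] ℝ).hasFDerivAt.comp_hasDerivAt 0 h1
  refine ext3 ((hc 0).unique ?_) ((hc 1).unique ?_) ((hc 2).unique ?_)
  · refine (hr.mul hth.cos).congr_deriv ?_
    simp only [zero_smul, add_zero, pt_zero]
    ring
  · refine (hr.mul hth.sin).congr_deriv ?_
    simp only [zero_smul, add_zero, pt_one]
    ring
  · exact (hph.const_mul (N.aF b)).neg

theorem isTrans_pol (b : Bool) {y : E 3} (h1 : N.T - 1 < sg b * y 0) (h2 : sg b * y 0 < N.T)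
    (n : ℤ) : IsTrans N.FN (N.FS b) N.gN (fun _ => 1) y
      (N.pol b y + pt 0 0 (n * (2 * Real.pi * N.aF b))) := by
  have hV := N.haV
  have hW := N.haW
  have hR := N.Rb_pos b
  have hr : 0 < N.rad b y := by unfold rad; linarith
  have hd : fderiv ℝ (fun y => N.pol b y + pt 0 0 (n * (2 * Real.pi * N.aF b))) y =
      fderiv ℝ (N.pol b) y := fderiv_add_const _
  have hcs := Real.cos_sq_add_sin_sq (N.th b y)
  refine ⟨fun y => N.pol b y + pt 0 0 (n * (2 * Real.pi * N.aF b)),
    (N.contDiff_pol b).contDiffAt.add contDiffAt_const, rfl, ?_, ?_, fun u v => ?_⟩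
  · have ho : IsOpen {y : E 3 | N.T - 1 < sg b * y 0 ∧ sg b * y 0 < N.T} :=
      IsOpen.and (isOpen_lt continuous_const (by fun_prop))
        (isOpen_lt (by fun_prop) continuous_const)
    filter_upwards [ho.mem_nhds ⟨h1, h2⟩] with y' hy'
    rw [FS_add_fibre, N.FS_pol b hy'.1 hy'.2]
  · rw [hd, det_E3]
    simp only [ContinuousLinearMap.coe_coe, fderiv_pol, pt_zero, pt_one, pt_two]
    generalize Real.cos (N.th b y) = co at hcs ⊢
    generalize Real.sin (N.th b y) = si at hcs ⊢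
    generalize N.rad b y = r at hr ⊢
    cases b
    · simp only [th, ph, aF, sg, Bool.false_eq_true, if_false, pt_one, pt_two]
      have e : r / N.aW * (co ^ 2 + si ^ 2) > 0 := by rw [hcs]; positivity
      refine e.trans_eq ?_
      field_simp
      ring
    · simp only [th, ph, aF, sg, if_true, pt_one, pt_two]
      have e : r / N.aV * (co ^ 2 + si ^ 2) > 0 := by rw [hcs]; positivity
      refine e.trans_eq ?_
      field_simp
      ring
  · rw [hd, bil_one3, bil_gN]
    simp only [fderiv_pol, pt_zero, pt_one, pt_two]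
    generalize Real.cos (N.th b y) = co at hcs ⊢
    generalize Real.sin (N.th b y) = si at hcs ⊢
    cases b
    · simp only [sg, Bool.false_eq_true, if_false] at h1 h2
      obtain ⟨hA, hC, hD⟩ := N.farL (y 0) (by linarith)
      have hr' : N.rad false y = N.rL - y 0 := by simp [rad, sg, Rb]; ring
      rw [hA, hC, hD, hr']
      simp only [th, ph, aF, sg, Bool.false_eq_true, if_false]
      field_simp
      linear_combination (-(u 0 * v 0 * N.aW ^ 2) - (N.rL - y 0) ^ 2 * u 1 * v 1) * hcs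
    · simp only [sg, if_true] at h1 h2
      obtain ⟨hA, hC, hD⟩ := N.farR (y 0) (by linarith)
      have hr' : N.rad true y = N.rR + y 0 := by simp [rad, sg, Rb]; ring
      rw [hA, hC, hD, hr']
      simp only [th, ph, aF, sg, if_true]
      field_simp
      linear_combination (-(u 0 * v 0 * N.aV ^ 2) - (N.rR + y 0) ^ 2 * u 2 * v 2) * hcs

theorem far_of_shift {R h x : ℝ} {m : ℤ} (hh : h = R + 3) (hR : 0 < R) (hm : m ≠ 0)
    (h1 : |x| < h + 1) (h2 : |x + m * (2 * h)| < h + 1) :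
    R + 1 < |x| ∧ R + 1 < |x + m * (2 * h)| := by
  have hm' : (1 : ℝ) ≤ |(m : ℝ)| := by exact_mod_cast Int.one_le_abs hm
  have h3 : 2 * h ≤ |m * (2 * h)| := by
    rw [abs_mul, abs_of_pos (show 0 < 2 * h by linarith)]
    nlinarith
  have h4 : |m * (2 * h)| ≤ |x| + |x + m * (2 * h)| := by
    have := abs_sub (x + m * (2 * h)) x
    rw [add_sub_cancel_left] at this
    linarith
  constructor <;> linarith

theorem isTrans_side (b : Bool) {z z' : E 3} (hz : z ∈ N.ΩS b) (hz' : z' ∈ N.ΩS b)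
    (h : N.FS b z = N.FS b z') : IsTrans (N.FS b) (N.FS b) (fun _ => 1) (fun _ => 1) z z' := by
  obtain ⟨m, n, k, rfl⟩ := N.FS_eq b h
  refine isTrans_add _ ?_ rfl
  have e : ∀ y : E 3, y + pt (m * (2 * N.hb b)) (n * (2 * N.hb b)) (k * (2 * Real.pi * N.aF b)) =
      y + pt (m * (2 * N.hb b)) (n * (2 * N.hb b)) 0 + pt 0 0 (k * (2 * Real.pi * N.aF b)) :=
    fun y => ext3 (by simp) (by simp) (by simp)
  simp only [e, FS_add_fibre]
  by_cases hmn : m = 0 ∧ n = 0
  · have : pt (m * (2 * N.hb b)) (n * (2 * N.hb b)) 0 = 0 :=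
      ext3 (by simp [hmn.1]) (by simp [hmn.2]) (by simp)
    simp [this]
  have hfar : N.Rb b + 1 < ‖zc z‖ ∧
      N.Rb b + 1 < ‖zc (z + pt (m * (2 * N.hb b)) (n * (2 * N.hb b)) 0)‖ := by
    rcases not_and_or.1 hmn with hm | hn
    · have := far_of_shift (x := z 0) (h := N.hb b) rfl (N.Rb_pos b) hm hz.2.1 (by simpa using hz'.2.1)
      refine ⟨this.1.trans_le (abs_le_zc0 _), this.2.trans_le ?_⟩
      simpa using abs_le_zc0 (z + pt (m * (2 * N.hb b)) (n * (2 * N.hb b)) 0)
    · have := far_of_shift (x := z 1) (h := N.hb b) rfl (N.Rb_pos b) hn hz.2.2 (by simpa using hz'.2.2)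
      refine ⟨this.1.trans_le (abs_le_zc1 _), this.2.trans_le ?_⟩
      simpa using abs_le_zc1 (z + pt (m * (2 * N.hb b)) (n * (2 * N.hb b)) 0)
  have ho : IsOpen {y : E 3 | N.Rb b + 1 < ‖zc y‖ ∧
      N.Rb b + 1 < ‖zc (y + pt (m * (2 * N.hb b)) (n * (2 * N.hb b)) 0)‖} :=
    IsOpen.and (isOpen_lt continuous_const (by fun_prop)) (isOpen_lt continuous_const (by fun_prop))
  filter_upwards [ho.mem_nhds hfar] with y hy
  exact N.FS_add_far b y m n hy.1.le hy.2.le

theorem isTrans_neck {a b : E 3} (ha : a ∈ N.ΩN) (h : N.FN a = N.FN b) :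
    IsTrans N.FN N.FN N.gN N.gN a b := by
  obtain ⟨m, n, rfl⟩ := N.FN_eq ha h
  refine isTrans_add _ (Eventually.of_forall fun y => N.FN_add y m n) ?_
  simp [Neck.gN]

theorem int_eq_zero_of_small {m : ℤ} {c : ℝ} (hc : 0 < c) (h : |m * c| < c) : m = 0 := by
  by_contra hm
  have hm' : (1 : ℝ) ≤ |(m : ℝ)| := by exact_mod_cast Int.one_le_abs hm
  rw [abs_mul, abs_of_pos hc] at h
  nlinarith

theorem injOn_of_lattice {Z : Type} {F : E 3 → Z} {S : Set (E 3)} (hS : IsOpen S) {c₀ c₁ c₂ : ℝ}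
    (h₀ : 0 < c₀) (h₁ : 0 < c₁) (h₂ : 0 < c₂)
    (h : ∀ z ∈ S, ∀ z', F z = F z' → ∃ m n k : ℤ, z' = z + pt (m * c₀) (n * c₁) (k * c₂))
    {a : E 3} (ha : a ∈ S) : ∃ U ∈ 𝓝 a, InjOn F U := by
  have ho : IsOpen {y : E 3 | |y 0 - a 0| < c₀ / 2 ∧ |y 1 - a 1| < c₁ / 2 ∧ |y 2 - a 2| < c₂ / 2} :=
    IsOpen.and (isOpen_lt (by fun_prop) continuous_const) (IsOpen.and
      (isOpen_lt (by fun_prop) continuous_const) (isOpen_lt (by fun_prop) continuous_const))
  refine ⟨_, (hS.inter ho).mem_nhds ⟨ha, by simpa using h₀, by simpa using h₁, by simpa using h₂⟩,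
    fun z hz z' hz' hF => ?_⟩
  obtain ⟨m, n, k, rfl⟩ := h z hz.1 z' hF
  have key : ∀ (x y c : ℝ) (m : ℤ), 0 < c → |x - y| < c / 2 → |x + m * c - y| < c / 2 → m = 0 := by
    intro x y c m hc h1 h2
    refine int_eq_zero_of_small hc ?_
    rw [abs_lt] at h1 h2 ⊢
    constructor <;> linarith
  have hm := key _ _ _ m h₀ hz.2.1 (by simpa using hz'.2.1)
  have hn := key _ _ _ n h₁ hz.2.2.1 (by simpa using hz'.2.2.1)
  have hk := key _ _ _ k h₂ hz.2.2.2 (by simpa using hz'.2.2.2)
  exact ext3 (by simp [hm]) (by simp [hn]) (by simp [hk])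

/-- the pasting data. -/
def pdata : PData 3 (Option Bool) Zt where
  Ω k := k.elim N.ΩN N.ΩS
  F k := k.elim N.FN N.FS
  g k := k.elim N.gN fun _ _ => 1
  riem k := by
    cases k with
    | none =>
      exact ⟨N.isOpen_ΩN, fun i j => (N.riem_gN.contDiffOn i j).mono (subset_univ _),
        fun x _ => N.riem_gN.posDef x (mem_univ _)⟩
    | some b => exact ⟨N.isOpen_ΩS b, fun i j => contDiffOn_const, fun x _ => Matrix.PosDef.one⟩
  cont k := by
    cases k with
    | none => exact N.continuous_FN.continuousOn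
    | some b => exact N.continuousOn_FS b
  locinj k a ha := by
    have hpi := Real.pi_pos
    have hV := N.haV
    have hW := N.haW
    cases k with
    | none =>
      refine injOn_of_lattice N.isOpen_ΩN (c₀ := 1) (c₁ := 2 * Real.pi * N.aW)
        (c₂ := 2 * Real.pi * N.aV) one_pos (by positivity) (by positivity) (fun z hz z' h => ?_) ha
      obtain ⟨m, n, h⟩ := N.FN_eq hz h
      exact ⟨0, m, n, by simpa using h⟩
    | some b =>
      have := N.hb_pos b
      have := N.aF_pos b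
      exact injOn_of_lattice (N.isOpen_ΩS b) (by positivity) (by positivity) (by positivity)
        (fun z _ z' h => N.FS_eq b h) ha
  trans k l a ha b hb h := by
    cases k with
    | none =>
      cases l with
      | none => exact N.isTrans_neck ha h
      | some c =>
        obtain ⟨h1, h2, n, rfl⟩ := N.FN_eq_FS c ha hb h
        exact N.isTrans_pol c h1 h2 n
    | some c =>
      cases l with
      | none =>
        obtain ⟨h1, h2, n, rfl⟩ := N.FN_eq_FS c hb ha h.symm
        exact (N.isTrans_pol c h1 h2 n).symm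
      | some c' =>
        by_cases hc : c = c'
        · subst hc
          exact N.isTrans_side c ha hb h
        · exact absurd h (N.FS_ne hc ha hb)

end NeckG

end

end Crest.Agent.R244
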