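import Crest.Agent.R244.NeckExAux

/-! Row 244: existence of the neck metric. -/

set_option autoImplicit false

open Set Filter
open scoped ContDiff Topology

namespace Crest.Agent.R244

open Crest.GeometryTopology.CoordMetric Crest.GeometryTopology.ChartCurvature
  Crest.GeometryTopology.Geodesic

/-- a convenient sufficient condition for the Riccati inequality at one point. -/
theorem iv_of_bounds {A C D A1 C1 D1 A2 C2 D2 r : ℝ} (hA0 : 0 ≤ A) (hA : A ≤ 2) (hD0 : 0 ≤ D)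
    (hD : D ≤ 2) (hC : |C| ≤ 1 / 2) (hΔ : 1 / 2 ≤ A * D - C ^ 2) (hD1 : 0 ≤ D1)
    (h1 : 100 * (A1 ^ 2 + C1 ^ 2) + |C2| ≤ A2) (h2 : 100 * (C1 ^ 2 + D1 ^ 2) + |C2| ≤ D2)
    (hP : A1 + 2 * C1 * r + D1 * r ^ 2 ≤ 0) :
    A * (C1 + D1 * r) ^ 2 - C * (A1 + C1 * r) * (C1 + D1 * r)
      - D * r * (A1 + C1 * r) * (C1 + D1 * r) + C * r * (C1 + D1 * r) ^ 2
      + D * (A1 + 2 * C1 * r + D1 * r ^ 2) ^ 2 / 4 ≤
    (A * D - C ^ 2) * (A2 + 2 * C2 * r + D2 * r ^ 2) / 2 := by
  set u := A1 + C1 * r with hu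
  set v := C1 + D1 * r with hv
  set w := r * v with hw
  set S := A1 ^ 2 + C1 ^ 2 + (C1 ^ 2 + D1 ^ 2) * r ^ 2 with hS
  have q1 := sq_nonneg A1
  have q2 := sq_nonneg C1
  have q3 := sq_nonneg (C1 * r)
  have q4 := sq_nonneg (D1 * r)
  have hS' : S = A1 ^ 2 + C1 ^ 2 + (C1 * r) ^ 2 + (D1 * r) ^ 2 := by rw [hS]; ring
  have hS0 : 0 ≤ S := by linarith
  have hu2 : u ^ 2 ≤ 2 * S := by rw [hS', hu]; nlinarith [sq_nonneg (A1 - C1 * r)]
  have hv2 : v ^ 2 ≤ 2 * S := by rw [hS', hv]; nlinarith [sq_nonneg (C1 - D1 * r)]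
  have huw : A1 + 2 * C1 * r + D1 * r ^ 2 = u + w := by rw [hu, hw, hv]; ring
  have hw1 : C1 * r ≤ w := by
    have : 0 ≤ D1 * r ^ 2 := by positivity
    rw [hw, hv]; nlinarith
  have hw2 : w ^ 2 ≤ 2 * S := by
    rw [huw] at hP
    rcases le_total 0 w with h | h
    · nlinarith
    · nlinarith
  have huw2 : (u + w) ^ 2 ≤ 8 * S := by nlinarith [sq_nonneg (u - w)]
  have huv : |u * v| ≤ 2 * S := by
    rw [abs_le]; constructor <;> nlinarith [sq_nonneg (u - v), sq_nonneg (u + v)]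
  have hwv : |w * v| ≤ 2 * S := by
    rw [abs_le]; constructor <;> nlinarith [sq_nonneg (w - v), sq_nonneg (w + v)]
  have huw' : -(2 * S) ≤ u * w := by nlinarith [sq_nonneg (u + w)]
  have t1 : A * v ^ 2 ≤ 2 * (2 * S) := mul_le_mul hA hv2 (sq_nonneg _) (by norm_num)
  have t2 : |C * (u * v)| ≤ 1 / 2 * (2 * S) := by
    rw [abs_mul]; exact mul_le_mul hC huv (abs_nonneg _) (by norm_num)
  have t3 : -(D * (u * w)) ≤ 2 * (2 * S) := by nlinarith
  have t4 : |C * (w * v)| ≤ 1 / 2 * (2 * S) := by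
    rw [abs_mul]; exact mul_le_mul hC hwv (abs_nonneg _) (by norm_num)
  have t5 : D * (u + w) ^ 2 ≤ 2 * (8 * S) := mul_le_mul hD huw2 (sq_nonneg _) (by norm_num)
  have hR : 100 * S ≤ A2 + 2 * C2 * r + D2 * r ^ 2 := by
    have b1 := mul_le_mul_of_nonneg_right h2 (sq_nonneg r)
    have b2 : -(|C2| * (1 + r ^ 2)) ≤ 2 * C2 * r := by
      rcases abs_cases C2 with h | h
      · rw [h.1]; nlinarith [mul_nonneg h.2 (sq_nonneg (r + 1))]
      · rw [h.1]; nlinarith [mul_nonneg (neg_pos.2 h.2).le (sq_nonneg (r - 1))]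
    rw [hS]; nlinarith
  have hR' : 1 / 2 * (100 * S) ≤ (A * D - C ^ 2) * (A2 + 2 * C2 * r + D2 * r ^ 2) :=
    mul_le_mul hΔ hR (by positivity) (by linarith)
  rw [huw]
  have e : A * v ^ 2 - C * u * v - D * r * u * v + C * r * v ^ 2 + D * (u + w) ^ 2 / 4
      = A * v ^ 2 - C * (u * v) - D * (u * w) + C * (w * v) + D * (u + w) ^ 2 / 4 := by
    rw [hw]; ring
  rw [e]
  linarith [(abs_le.1 t2).1, (abs_le.1 t4).2]

theorem neckEx_iv {A C D : ℝ → ℝ}
    (mid : ∀ t, -1 ≤ t → t ≤ 1 → 0 ≤ A t ∧ A t ≤ 2 ∧ 0 ≤ D t ∧ D t ≤ 2 ∧ |C t| ≤ 1 / 2 ∧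
      1 / 2 ≤ A t * D t - C t ^ 2 ∧ 0 ≤ deriv D t ∧
      100 * (deriv A t ^ 2 + deriv C t ^ 2) + |deriv (deriv C) t| ≤ deriv (deriv A) t ∧
      100 * (deriv C t ^ 2 + deriv D t ^ 2) + |deriv (deriv C) t| ≤ deriv (deriv D) t)
    (left : ∀ t, t ≤ -1 → deriv C t = 0 ∧ deriv (deriv C) t = 0 ∧ deriv D t = 0 ∧
      deriv (deriv D) t = 0 ∧
      D t * deriv A t ^ 2 ≤ 2 * (A t * D t - C t ^ 2) * deriv (deriv A) t)
    (right : ∀ t, 1 ≤ t → deriv A t = 0 ∧ deriv C t = 0 ∧ deriv (deriv A) t = 0 ∧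
      0 < deriv D t) : IV A C D := by
  intro t r hP
  rcases le_total t (-1) with ht | ht
  · obtain ⟨h1, h2, h3, h4, h5⟩ := left t ht
    rw [h1, h2, h3, h4]
    nlinarith
  rcases le_total 1 t with ht' | ht'
  · obtain ⟨h1, h2, h3, h4⟩ := right t ht'
    rw [h1, h2] at hP
    have hr : r = 0 := by
      by_contra hr
      have : 0 < deriv D t * r ^ 2 := by positivity
      linarith
    rw [h1, h2, h3, hr]
    simp
  · obtain ⟨h1, h2, h3, h4, h5, h6, h7, h8, h9⟩ := mid t ht ht'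
    exact iv_of_bounds h1 h2 h3 h4 h5 h6 h7 h8 h9 hP

/-- the estimate for the square of a profile -/
theorem neckEx_est {f x y : ℝ} (h0 : 3 / 4 ≤ f) (h1 : f ≤ 101 / 100) (hy : 0 ≤ y)
    (hxy : x ^ 2 ≤ 4 * y) :
    100 * (2 * f * (1 / 10000 * x)) ^ 2 ≤ 1 / 4 * (1 / 10000 * y) ∧
      3 / 2 * (1 / 10000 * y) ≤ 2 * ((1 / 10000 * x) ^ 2 + f * (1 / 10000 * y)) := by
  constructor
  · have : f ^ 2 * x ^ 2 ≤ (101 / 100) ^ 2 * (4 * y) := by gcongr
    nlinarith
  · nlinarith [sq_nonneg x, mul_le_mul_of_nonneg_right h0 hy]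

theorem exists_neck : Nonempty NeckG := by
  obtain ⟨h, h1, β, m, c0, c1, P⟩ := neckEx_prof
  obtain ⟨δ, hδ⟩ : ∃ δ : ℝ, δ = 1 / 10000 := ⟨_, rfl⟩
  have hδ0 : 0 < δ := by norm_num [hδ]
  -- the shape of the off-diagonal term
  set c : ℝ → ℝ := fun t => -(Real.smoothTransition (t + 1 / 2) * (1 + δ * h (-t)) ^ 2) with hc
  have hneg : ContDiff ℝ ∞ fun t => h (-t) := P.smooth.comp contDiff_neg
  have hcs : ContDiff ℝ ∞ c :=
    ((Real.smoothTransition.contDiff.comp (contDiff_id.add contDiff_const)).mul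
      ((contDiff_const.add (contDiff_const.mul hneg)).pow 2)).neg
  have hcs1 : ContDiff ℝ ∞ (deriv c) := (contDiff_infty_iff_deriv.1 hcs).2
  have hcs2 : ContDiff ℝ ∞ (deriv (deriv c)) := (contDiff_infty_iff_deriv.1 hcs1).2
  obtain ⟨K, hK⟩ := (isCompact_Icc (a := (-1 : ℝ)) (b := 1)).exists_bound_of_continuousOn
    (f := fun t => 100 * deriv c t ^ 2 + |deriv (deriv c) t|)
    (((hcs1.continuous.pow 2).const_mul 100).add hcs2.continuous.abs).continuousOn
  have hK0 : 0 ≤ K := (norm_nonneg _).trans (hK 0 (by norm_num))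
  have hm := P.mpos
  have hc1 := P.c1pos
  obtain ⟨ε, hε0, hε1, hεK⟩ : ∃ ε : ℝ, 0 < ε ∧ ε ≤ 1 / 4 ∧ ε * K ≤ δ * m := by
    refine ⟨min (1 / 4) (δ * m / (K + 1)), by positivity, min_le_left _ _, ?_⟩
    calc min (1 / 4) (δ * m / (K + 1)) * K ≤ δ * m / (K + 1) * (K + 1) :=
          mul_le_mul (min_le_right _ _) (by linarith) hK0 (by positivity)
      _ = δ * m := by field_simp
  obtain ⟨b, hb2, hb0⟩ : ∃ b : ℝ, b ^ 2 = 1 - ε ^ 2 ∧ 3 / 4 ≤ b :=
    ⟨Real.sqrt (1 - ε ^ 2), Real.sq_sqrt (by nlinarith), Real.le_sqrt_of_sq_le (by nlinarith)⟩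
  have hb1 : b ≤ 1 := by nlinarith
  obtain ⟨Λ, hΛ⟩ : ∃ Λ : ℝ, Λ = δ * (1 / ε - 1) := ⟨_, rfl⟩
  have hΛ0 : 0 ≤ Λ := by
    have : 1 ≤ 1 / ε := by rw [le_div_iff₀ hε0]; linarith
    rw [hΛ]
    exact mul_nonneg hδ0.le (by linarith)
  set f : ℝ → ℝ := fun t => 1 + δ * h (-t) + Λ * h (-t - 4) with hf
  set f1 : ℝ → ℝ := fun t => -(δ * h1 (-t) + Λ * h1 (-t - 4)) with hf1
  set f2 : ℝ → ℝ := fun t => δ * β (-t) + Λ * β (-t - 4) with hf2
  set g : ℝ → ℝ := fun t => b + δ * h t with hg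
  have df : ∀ t, HasDerivAt f (f1 t) t := fun t => by
    have a1 := ((P.d1 (-t)).comp t (hasDerivAt_neg t)).const_mul δ
    have a2 := ((P.d1 (-t - 4)).comp t ((hasDerivAt_neg t).sub_const 4)).const_mul Λ
    have := (a1.const_add 1).add a2
    refine this.congr_deriv ?_
    simp only [hf1]; ring
  have df1 : ∀ t, HasDerivAt f1 (f2 t) t := fun t => by
    have a1 := ((P.d2 (-t)).comp t (hasDerivAt_neg t)).const_mul δ
    have a2 := ((P.d2 (-t - 4)).comp t ((hasDerivAt_neg t).sub_const 4)).const_mul Λ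
    have := (a1.add a2).neg
    refine this.congr_deriv ?_
    simp only [hf2]; ring
  have dg : ∀ t, HasDerivAt g (δ * h1 t) t := fun t => ((P.d1 t).const_mul δ).const_add b
  have dg1 : ∀ t, HasDerivAt (fun t => δ * h1 t) (δ * β t) t := fun t => (P.d2 t).const_mul δ
  set A : ℝ → ℝ := fun t => 0 + f t ^ 2 with hA
  set D : ℝ → ℝ := fun t => ε ^ 2 + g t ^ 2 with hD
  set C : ℝ → ℝ := fun t => ε * c t with hC
  obtain ⟨A1, A2⟩ := neckEx_sq 0 df df1
  obtain ⟨D1, D2⟩ := neckEx_sq (ε ^ 2) dg dg1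
  rw [← hA] at A1 A2
  rw [← hD] at D1 D2
  replace A1 : ∀ t, deriv A t = 2 * f t * f1 t := congrFun A1
  replace A2 : ∀ t, deriv (deriv A) t = 2 * (f1 t ^ 2 + f t * f2 t) := congrFun A2
  replace D1 : ∀ t, deriv D t = 2 * g t * (δ * h1 t) := congrFun D1
  replace D2 : ∀ t, deriv (deriv D) t = 2 * ((δ * h1 t) ^ 2 + g t * (δ * β t)) := congrFun D2
  have A0 : ∀ t, A t = f t ^ 2 := fun t => zero_add _
  have hf_ge : ∀ t, 1 ≤ f t := fun t => by
    have := mul_nonneg hδ0.le (P.nn (-t)).1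
    have := mul_nonneg hΛ0 (P.nn (-t - 4)).1
    simp only [hf]; linarith
  have hg_ge : ∀ t, b ≤ g t := fun t => le_add_of_nonneg_right (mul_nonneg hδ0.le (P.nn t).1)
  have hf2_nn : ∀ t, 0 ≤ f2 t := fun t =>
    add_nonneg (mul_nonneg hδ0.le (P.nn _).2.2) (mul_nonneg hΛ0 (P.nn _).2.2)
  have hfm : ∀ t, -3 ≤ t → f t = 1 + δ * h (-t) ∧ f1 t = -(δ * h1 (-t)) ∧ f2 t = δ * β (-t) :=
    fun t ht => by
      obtain ⟨a1, a2, a3⟩ := P.zero (-t - 4) (by linarith)
      simp only [hf, hf1, hf2, a1, a2, a3, mul_zero, add_zero, and_self]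
  have hfr : ∀ t, 1 ≤ t → f t = 1 ∧ f1 t = 0 ∧ f2 t = 0 := fun t ht => by
    obtain ⟨a1, a2, a3⟩ := P.zero (-t) (by linarith)
    obtain ⟨b1, b2, b3⟩ := hfm t (by linarith)
    rw [b1, b2, b3, a1, a2, a3]
    simp
  have hf_le : ∀ t, -1 ≤ t → f t ≤ 101 / 100 := fun t ht => by
    rw [(hfm t (by linarith)).1, hδ]
    linarith [(P.mid (-t) (by linarith)).1]
  have hg_le : ∀ t, t ≤ 1 → g t ≤ 101 / 100 := fun t ht => by
    simp only [hg, hδ]
    linarith [(P.mid t ht).1]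
  have hD_ge : ∀ t, 1 ≤ D t := fun t => by
    have := hg_ge t
    simp only [hD]; nlinarith
  have hDl : ∀ t, t ≤ -1 → D t = 1 := fun t ht => by
    simp only [hD, hg, (P.zero t ht).1, mul_zero, add_zero, hb2]; ring
  have hCL : ∀ t, t ≤ -1 / 2 → C t = 0 := fun t ht => by
    simp only [hC, hc, Real.smoothTransition.zero_of_nonpos (show t + 1 / 2 ≤ 0 by linarith),
      zero_mul, neg_zero, mul_zero]
  have hCR : ∀ t, 1 / 2 ≤ t → C t = -ε * A t := fun t ht => by
    rw [A0, (hfm t (by linarith)).1]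
    simp only [hC, hc, Real.smoothTransition.one_of_one_le (show 1 ≤ t + 1 / 2 by linarith)]
    ring
  have hCabs : ∀ t, |C t| ≤ 1 / 2 := fun t => by
    rcases le_total t (-1 / 2) with ht | ht
    · rw [hCL t ht]; norm_num
    · have a1 := hf_le t (by linarith)
      have a2 := hf_ge t
      rw [(hfm t (by linarith)).1] at a1 a2
      have a3 := Real.smoothTransition.le_one (t + 1 / 2)
      have a4 := Real.smoothTransition.nonneg (t + 1 / 2)
      simp only [hC, hc]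
      rw [abs_mul, abs_neg, abs_of_pos hε0, abs_of_nonneg (by positivity)]
      calc ε * (Real.smoothTransition (t + 1 / 2) * (1 + δ * h (-t)) ^ 2)
          ≤ 1 / 4 * (1 * (101 / 100) ^ 2) := by gcongr
        _ ≤ 1 / 2 := by norm_num
  have hA_ge : ∀ t, 1 ≤ A t := fun t => by rw [A0]; nlinarith [hf_ge t]
  have hΔ : ∀ t, 1 / 2 ≤ A t * D t - C t ^ 2 := fun t => by
    have a1 := abs_le.1 (hCabs t)
    nlinarith [hA_ge t, hD_ge t]
  have dCL : ∀ t, t < -1 / 2 → deriv C t = 0 ∧ deriv (deriv C) t = 0 := fun t ht => by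
    have := neckEx_local (f := C) (g := A) (t := t) 0 (by
      filter_upwards [Iio_mem_nhds ht] with s hs
      rw [hCL s (le_of_lt hs), zero_mul])
    simpa using this
  have dCR : ∀ t, 1 / 2 < t → deriv C t = -ε * deriv A t ∧
      deriv (deriv C) t = -ε * deriv (deriv A) t := fun t ht =>
    neckEx_local (-ε) (by
      filter_upwards [Ioi_mem_nhds ht] with s hs
      exact hCR s (le_of_lt hs))
  have dCM : ∀ t, -1 ≤ t → t ≤ 1 → 100 * deriv C t ^ 2 + |deriv (deriv C) t| ≤ δ * m :=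
    fun t ht ht' => by
      obtain ⟨a1, a2⟩ := neckEx_local (f := C) (g := c) (t := t) ε (Eventually.of_forall fun _ => rfl)
      have a3 := (le_abs_self _).trans (hK t ⟨ht, ht'⟩)
      rw [a1, a2, abs_mul, abs_of_pos hε0]
      have a4 := mul_le_mul_of_nonneg_left a3 hε0.le
      have a5 : ε * ε * deriv c t ^ 2 ≤ ε * deriv c t ^ 2 :=
        mul_le_mul_of_nonneg_right (by nlinarith) (sq_nonneg _)
      nlinarith
  have dA_neg : ∀ t, t < 1 → deriv A t < 0 := fun t ht => by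
    rw [A1]
    have a1 := mul_pos hδ0 (P.pos (-t) (by linarith))
    have a2 := mul_nonneg hΛ0 (P.nn (-t - 4)).2.1
    have a3 : f1 t < 0 := by simp only [hf1]; linarith
    exact mul_neg_of_pos_of_neg (by linarith [hf_ge t]) a3
  have dA_zero : ∀ t, 1 ≤ t → deriv A t = 0 := fun t ht => by rw [A1, (hfr t ht).2.1, mul_zero]
  have dD_pos : ∀ t, -1 < t → 0 < deriv D t := fun t ht => by
    rw [D1]
    exact mul_pos (by linarith [hg_ge t]) (mul_pos hδ0 (P.pos t ht))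
  have dD_zero : ∀ t, t ≤ -1 → deriv D t = 0 := fun t ht => by
    rw [D1, (P.zero t ht).2.1, mul_zero, mul_zero]
  have ddA_zero : ∀ t, 1 ≤ t → deriv (deriv A) t = 0 := fun t ht => by
    rw [A2, (hfr t ht).2.1, (hfr t ht).2.2]; ring
  have ddD_zero : ∀ t, t ≤ -1 → deriv (deriv D) t = 0 := fun t ht => by
    rw [D2, (P.zero t ht).2.1, (P.zero t ht).2.2]; ring
  have mA : ∀ t, -1 ≤ t → t ≤ 1 →
      100 * (deriv A t ^ 2 + deriv C t ^ 2) + |deriv (deriv C) t| ≤ deriv (deriv A) t := by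
    intro t ht ht'
    obtain ⟨a1, a2⟩ := neckEx_est (f := f t) (by linarith [hf_ge t]) (hf_le t ht) (P.nn (-t)).2.2
      (P.mid (-t) (by linarith)).2
    rw [← hδ] at a1 a2
    have a3 : 100 * deriv A t ^ 2 ≤ 1 / 4 * (δ * β (-t)) := by
      rw [A1, (hfm t (by linarith)).2.1]
      refine le_trans (le_of_eq ?_) a1
      ring
    have a4 : 3 / 2 * (δ * β (-t)) ≤ deriv (deriv A) t := by
      rw [A2, (hfm t (by linarith)).2.1, (hfm t (by linarith)).2.2, neg_sq]
      exact a2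
    have a5 : 0 ≤ δ * β (-t) := mul_nonneg hδ0.le (P.nn _).2.2
    rcases le_or_gt t (1 / 2) with h2 | h2
    · have a6 := mul_le_mul_of_nonneg_left (P.low (-t) (by linarith) (by linarith)) hδ0.le
      linarith [dCM t ht ht']
    · obtain ⟨b1, b2⟩ := dCR t h2
      rw [b1, b2, abs_mul, abs_neg, abs_of_pos hε0, abs_of_nonneg (by linarith)]
      have b3 : (-ε * deriv A t) ^ 2 ≤ deriv A t ^ 2 := by
        rw [mul_pow]
        exact mul_le_of_le_one_left (sq_nonneg _) (by nlinarith)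
      have b4 : ε * deriv (deriv A) t ≤ 1 / 4 * deriv (deriv A) t :=
        mul_le_mul_of_nonneg_right hε1 (by linarith)
      linarith
  have mD : ∀ t, -1 ≤ t → t ≤ 1 →
      100 * (deriv C t ^ 2 + deriv D t ^ 2) + |deriv (deriv C) t| ≤ deriv (deriv D) t := by
    intro t ht ht'
    obtain ⟨a1, a2⟩ := neckEx_est (f := g t) (by linarith [hg_ge t]) (hg_le t ht') (P.nn t).2.2
      (P.mid t ht').2
    rw [← hδ] at a1 a2
    rw [← D1] at a1
    rw [← D2] at a2
    have a5 : 0 ≤ δ * β t := mul_nonneg hδ0.le (P.nn _).2.2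
    rcases le_or_gt (-1 / 2) t with h2 | h2
    · have a6 := mul_le_mul_of_nonneg_left (P.low t h2 ht') hδ0.le
      linarith [dCM t ht ht']
    · obtain ⟨b1, b2⟩ := dCL t h2
      rw [b1, b2, abs_zero]
      linarith
  have bA : ∀ t, -1 ≤ t → A t ≤ 2 := fun t ht => by
    rw [A0]; nlinarith [hf_ge t, hf_le t ht]
  have bD : ∀ t, t ≤ 1 → D t ≤ 2 := fun t ht => by
    simp only [hD]; nlinarith [hg_ge t, hg_le t ht]
  have dD_nn : ∀ t, 0 ≤ deriv D t := fun t => by
    rcases le_or_gt t (-1) with h2 | h2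
    · exact (dD_zero t h2).ge
    · exact (dD_pos t h2).le
  have dA_np : ∀ t, deriv A t ≤ 0 := fun t => by
    rcases le_or_gt 1 t with h2 | h2
    · exact (dA_zero t h2).le
    · exact (dA_neg t h2).le
  have ivL : IV A C D := by
    refine neckEx_iv (fun t ht ht' => ⟨by linarith [hA_ge t], bA t ht, by linarith [hD_ge t],
      bD t ht', hCabs t, hΔ t, dD_nn t, mA t ht ht', mD t ht ht'⟩) (fun t ht => ?_) fun t ht => ?_
    · refine ⟨(dCL t (by linarith)).1, (dCL t (by linarith)).2, dD_zero t ht, ddD_zero t ht, ?_⟩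
      rw [hDl t ht, hCL t (by linarith), A0, A1, A2]
      have : 0 ≤ f t ^ 2 * (f t * f2 t) :=
        mul_nonneg (sq_nonneg _) (mul_nonneg (by linarith [hf_ge t]) (hf2_nn t))
      nlinarith
    · exact ⟨dA_zero t ht, by rw [(dCR t (by linarith)).1, dA_zero t ht, mul_zero], ddA_zero t ht,
        dD_pos t (by linarith)⟩
  have ivR : IV (fun t => D (-t)) (fun t => C (-t)) (fun t => A (-t)) := by
    refine neckEx_iv (fun t ht ht' => ?_) (fun t ht => ?_) fun t ht => ?_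
    · simp only [(neckEx_neg _ t).1, (neckEx_neg _ t).2, neg_sq]
      refine ⟨by linarith [hD_ge (-t)], bD _ (by linarith), by linarith [hA_ge (-t)],
        bA _ (by linarith), hCabs _, by rw [mul_comm]; exact hΔ _, neg_nonneg.2 (dA_np _), ?_, ?_⟩
      · rw [add_comm (deriv D (-t) ^ 2)]; exact mD _ (by linarith) (by linarith)
      · rw [add_comm (deriv C (-t) ^ 2)]; exact mA _ (by linarith) (by linarith)
    · simp only [(neckEx_neg _ t).1, (neckEx_neg _ t).2, neg_sq]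
      have ht' : 1 ≤ -t := by linarith
      refine ⟨by rw [(dCR _ (by linarith)).1, dA_zero _ ht', mul_zero, neg_zero],
        by rw [(dCR _ (by linarith)).2, ddA_zero _ ht', mul_zero], by rw [dA_zero _ ht', neg_zero],
        ddA_zero _ ht', ?_⟩
      rw [hCR _ (by linarith), A0, (hfr _ ht').1, D1, D2]
      have : 0 ≤ g (-t) ^ 2 * (g (-t) * (δ * β (-t))) :=
        mul_nonneg (sq_nonneg _) (mul_nonneg (by linarith [hg_ge (-t)])
          (mul_nonneg hδ0.le (P.nn _).2.2))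
      simp only [hD]
      nlinarith
    · simp only [(neckEx_neg _ t).1, (neckEx_neg _ t).2]
      have ht' : -t ≤ -1 := by linarith
      exact ⟨by rw [dD_zero _ ht', neg_zero], by rw [(dCL _ (by linarith)).1, neg_zero],
        ddD_zero _ ht', neg_pos.2 (dA_neg _ (by linarith))⟩
  have hsum : δ + Λ = δ / ε := by rw [hΛ]; ring
  have hs0 : 0 < δ + Λ := by linarith
  have hfL : ∀ t, t ≤ -7 → f t = ((1 + δ * c0 + Λ * (c0 - 4 * c1)) / ((δ + Λ) * c1) - t)
      / (1 / ((δ + Λ) * c1)) := fun t ht => by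
    simp only [hf]
    rw [P.far (-t) (by linarith), P.far (-t - 4) (by linarith)]
    field_simp
    ring
  have hgR : ∀ t, 7 ≤ t → g t = ((b + δ * c0) / (δ * c1) + t) / (1 / (δ * c1)) := fun t ht => by
    simp only [hg]
    rw [P.far t (by linarith)]
    field_simp
    ring
  have hrat : 1 / ((δ + Λ) * c1) / (1 / (δ * c1)) = ε := by
    rw [hsum]; field_simp
  refine ⟨{ A := A, C := C, D := D, eL := 0, eR := -ε
            hA := ?_, hC := contDiff_const.mul hcs, hD := ?_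
            posA := fun t => by linarith [hA_ge t], posD := fun t => by linarith [hD_ge t]
            posDet := fun t => by linarith [hΔ t]
            dA_neg := dA_neg, dA_zero := dA_zero, dD_pos := dD_pos, dD_zero := dD_zero
            CL := fun t ht => by rw [hCL t ht, zero_mul], CR := hCR, ivL := ivL, ivR := ivR
            T := 8, aV := 1 / (δ * c1), aW := 1 / ((δ + Λ) * c1)
            rL := (1 + δ * c0 + Λ * (c0 - 4 * c1)) / ((δ + Λ) * c1), rR := (b + δ * c0) / (δ * c1)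
            hT := by norm_num, haV := by positivity, haW := by positivity
            hrL := ?_, hrR := ?_, farL := fun t ht => ?_, farR := fun t ht => ?_ }⟩
  · exact contDiff_const.add (((contDiff_const.add (contDiff_const.mul hneg)).add
      (contDiff_const.mul (P.smooth.comp (contDiff_neg.sub contDiff_const)))).pow 2)
  · exact contDiff_const.add ((contDiff_const.add (contDiff_const.mul P.smooth)).pow 2)
  · have a1 : 0 < f (-7) := by linarith [hf_ge (-7)]
    rw [hfL (-7) le_rfl, div_pos_iff_of_pos_right (by positivity)] at a1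
    linarith
  · have a1 : 0 < g 7 := by linarith [hg_ge 7]
    rw [hgR 7 le_rfl, div_pos_iff_of_pos_right (by positivity)] at a1
    linarith
  · exact ⟨by rw [A0, hfL t (by linarith)], hCL t (by linarith), hDl t (by linarith)⟩
  · have a1 : A t = 1 := by rw [A0, (hfr t (by linarith)).1, one_pow]
    refine ⟨a1, by rw [hCR t (by linarith), a1, hrat, mul_one], ?_⟩
    rw [hrat, ← hgR t (by linarith)]

end Crest.Agent.R244
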