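import Crest.Agent.R244.Defs

/-! Row 244: the convex profile used for the neck metric. -/

set_option autoImplicit false

open Set Filter
open scoped ContDiff Topology

namespace Crest.Agent.R244

/-- a convex profile vanishing on the left and affine on the right -/
structure NeckProf (h h1 β : ℝ → ℝ) (m c0 c1 : ℝ) : Prop where
  smooth : ContDiff ℝ ∞ h
  d1 : ∀ t, HasDerivAt h (h1 t) t
  d2 : ∀ t, HasDerivAt h1 (β t) t
  zero : ∀ t, t ≤ -1 → h t = 0 ∧ h1 t = 0 ∧ β t = 0
  pos : ∀ t, -1 < t → 0 < h1 t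
  nn : ∀ t, 0 ≤ h t ∧ 0 ≤ h1 t ∧ 0 ≤ β t
  mid : ∀ t, t ≤ 1 → h t ≤ 4 ∧ h1 t ^ 2 ≤ 4 * β t
  mpos : 0 < m
  low : ∀ t, -1 / 2 ≤ t → t ≤ 1 → m ≤ β t
  c1pos : 0 < c1
  far : ∀ t, 3 ≤ t → h t = c0 + c1 * t

theorem neckEx_prim {β : ℝ → ℝ} (hβ : ContDiff ℝ ∞ β) (hz : ∀ t, t ≤ -1 → β t = 0)
    (hn : ∀ t, 0 ≤ β t) :
    ∃ h : ℝ → ℝ, ContDiff ℝ ∞ h ∧ (∀ t, HasDerivAt h (β t) t) ∧ (∀ t, t ≤ -1 → h t = 0) ∧
      Monotone h ∧ (∀ t, 0 ≤ h t) ∧ ∀ s t, h t - h s = ∫ x in s..t, β x := by
  have hd : ∀ t, HasDerivAt (fun u => ∫ x in (-1 : ℝ)..u, β x) (β t) t := fun t =>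
    (hβ.continuous.integral_hasStrictDerivAt (-1) t).hasDerivAt
  have hdiff : Differentiable ℝ fun u => ∫ x in (-1 : ℝ)..u, β x := fun t =>
    (hd t).differentiableAt
  have hder : deriv (fun u => ∫ x in (-1 : ℝ)..u, β x) = β := funext fun t => (hd t).deriv
  have hmono : Monotone fun u => ∫ x in (-1 : ℝ)..u, β x :=
    monotone_of_deriv_nonneg hdiff fun t => by rw [hder]; exact hn t
  have hzero : ∀ t, t ≤ -1 → ∫ x in (-1 : ℝ)..t, β x = 0 := fun t ht => by
    rw [intervalIntegral.integral_congr (g := fun _ => 0) fun x hx => hz x ?_]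
    · simp
    · rw [uIcc_of_ge ht] at hx
      exact hx.2
  refine ⟨_, contDiff_infty_iff_deriv.2 ⟨hdiff, by rw [hder]; exact hβ⟩, hd, hzero, hmono,
    fun t => ?_, fun s t => ?_⟩
  · rcases le_total t (-1) with ht | ht
    · exact (hzero t ht).ge
    · exact (hzero (-1) le_rfl).ge.trans (hmono ht)
  · exact intervalIntegral.integral_interval_sub_left (hβ.continuous.intervalIntegrable _ _)
      (hβ.continuous.intervalIntegrable _ _)

theorem neckEx_prof : ∃ (h h1 β : ℝ → ℝ) (m c0 c1 : ℝ), NeckProf h h1 β m c0 c1 := by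
  set β : ℝ → ℝ := fun t => Real.smoothTransition (t + 1) * Real.smoothTransition (3 - t) with hβ
  have hs : ContDiff ℝ ∞ β :=
    (Real.smoothTransition.contDiff.comp (contDiff_id.add contDiff_const)).mul
      (Real.smoothTransition.contDiff.comp (contDiff_const.sub contDiff_id))
  have hz : ∀ t, t ≤ -1 → β t = 0 := fun t ht => by
    simp only [hβ, Real.smoothTransition.zero_of_nonpos (show t + 1 ≤ 0 by linarith), zero_mul]
  have hz' : ∀ t, 3 ≤ t → β t = 0 := fun t ht => by
    simp only [hβ, Real.smoothTransition.zero_of_nonpos (show 3 - t ≤ 0 by linarith), mul_zero]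
  have hn : ∀ t, 0 ≤ β t := fun t =>
    mul_nonneg (Real.smoothTransition.nonneg _) (Real.smoothTransition.nonneg _)
  have he : ∀ t, t ≤ 1 → β t = Real.smoothTransition (t + 1) := fun t ht => by
    simp only [hβ, Real.smoothTransition.one_of_one_le (show 1 ≤ 3 - t by linarith), mul_one]
  obtain ⟨h1, s1, d1, z1, m1, n1, i1⟩ := neckEx_prim hs hz hn
  obtain ⟨h, s0, d0, z0, m0, n0, i0⟩ := neckEx_prim s1 z1 n1
  have hpos : ∀ t, -1 < t → 0 < h1 t := fun t ht => by
    have a1 : -1 < min t 1 := lt_min ht (by norm_num)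
    have a2 := i1 (-1) (min t 1)
    rw [z1 (-1) le_rfl, sub_zero] at a2
    refine lt_of_lt_of_le ?_ (m1 (min_le_left t 1))
    rw [a2]
    refine intervalIntegral.intervalIntegral_pos_of_pos_on (hs.continuous.intervalIntegrable _ _)
      (fun x hx => ?_) a1
    rw [he x (hx.2.le.trans (min_le_right _ _))]
    exact Real.smoothTransition.pos_of_pos (by linarith [hx.1])
  have hle : ∀ t, t ≤ 1 → h1 t ≤ 2 * β t := fun t ht => by
    rcases le_total t (-1) with ht' | ht'
    · rw [z1 t ht', hz t ht', mul_zero]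
    · have a2 := i1 (-1) t
      rw [z1 (-1) le_rfl, sub_zero] at a2
      rw [a2]
      calc ∫ x in (-1 : ℝ)..t, β x ≤ ∫ _ in (-1 : ℝ)..t, β t := by
            refine intervalIntegral.integral_mono_on ht' (hs.continuous.intervalIntegrable _ _)
              (continuous_const.intervalIntegrable _ _) fun x hx => ?_
            rw [he x (hx.2.trans ht), he t ht]
            exact Real.smoothTransition.monotone (by linarith [hx.2])
        _ = (t + 1) * β t := by simp
        _ ≤ 2 * β t := mul_le_mul_of_nonneg_right (by linarith) (hn t)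
  have hb1 : ∀ t, t ≤ 1 → β t ≤ 1 := fun t ht => by
    rw [he t ht]; exact Real.smoothTransition.le_one _
  have hc : ∀ t, 3 ≤ t → h1 t = h1 3 := fun t ht => by
    have a2 := i1 3 t
    rw [intervalIntegral.integral_congr (g := fun _ => 0) fun x hx => hz' x ?_] at a2
    · simpa [sub_eq_zero] using a2
    · rw [uIcc_of_le ht] at hx
      exact hx.1
  refine ⟨h, h1, β, Real.smoothTransition (1 / 2), h 3 - h1 3 * 3, h1 3, s0, d0, d1,
    fun t ht => ⟨z0 t ht, z1 t ht, hz t ht⟩, hpos, fun t => ⟨n0 t, n1 t, hn t⟩, fun t ht => ⟨?_, ?_⟩,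
    Real.smoothTransition.pos_of_pos (by norm_num), fun t h1 h2 => ?_, hpos 3 (by norm_num),
    fun t ht => ?_⟩
  · refine (m0 ht).trans ?_
    have a2 := i0 (-1) 1
    rw [z0 (-1) le_rfl, sub_zero] at a2
    rw [a2]
    calc ∫ x in (-1 : ℝ)..1, h1 x ≤ ∫ _ in (-1 : ℝ)..1, (2 : ℝ) := by
          refine intervalIntegral.integral_mono_on (by norm_num)
            (s1.continuous.intervalIntegrable _ _) (continuous_const.intervalIntegrable _ _)
            fun x hx => ?_
          linarith [hle x hx.2, hb1 x hx.2]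
      _ = 4 := by norm_num
  · nlinarith [hle t ht, hb1 t ht, n1 t, hn t]
  · rw [he t h2]
    exact Real.smoothTransition.monotone (by linarith)
  · have a2 := i0 3 t
    rw [intervalIntegral.integral_congr (g := fun _ => h1 3) fun x hx => hc x ?_] at a2
    · simp only [intervalIntegral.integral_const, smul_eq_mul] at a2
      linarith
    · rw [uIcc_of_le ht] at hx
      exact hx.1

theorem neckEx_sq {f f1 f2 : ℝ → ℝ} (k : ℝ) (d1 : ∀ t, HasDerivAt f (f1 t) t)
    (d2 : ∀ t, HasDerivAt f1 (f2 t) t) :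
    (deriv (fun t => k + f t ^ 2) = fun t => 2 * f t * f1 t) ∧
      deriv (deriv fun t => k + f t ^ 2) = fun t => 2 * (f1 t ^ 2 + f t * f2 t) := by
  have e1 : deriv (fun t => k + f t ^ 2) = fun t => 2 * f t * f1 t := funext fun t => by
    have := (((d1 t).fun_pow 2).const_add k).deriv
    rw [this]
    simp
  refine ⟨e1, ?_⟩
  rw [e1]
  funext t
  have := (((d1 t).const_mul 2).fun_mul (d2 t)).deriv
  rw [this]
  ring

theorem neckEx_neg (f : ℝ → ℝ) (t : ℝ) :
    deriv (fun s => f (-s)) t = -deriv f (-t) ∧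
      deriv (deriv fun s => f (-s)) t = deriv (deriv f) (-t) := by
  refine ⟨deriv_comp_neg f t, ?_⟩
  have e : (deriv fun s => f (-s)) = fun s => -deriv f (-s) := funext fun s => deriv_comp_neg f s
  rw [e, deriv.fun_neg, deriv_comp_neg, neg_neg]

theorem neckEx_local {f g : ℝ → ℝ} {t : ℝ} (k : ℝ) (h : ∀ᶠ s in 𝓝 t, f s = k * g s) :
    deriv f t = k * deriv g t ∧ deriv (deriv f) t = k * deriv (deriv g) t := by
  have h' : f =ᶠ[𝓝 t] fun s => k * g s := h
  have e : (deriv fun s => k * g s) = fun s => k * deriv g s :=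
    funext fun s => deriv_const_mul_field k
  refine ⟨by rw [h'.deriv_eq, e], ?_⟩
  rw [h'.deriv.deriv_eq, e, deriv_const_mul_field]

end Crest.Agent.R244
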