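import Crest.Agent.R244.Defs

/-! Row 244: the Riccati subsolution in the neck. -/

set_option autoImplicit false

open Set Filter
open scoped ContDiff Topology

namespace Crest.Agent.R244

open Crest.GeometryTopology.CoordMetric Crest.GeometryTopology.ChartCurvature
  Crest.GeometryTopology.Geodesic

theorem neckM_max_right {k : ℝ → ℝ} {k' t : ℝ} (h : HasDerivAt k k' t) (h0 : k t = 0) :
    HasDerivWithinAt (fun s => max (k s) 0) (max k' 0) (Ici t) t := by
  apply HasDerivWithinAt.Ici_of_Ioi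
  have h1 := (hasDerivWithinAt_iff_tendsto_slope' (s := Ioi t) (by simp)).1 h.hasDerivWithinAt
  rw [hasDerivWithinAt_iff_tendsto_slope' (by simp)]
  refine (h1.max tendsto_const_nhds).congr' ?_
  filter_upwards [self_mem_nhdsWithin] with s hs
  have h2 : 0 < s - t := sub_pos.2 hs
  simp only [slope_def_field, h0, max_self, sub_zero]
  rw [← max_div_div_right h2.le, zero_div]

theorem neckM_max_left {k : ℝ → ℝ} {k' t : ℝ} (h : HasDerivAt k k' t) (h0 : k t = 0) :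
    HasDerivWithinAt (fun s => max (k s) 0) (min k' 0) (Iic t) t := by
  apply HasDerivWithinAt.Iic_of_Iio
  have h1 := (hasDerivWithinAt_iff_tendsto_slope' (s := Iio t) (by simp)).1 h.hasDerivWithinAt
  rw [hasDerivWithinAt_iff_tendsto_slope' (by simp)]
  refine (h1.min tendsto_const_nhds).congr' ?_
  filter_upwards [self_mem_nhdsWithin] with s hs
  have h2 : s - t < 0 := sub_neg.2 hs
  simp only [slope_def_field, h0, max_self, sub_zero]
  rw [← min_div_div_right_of_nonpos h2.le, zero_div]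

theorem neckM_max {k : ℝ → ℝ} {k' t c : ℝ} (h : HasDerivAt k k' t)
    (hk : 0 ≤ k t → k' + k t ^ 2 * c ≤ 0) :
    ∃ a b, HasDerivWithinAt (fun s => max (k s) 0) a (Ici t) t ∧
      HasDerivWithinAt (fun s => max (k s) 0) b (Iic t) t ∧
      a + max (k t) 0 ^ 2 * c ≤ 0 ∧ b + max (k t) 0 ^ 2 * c ≤ 0 := by
  rcases lt_trichotomy (k t) 0 with h0 | h0 | h0
  · have h1 : HasDerivAt (fun s => max (k s) 0) 0 t := by
      refine (hasDerivAt_const t (0 : ℝ)).congr_of_eventuallyEq ?_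
      filter_upwards [h.continuousAt.eventually (gt_mem_nhds h0)] with s hs
      exact max_eq_right hs.le
    exact ⟨0, 0, h1.hasDerivWithinAt, h1.hasDerivWithinAt, by simp [h0.le], by simp [h0.le]⟩
  · have h1 := hk h0.ge
    rw [h0] at h1
    have h2 : k' ≤ 0 := by simpa using h1
    exact ⟨_, _, neckM_max_right h h0, neckM_max_left h h0, by simp [h0, h2], by simp [h0, h2]⟩
  · have h1 : HasDerivAt (fun s => max (k s) 0) k' t := by
      refine h.congr_of_eventuallyEq ?_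
      filter_upwards [h.continuousAt.eventually (lt_mem_nhds h0)] with s hs
      exact max_eq_left hs.le
    rw [max_eq_left h0.le]
    exact ⟨_, _, h1.hasDerivWithinAt, h1.hasDerivWithinAt, hk h0.le, hk h0.le⟩

theorem neckM_d1 {f : ℝ → ℝ} (hf : ContDiff ℝ ∞ f) (t : ℝ) : HasDerivAt f (deriv f t) t :=
  (hf.differentiable (by simp) t).hasDerivAt

theorem neckM_d2 {f : ℝ → ℝ} (hf : ContDiff ℝ ∞ f) (t : ℝ) :
    HasDerivAt (deriv f) (deriv (deriv f) t) t :=
  neckM_d1 (contDiff_infty_iff_deriv.1 hf).2 t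

namespace Neck
variable (N : Neck)

theorem Δ_pos (t : ℝ) : 0 < N.Δ t := sub_pos.2 (N.posDet t)

theorem neckM_dCL {t : ℝ} (ht : t ≤ -1) : deriv N.C t = 0 := by
  have h : N.C =ᶠ[𝓝 t] fun s => N.eL * N.D s := by
    filter_upwards [gt_mem_nhds (show t < -1 / 2 by linarith)] with s hs
    exact N.CL s hs.le
  rw [h.deriv_eq, ((neckM_d1 N.hD t).const_mul _).deriv, N.dD_zero t ht, mul_zero]

theorem neckM_dCR {t : ℝ} (ht : 1 ≤ t) : deriv N.C t = 0 := by
  have h : N.C =ᶠ[𝓝 t] fun s => N.eR * N.A s := by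
    filter_upwards [lt_mem_nhds (show 1 / 2 < t by linarith)] with s hs
    exact N.CR s hs.le
  rw [h.deriv_eq, ((neckM_d1 N.hA t).const_mul _).deriv, N.dA_zero t ht, mul_zero]

theorem neckM_dD_nonneg (t : ℝ) : 0 ≤ deriv N.D t := by
  rcases le_or_gt t (-1) with h | h
  · exact (N.dD_zero t h).ge
  · exact (N.dD_pos t h).le

theorem neckM_ν₁L (p₁ p₂ : ℝ) {t : ℝ} (ht : t ≤ -1 / 2) :
    N.ν₁ p₁ p₂ t = 0 ↔ p₁ = N.eL * p₂ := by
  have h1 := (N.Δ_pos t).ne'
  have h2 := (N.posD t).ne'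
  rw [ν₁, N.CL t ht, div_eq_zero_iff, or_iff_left h1,
    show N.D t * p₁ - N.eL * N.D t * p₂ = N.D t * (p₁ - N.eL * p₂) by ring, mul_eq_zero,
    or_iff_right h2, sub_eq_zero]

theorem neckM_ν_ne {p₁ p₂ : ℝ} (hp : p₁ ≠ 0 ∨ p₂ ≠ 0) (t : ℝ) (h : N.ν₁ p₁ p₂ t = 0) :
    N.ν₂ p₁ p₂ t ≠ 0 := by
  intro h'
  have h1 := (N.Δ_pos t).ne'
  rw [ν₁, div_eq_zero_iff, or_iff_left h1] at h
  rw [ν₂, div_eq_zero_iff, or_iff_left h1] at h'
  have e1 : N.Δ t * p₁ = 0 := by rw [Δ]; linear_combination N.A t * h + N.C t * h'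
  have e2 : N.Δ t * p₂ = 0 := by rw [Δ]; linear_combination N.C t * h + N.D t * h'
  rcases hp with hp | hp
  · exact hp ((mul_eq_zero.1 e1).resolve_left h1)
  · exact hp ((mul_eq_zero.1 e2).resolve_left h1)

theorem neckM_cont_ν₁ (p₁ p₂ : ℝ) : Continuous (N.ν₁ p₁ p₂) := by
  have hA := N.hA.continuous
  have hC := N.hC.continuous
  have hD := N.hD.continuous
  exact Continuous.div (by fun_prop) (by unfold Δ; fun_prop) fun t => (N.Δ_pos t).ne'

theorem neckM_cont_ν₂ (p₁ p₂ : ℝ) : Continuous (N.ν₂ p₁ p₂) := by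
  have hA := N.hA.continuous
  have hC := N.hC.continuous
  have hD := N.hD.continuous
  exact Continuous.div (by fun_prop) (by unfold Δ; fun_prop) fun t => (N.Δ_pos t).ne'

theorem neckM_cont_mh (p₁ p₂ : ℝ) : Continuous (N.mh p₁ p₂) := by
  have hA := (contDiff_infty_iff_deriv.1 N.hA).2.continuous
  have hC := (contDiff_infty_iff_deriv.1 N.hC).2.continuous
  have hD := (contDiff_infty_iff_deriv.1 N.hD).2.continuous
  have h1 := N.neckM_cont_ν₁ p₁ p₂
  have h2 := N.neckM_cont_ν₂ p₁ p₂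
  unfold mh
  fun_prop

theorem neckM_main {p₁ p₂ : ℝ} (hp : p₁ ≠ 0 ∨ p₂ ≠ 0) (t : ℝ) (ht : N.ν₁ p₁ p₂ t = 0 → -1 < t) :
    ∃ a b, HasDerivWithinAt (fun s => max (N.mh p₁ p₂ s) 0 / N.ν₁ p₁ p₂ s ^ 2) a (Ici t) t ∧
      HasDerivWithinAt (fun s => max (N.mh p₁ p₂ s) 0 / N.ν₁ p₁ p₂ s ^ 2) b (Iic t) t ∧
      a + (max (N.mh p₁ p₂ t) 0 / N.ν₁ p₁ p₂ t ^ 2) ^ 2 * N.D t / N.Δ t ≤ 0 ∧
      b + (max (N.mh p₁ p₂ t) 0 / N.ν₁ p₁ p₂ t ^ 2) ^ 2 * N.D t / N.Δ t ≤ 0 := by
  by_cases h0 : N.ν₁ p₁ p₂ t = 0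
  · have h1 : N.mh p₁ p₂ t < 0 := by
      have h2 := N.dD_pos t (ht h0)
      have h3 := sq_pos_of_ne_zero (N.neckM_ν_ne hp t h0)
      have h4 := mul_pos h2 h3
      rw [mh, h0]
      linarith
    have h2 : HasDerivAt (fun s => max (N.mh p₁ p₂ s) 0 / N.ν₁ p₁ p₂ s ^ 2) 0 t := by
      refine (hasDerivAt_const t (0 : ℝ)).congr_of_eventuallyEq ?_
      filter_upwards [(N.neckM_cont_mh p₁ p₂).continuousAt.eventually (gt_mem_nhds h1)] with s hs
      rw [max_eq_right hs.le, zero_div]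
    exact ⟨0, 0, h2.hasDerivWithinAt, h2.hasDerivWithinAt, by simp [h1.le], by simp [h1.le]⟩
  · let r : ℝ → ℝ := fun s => (N.A s * p₂ - N.C s * p₁) / (N.D s * p₁ - N.C s * p₂)
    let k : ℝ → ℝ := fun s => -(deriv N.A s + 2 * deriv N.C s * r s + deriv N.D s * r s ^ 2) / 2
    have hk : ∀ s, N.ν₁ p₁ p₂ s ≠ 0 →
        max (N.mh p₁ p₂ s) 0 / N.ν₁ p₁ p₂ s ^ 2 = max (k s) 0 := by
      intro s hs
      have h1 := (N.Δ_pos s).ne'
      have h2 : N.D s * p₁ - N.C s * p₂ ≠ 0 := fun h => hs (by rw [ν₁, h, zero_div])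
      rw [← max_div_div_right (sq_nonneg _), zero_div]
      congr 1
      simp only [mh, ν₁, ν₂, k, r]
      field_simp
    have hev : (fun s => max (N.mh p₁ p₂ s) 0 / N.ν₁ p₁ p₂ s ^ 2) =ᶠ[𝓝 t] fun s => max (k s) 0 := by
      filter_upwards [(N.neckM_cont_ν₁ p₁ p₂).continuousAt.eventually_ne h0] with s hs
      exact hk s hs
    have h1 := N.Δ_pos t
    have h2 : N.D t * p₁ - N.C t * p₂ ≠ 0 := fun h => h0 (by rw [ν₁, h, zero_div])
    have hr : HasDerivAt r (-((N.A t * (deriv N.C t + deriv N.D t * r t) -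
        N.C t * (deriv N.A t + deriv N.C t * r t)) -
        r t * (N.D t * (deriv N.A t + deriv N.C t * r t) -
          N.C t * (deriv N.C t + deriv N.D t * r t))) / N.Δ t) t := by
      have := (((neckM_d1 N.hA t).mul_const p₂).sub ((neckM_d1 N.hC t).mul_const p₁)).div
        (((neckM_d1 N.hD t).mul_const p₁).sub ((neckM_d1 N.hC t).mul_const p₂)) h2
      refine HasDerivAt.congr_deriv (f := r) this ?_
      have h3 := h1.ne'
      have h4 : N.A t * p₂ - N.C t * p₁ = r t * (N.D t * p₁ - N.C t * p₂) :=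
        (div_mul_cancel₀ _ h2).symm
      simp only [Pi.sub_apply]
      rw [div_eq_div_iff (pow_ne_zero 2 h2) h3, Δ]
      linear_combination ((N.D t * p₁ - N.C t * p₂) * (deriv N.A t * N.D t - deriv N.C t * N.C t) -
        r t * (N.D t * p₁ - N.C t * p₂) * (deriv N.D t * N.C t - deriv N.C t * N.D t) -
        (deriv N.D t * p₁ - deriv N.C t * p₂) * (N.A t * N.D t - N.C t ^ 2)) * h4
    have hk' := (((neckM_d2 N.hA t).add (((neckM_d2 N.hC t).const_mul 2).mul hr)).add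
      ((neckM_d2 N.hD t).mul (hr.pow 2))).neg.div_const 2
    obtain ⟨a, b, ha, hb, ha', hb'⟩ := neckM_max (k := k) (c := N.D t / N.Δ t) hk' (fun hk0 => by
      have h3 := N.ivL t (r t) (by simp only [k] at hk0; linarith)
      rw [← sub_nonpos] at h3
      have h4 := div_nonpos_of_nonpos_of_nonneg h3 h1.le
      refine le_of_eq_of_le ?_ h4
      have h5 := h1.ne'
      simp only [k, Pi.pow_apply, Nat.cast_ofNat, Nat.add_one_sub_one, pow_one]
      rw [show N.A t * N.D t - N.C t ^ 2 = N.Δ t from rfl]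
      field_simp
      ring)
    rw [hk t h0, mul_div_assoc]
    exact ⟨a, b, ha.congr_of_eventuallyEq (hev.filter_mono nhdsWithin_le_nhds) (hk t h0),
      hb.congr_of_eventuallyEq (hev.filter_mono nhdsWithin_le_nhds) (hk t h0), ha', hb'⟩

/-- the mirrored neck. -/
def neckM_mirror : Neck where
  A t := N.D (-t)
  C t := N.C (-t)
  D t := N.A (-t)
  eL := N.eR
  eR := N.eL
  hA := N.hD.comp contDiff_neg
  hC := N.hC.comp contDiff_neg
  hD := N.hA.comp contDiff_neg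
  posA t := N.posD _
  posD t := N.posA _
  posDet t := by rw [mul_comm]; exact N.posDet _
  dA_neg t ht := by rw [deriv_comp_neg, neg_lt_zero]; exact N.dD_pos _ (by linarith)
  dA_zero t ht := by rw [deriv_comp_neg, N.dD_zero _ (by linarith), neg_zero]
  dD_pos t ht := by rw [deriv_comp_neg, neg_pos]; exact N.dA_neg _ (by linarith)
  dD_zero t ht := by rw [deriv_comp_neg, N.dA_zero _ (by linarith), neg_zero]
  CL t ht := N.CR _ (by linarith)
  CR t ht := N.CL _ (by linarith)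
  ivL := N.ivR
  ivR := by simpa only [neg_neg] using N.ivL

theorem neckM_mirror_Δ (t : ℝ) : N.neckM_mirror.Δ (-t) = N.Δ t := by
  simp only [Δ, neckM_mirror, neg_neg, mul_comm]

theorem neckM_mirror_ν₁ (p₁ p₂ t : ℝ) : N.neckM_mirror.ν₁ p₂ p₁ (-t) = N.ν₂ p₁ p₂ t := by
  rw [ν₁, neckM_mirror_Δ]
  simp only [ν₂, neckM_mirror, neg_neg]

theorem neckM_mirror_ν₂ (p₁ p₂ t : ℝ) : N.neckM_mirror.ν₂ p₂ p₁ (-t) = N.ν₁ p₁ p₂ t := by
  rw [ν₂, neckM_mirror_Δ]
  simp only [ν₁, neckM_mirror, neg_neg]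

theorem neckM_mirror_mh (p₁ p₂ t : ℝ) : N.neckM_mirror.mh p₂ p₁ (-t) = -N.mh p₁ p₂ t := by
  rw [mh, neckM_mirror_ν₁, neckM_mirror_ν₂, mh]
  simp only [neckM_mirror, deriv_comp_neg, neg_neg]
  ring

/-- the left half of the Riccati subsolution. -/
theorem exists_half {p₁ p₂ : ℝ} (hp : p₁ ≠ 0 ∨ p₂ ≠ 0) : ∃ m : ℝ → ℝ,
    (∀ t, ∃ a b, HasDerivWithinAt m a (Ici t) t ∧ HasDerivWithinAt m b (Iic t) t ∧
      a + m t ^ 2 * N.D t / N.Δ t ≤ 0 ∧ b + m t ^ 2 * N.D t / N.Δ t ≤ 0) ∧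
    (∀ t, m t * N.ν₁ p₁ p₂ t ^ 2 = max (N.mh p₁ p₂ t) 0) ∧
    (∀ t, N.mh p₁ p₂ t < 0 → m t = 0) ∧
    (∀ t, t ≤ -2 → m t = -deriv N.A t / 2) := by
  classical
  let χ : ℝ → ℝ := fun t => 1 - Real.smoothTransition (t + 2)
  have χ0 : ∀ t, -1 ≤ t → χ t = 0 := fun t ht => by
    simp only [χ, Real.smoothTransition.one_of_one_le (show 1 ≤ t + 2 by linarith), sub_self]
  have χ1 : ∀ t, t ≤ -2 → χ t = 1 := fun t ht => by
    simp only [χ, Real.smoothTransition.zero_of_nonpos (show t + 2 ≤ 0 by linarith), sub_zero]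
  refine ⟨fun t => max (N.mh p₁ p₂ t) 0 / N.ν₁ p₁ p₂ t ^ 2 +
    if p₁ = N.eL * p₂ then χ t * (-deriv N.A t / 2) else 0, fun t => ?_, fun t => ?_,
    fun t ht => ?_, fun t ht => ?_⟩
  · by_cases hs : p₁ = N.eL * p₂ ∧ t < -1 / 2
    · have hχ : HasDerivAt χ (-deriv Real.smoothTransition (t + 2)) t :=
        ((neckM_d1 Real.smoothTransition.contDiff (t + 2)).comp_add_const t 2).const_sub 1
      have h1 := hχ.mul ((neckM_d2 N.hA t).neg.div_const 2)
      have h2 : HasDerivAt (fun t => max (N.mh p₁ p₂ t) 0 / N.ν₁ p₁ p₂ t ^ 2 +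
          if p₁ = N.eL * p₂ then χ t * (-deriv N.A t / 2) else 0) _ t :=
        h1.congr_of_eventuallyEq (by
          filter_upwards [gt_mem_nhds hs.2] with s hs'
          rw [(N.neckM_ν₁L p₁ p₂ hs'.le).2 hs.1, if_pos hs.1]
          simp)
      have h3 : -deriv Real.smoothTransition (t + 2) * ((-deriv N.A) t / 2) +
          χ t * (-deriv (deriv N.A) t / 2) + (max (N.mh p₁ p₂ t) 0 / N.ν₁ p₁ p₂ t ^ 2 +
          if p₁ = N.eL * p₂ then χ t * (-deriv N.A t / 2) else 0) ^ 2 * N.D t / N.Δ t ≤ 0 := by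
        rw [(N.neckM_ν₁L p₁ p₂ hs.2.le).2 hs.1, if_pos hs.1, zero_pow two_ne_zero, div_zero,
          zero_add, Pi.neg_apply]
        have e1 : 0 ≤ deriv Real.smoothTransition (t + 2) :=
          Real.smoothTransition.monotone.deriv_nonneg
        have e2 := N.dA_neg t (by linarith [hs.2])
        have e3 : -deriv Real.smoothTransition (t + 2) * (-deriv N.A t / 2) ≤ 0 := by nlinarith
        rcases le_or_gt (-1) t with h | h
        · rw [χ0 t h]
          simpa using e3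
        · have e4 := N.ivL t 0 (by simpa using e2.le)
          rw [N.neckM_dCL h.le] at e4
          have e5 := N.Δ_pos t
          have e6 : -deriv (deriv N.A) t / 2 + (-deriv N.A t / 2) ^ 2 * N.D t / N.Δ t ≤ 0 := by
            rw [← le_sub_iff_add_le', div_le_iff₀ e5, Δ]
            nlinarith
          have e7 : 0 ≤ χ t := sub_nonneg.2 (Real.smoothTransition.le_one _)
          have e8 : χ t ≤ 1 := sub_le_self _ (Real.smoothTransition.nonneg _)
          have e9 : 0 ≤ (-deriv N.A t / 2) ^ 2 * N.D t / N.Δ t := by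
            have := N.posD t
            positivity
          have e10 : (χ t * (-deriv N.A t / 2)) ^ 2 * N.D t / N.Δ t =
              χ t * (χ t * ((-deriv N.A t / 2) ^ 2 * N.D t / N.Δ t)) := by ring
          rw [e10]
          nlinarith [mul_nonneg e7 (mul_nonneg (sub_nonneg.2 e8) e9), mul_nonneg e7 (neg_nonneg.2 e6)]
      exact ⟨_, _, h2.hasDerivWithinAt, h2.hasDerivWithinAt, h3, h3⟩
    · have hev : (fun t => max (N.mh p₁ p₂ t) 0 / N.ν₁ p₁ p₂ t ^ 2 +
          if p₁ = N.eL * p₂ then χ t * (-deriv N.A t / 2) else 0) =ᶠ[𝓝 t]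
          fun t => max (N.mh p₁ p₂ t) 0 / N.ν₁ p₁ p₂ t ^ 2 := by
        by_cases h : p₁ = N.eL * p₂
        · have ht : -1 < t := by
            have := not_lt.1 fun h' => hs ⟨h, h'⟩
            linarith
          filter_upwards [lt_mem_nhds ht] with s hs'
          rw [χ0 s hs'.le]
          simp
        · exact Eventually.of_forall fun s => by simp [h]
      obtain ⟨a, b, ha, hb, ha', hb'⟩ := N.neckM_main hp t (fun h0 => by
        by_contra h
        have h1 : t < -1 / 2 := by linarith [not_lt.1 h]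
        exact hs ⟨(N.neckM_ν₁L p₁ p₂ h1.le).1 h0, h1⟩)
      have e := hev.eq_of_nhds
      simp only at e ⊢
      rw [e]
      exact ⟨a, b, ha.congr_of_eventuallyEq (hev.filter_mono nhdsWithin_le_nhds) e,
        hb.congr_of_eventuallyEq (hev.filter_mono nhdsWithin_le_nhds) e, ha', hb'⟩
  · by_cases h0 : N.ν₁ p₁ p₂ t = 0
    · have h1 := mul_nonneg (N.neckM_dD_nonneg t) (sq_nonneg (N.ν₂ p₁ p₂ t))
      have h2 : N.mh p₁ p₂ t ≤ 0 := by
        rw [mh, h0]
        linarith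
      rw [max_eq_right h2, h0]
      simp
    · have h1 : (if p₁ = N.eL * p₂ then χ t * (-deriv N.A t / 2) else 0) = 0 := by
        split_ifs with h
        · rw [χ0, zero_mul]
          by_contra h2
          exact h0 ((N.neckM_ν₁L p₁ p₂ (by linarith [not_le.1 h2])).2 h)
        · rfl
      simp only [h1, add_zero]
      exact div_mul_cancel₀ _ (pow_ne_zero 2 h0)
  · simp only [max_eq_right ht.le, zero_div, zero_add]
    split_ifs with h
    · rw [χ0, zero_mul]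
      by_contra h2
      have h3 := not_le.1 h2
      rw [mh, (N.neckM_ν₁L p₁ p₂ (by linarith)).2 h, N.dD_zero t h3.le] at ht
      simp at ht
    · rfl
  · by_cases h : p₁ = N.eL * p₂
    · simp only [(N.neckM_ν₁L p₁ p₂ (show t ≤ -1 / 2 by linarith)).2 h, if_pos h, χ1 t ht]
      simp
    · have h0 : N.ν₁ p₁ p₂ t ≠ 0 := fun h0 => h ((N.neckM_ν₁L p₁ p₂ (by linarith)).1 h0)
      have h1 : N.mh p₁ p₂ t = -deriv N.A t / 2 * N.ν₁ p₁ p₂ t ^ 2 := by
        rw [mh, N.neckM_dCL (by linarith), N.dD_zero t (by linarith)]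
        ring
      have h2 := N.dA_neg t (by linarith)
      have h3 : 0 ≤ -deriv N.A t / 2 * N.ν₁ p₁ p₂ t ^ 2 :=
        mul_nonneg (by linarith) (sq_nonneg _)
      simp only [if_neg h, add_zero, h1, max_eq_left h3]
      exact mul_div_cancel_right₀ _ (pow_ne_zero 2 h0)

/-- the Riccati subsolution `diag (m₁, m₂)`. -/
theorem exists_M {p₁ p₂ : ℝ} (hp : p₁ ≠ 0 ∨ p₂ ≠ 0) : ∃ m₁ m₂ : ℝ → ℝ,
    (∀ t, ∃ a b, HasDerivWithinAt m₁ a (Ici t) t ∧ HasDerivWithinAt m₁ b (Iic t) t ∧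
      a + m₁ t ^ 2 * N.D t / N.Δ t ≤ 0 ∧ b + m₁ t ^ 2 * N.D t / N.Δ t ≤ 0) ∧
    (∀ t, ∃ a b, HasDerivWithinAt m₂ a (Ici t) t ∧ HasDerivWithinAt m₂ b (Iic t) t ∧
      a + m₂ t ^ 2 * N.A t / N.Δ t ≤ 0 ∧ b + m₂ t ^ 2 * N.A t / N.Δ t ≤ 0) ∧
    (∀ t, m₁ t * N.ν₁ p₁ p₂ t ^ 2 + m₂ t * N.ν₂ p₁ p₂ t ^ 2 = N.mh p₁ p₂ t) ∧
    (∀ t, m₁ t * m₂ t = 0) ∧
    (∀ t, 2 ≤ |t| → m₁ t = -deriv N.A t / 2 ∧ m₂ t = -deriv N.D t / 2 ∧ deriv N.C t = 0) := by
  obtain ⟨m₁, a1, a2, a3, a4⟩ := N.exists_half hp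
  obtain ⟨m, b1, b2, b3, b4⟩ := N.neckM_mirror.exists_half hp.symm
  have c2 : ∀ t, m (-t) * N.ν₂ p₁ p₂ t ^ 2 = max (-N.mh p₁ p₂ t) 0 := fun t => by
    rw [← N.neckM_mirror_ν₁, b2, N.neckM_mirror_mh]
  have c0 : ∀ t, m₁ t * -m (-t) = 0 := by
    intro t
    rcases lt_trichotomy (N.mh p₁ p₂ t) 0 with h | h | h
    · rw [a3 t h, zero_mul]
    · have h1 := a2 t
      have h2 := c2 t
      rw [h, max_self] at h1
      rw [h, neg_zero, max_self] at h2
      by_cases h0 : N.ν₁ p₁ p₂ t = 0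
      · rw [(mul_eq_zero.1 h2).resolve_right (pow_ne_zero 2 (N.neckM_ν_ne hp t h0))]
        simp
      · rw [(mul_eq_zero.1 h1).resolve_right (pow_ne_zero 2 h0), zero_mul]
    · rw [b3 (-t) (by rw [N.neckM_mirror_mh]; linarith)]
      simp
  refine ⟨m₁, fun t => -m (-t), a1, fun t => ?_, fun t => ?_, c0, fun t ht => ?_⟩
  · obtain ⟨a, b, ha, hb, ha', hb'⟩ := b1 (-t)
    rw [N.neckM_mirror_Δ] at ha' hb'
    simp only [neckM_mirror, neg_neg] at ha' hb'
    refine ⟨b, a, ?_, ?_, by rwa [neg_sq], by rwa [neg_sq]⟩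
    · have := (hb.comp t (hasDerivWithinAt_neg t (Ici t)) fun s hs =>
        mem_Iic.2 (neg_le_neg (mem_Ici.1 hs))).neg
      rw [mul_neg_one, neg_neg] at this
      exact this
    · have := (ha.comp t (hasDerivWithinAt_neg t (Iic t)) fun s hs =>
        mem_Ici.2 (neg_le_neg (mem_Iic.1 hs))).neg
      rw [mul_neg_one, neg_neg] at this
      exact this
  · rw [a2, neg_mul, c2]
    rcases le_total (N.mh p₁ p₂ t) 0 with h | h
    · rw [max_eq_right h, max_eq_left (neg_nonneg.2 h)]; ring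
    · rw [max_eq_left h, max_eq_right (neg_nonpos.2 h)]; ring
  · have h0 := c0 t
    rcases le_abs.1 ht with h | h
    · have h1 : -m (-t) = -deriv N.D t / 2 := by
        rw [b4 (-t) (by linarith)]
        simp only [neckM_mirror, deriv_comp_neg, neg_neg]
        ring
      have h2 := N.dD_pos t (by linarith)
      refine ⟨?_, h1, N.neckM_dCR (by linarith)⟩
      rw [N.dA_zero t (by linarith), (mul_eq_zero.1 h0).resolve_right (by rw [h1]; linarith)]
      simp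
    · have h1 := a4 t (by linarith)
      have h2 := N.dA_neg t (by linarith)
      refine ⟨h1, ?_, N.neckM_dCL (by linarith)⟩
      rw [N.dD_zero t (by linarith)]
      have := (mul_eq_zero.1 h0).resolve_left (by rw [h1]; linarith)
      simpa using this

end Neck

end Crest.Agent.R244
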