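import Crest.Agent.R244.Trans0
import Crest.Agent.R244.NeckM

/-! Row 244: geodesics and Jacobi fields of the neck metric in coordinates. -/

set_option autoImplicit false

open Set Filter
open scoped ContDiff Topology

namespace Crest.Agent.R244

open Crest.GeometryTopology.CoordMetric Crest.GeometryTopology.ChartCurvature
  Crest.GeometryTopology.Geodesic

theorem ng_pt0 (a b c : ℝ) : pt a b c 0 = a := rfl
theorem ng_pt1 (a b c : ℝ) : pt a b c 1 = b := rfl
theorem ng_pt2 (a b c : ℝ) : pt a b c 2 = c := rfl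

theorem ng_proj {c : ℝ → E 3} {a : E 3} {s : ℝ} (h : HasDerivAt c a s) (i : Fin 3) :
    HasDerivAt (fun s => c s i) (a i) s :=
  (EuclideanSpace.proj i : E 3 →L[ℝ] ℝ).hasFDerivAt.comp_hasDerivAt s h

theorem ng_pderiv {f : ℝ → ℝ} (hf : Differentiable ℝ f) (i : Fin 3) (y : E 3) :
    pderiv i (fun y : E 3 => f (y 0)) y = if i = 0 then deriv f (y 0) else 0 := by
  have h := ((hf (y 0)).hasDerivAt.comp_hasFDerivAt y
    (EuclideanSpace.proj (0 : Fin 3) : E 3 →L[ℝ] ℝ).hasFDerivAt).fderiv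
  unfold pderiv
  erw [h]
  by_cases hi : i = 0
  · subst hi; simp
  · simp [hi, Ne.symm hi]

theorem ng_pderiv_const (a : ℝ) (i : Fin 3) (y : E 3) : pderiv i (fun _ : E 3 => a) y = 0 := by
  simp [pderiv]

theorem ng_pos (w : E 3 × E 3) {f : ℝ → ℝ} (hf : Differentiable ℝ f) :
    HasFDerivAt (fun z : E 3 × E 3 => f (z.1 0)) (deriv f (w.1 0) •
      (EuclideanSpace.proj (0 : Fin 3) : E 3 →L[ℝ] ℝ).comp (ContinuousLinearMap.fst ℝ (E 3) (E 3))) w :=
  (hf (w.1 0)).hasDerivAt.comp_hasFDerivAt w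
    (ContinuousLinearMap.hasFDerivAt ((EuclideanSpace.proj (0 : Fin 3) : E 3 →L[ℝ] ℝ).comp
      (ContinuousLinearMap.fst ℝ (E 3) (E 3))))

theorem ng_vel (w : E 3 × E 3) (i : Fin 3) :
    HasFDerivAt (fun z : E 3 × E 3 => z.2 i)
      ((EuclideanSpace.proj i : E 3 →L[ℝ] ℝ).comp (ContinuousLinearMap.snd ℝ (E 3) (E 3))) w :=
  ((EuclideanSpace.proj i : E 3 →L[ℝ] ℝ).comp (ContinuousLinearMap.snd ℝ (E 3) (E 3))).hasFDerivAt

theorem ng_mom {f g : ℝ → ℝ} (hf : Differentiable ℝ f) (hg : Differentiable ℝ g) (w ζ : E 3 × E 3) :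
    fderiv ℝ (fun z : E 3 × E 3 => f (z.1 0) * z.2 1 + g (z.1 0) * z.2 2) w ζ =
      f (w.1 0) * ζ.2 1 + g (w.1 0) * ζ.2 2 +
        ζ.1 0 * (deriv f (w.1 0) * w.2 1 + deriv g (w.1 0) * w.2 2) := by
  have h := (((ng_pos w hf).fun_mul (ng_vel w 1)).fun_add ((ng_pos w hg).fun_mul (ng_vel w 2))).fderiv
  rw [h]
  simp
  ring

theorem ng_quad {f g k : ℝ → ℝ} (hf : Differentiable ℝ f) (hg : Differentiable ℝ g)
    (hk : Differentiable ℝ k) (w ζ : E 3 × E 3) :
    fderiv ℝ (fun z : E 3 × E 3 => f (z.1 0) * (z.2 1 * z.2 1) + g (z.1 0) * (z.2 1 * z.2 2)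
        + k (z.1 0) * (z.2 2 * z.2 2)) w ζ =
      ζ.1 0 * (deriv f (w.1 0) * w.2 1 ^ 2 + deriv g (w.1 0) * w.2 1 * w.2 2
        + deriv k (w.1 0) * w.2 2 ^ 2) + (2 * f (w.1 0) * w.2 1 * ζ.2 1
        + g (w.1 0) * (w.2 1 * ζ.2 2 + w.2 2 * ζ.2 1) + 2 * k (w.1 0) * w.2 2 * ζ.2 2) := by
  have h := ((((ng_pos w hf).fun_mul ((ng_vel w 1).fun_mul (ng_vel w 1))).fun_add
    ((ng_pos w hg).fun_mul ((ng_vel w 1).fun_mul (ng_vel w 2)))).fun_add
    ((ng_pos w hk).fun_mul ((ng_vel w 2).fun_mul (ng_vel w 2)))).fderiv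
  rw [h]
  simp
  ring

namespace Neck
variable (N : Neck)

theorem ng_dA : Differentiable ℝ N.A := N.hA.differentiable (by simp)
theorem ng_dC : Differentiable ℝ N.C := N.hC.differentiable (by simp)
theorem ng_dD : Differentiable ℝ N.D := N.hD.differentiable (by simp)
theorem ng_ddA : Differentiable ℝ (deriv N.A) :=
  (contDiff_infty_iff_deriv.1 N.hA).2.differentiable (by simp)
theorem ng_ddC : Differentiable ℝ (deriv N.C) :=
  (contDiff_infty_iff_deriv.1 N.hC).2.differentiable (by simp)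
theorem ng_ddD : Differentiable ℝ (deriv N.D) :=
  (contDiff_infty_iff_deriv.1 N.hD).2.differentiable (by simp)

theorem ng_inv (y : E 3) : inverseField N.gN y =
    !![1, 0, 0; 0, N.D (y 0) / N.Δ (y 0), -N.C (y 0) / N.Δ (y 0);
      0, -N.C (y 0) / N.Δ (y 0), N.A (y 0) / N.Δ (y 0)] := by
  have hΔ := (N.Δ_pos (y 0)).ne'
  refine Matrix.inv_eq_right_inv ?_
  ext i j
  fin_cases i <;> fin_cases j <;> simp [gN, Matrix.mul_apply, Fin.sum_univ_three] <;>
    field_simp <;> simp only [Δ] <;> ring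

theorem ng_dg (i j l : Fin 3) (y : E 3) : pderiv i (fun y => N.gN y j l) y =
    if i = 0 then !![0, 0, 0; 0, deriv N.A (y 0), deriv N.C (y 0);
      0, deriv N.C (y 0), deriv N.D (y 0)] j l else 0 := by
  have hA := ng_pderiv N.ng_dA i y
  have hC := ng_pderiv N.ng_dC i y
  have hD := ng_pderiv N.ng_dD i y
  fin_cases j <;> fin_cases l <;> simp [gN, ng_pderiv_const, hA, hC, hD]

theorem riem_gN : IsRiemannianOn N.gN univ := by
  refine ⟨isOpen_univ, fun i j => ?_, fun y _ => Matrix.PosDef.of_dotProduct_mulVec_pos ?_ ?_⟩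
  · have h0 : ContDiff ℝ ∞ fun y : E 3 => y 0 :=
      (EuclideanSpace.proj (0 : Fin 3) : E 3 →L[ℝ] ℝ).contDiff
    have hA := N.hA.comp h0
    have hC := N.hC.comp h0
    have hD := N.hD.comp h0
    refine ContDiff.contDiffOn ?_
    fin_cases i <;> fin_cases j <;>
      first | exact hA | exact hC | exact hD | exact contDiff_const
  · ext i j
    fin_cases i <;> fin_cases j <;> simp [gN]
  · intro x hx
    have hA := N.posA (y 0)
    have hΔ := N.posDet (y 0)
    have e : star x ⬝ᵥ (N.gN y).mulVec x = x 0 ^ 2 +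
        ((N.A (y 0) * x 1 + N.C (y 0) * x 2) ^ 2
          + (N.A (y 0) * N.D (y 0) - N.C (y 0) ^ 2) * x 2 ^ 2) / N.A (y 0) := by
      simp [gN, dotProduct, Matrix.mulVec, Fin.sum_univ_three]
      field_simp
      ring
    rw [e]
    have h1 : 0 < N.A (y 0) * N.D (y 0) - N.C (y 0) ^ 2 := sub_pos.2 hΔ
    by_cases h2 : x 2 = 0
    · by_cases h3 : x 1 = 0
      · have h4 : x 0 ≠ 0 := fun h4 => hx (by
          funext i; fin_cases i
          · exact h4
          · exact h3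
          · exact h2)
        positivity
      · rw [h2, mul_zero, add_zero]
        positivity
    · positivity

/-- explicit Christoffel map of the neck metric. -/
theorem Gam_gN (y u v : E 3) : Gam N.gN y u v =
    pt (-(deriv N.A (y 0) * u 1 * v 1 + deriv N.C (y 0) * (u 1 * v 2 + u 2 * v 1) +
        deriv N.D (y 0) * u 2 * v 2) / 2)
      ((N.D (y 0) * (deriv N.A (y 0) * (u 0 * v 1 + u 1 * v 0) +
          deriv N.C (y 0) * (u 0 * v 2 + u 2 * v 0)) -
        N.C (y 0) * (deriv N.C (y 0) * (u 0 * v 1 + u 1 * v 0) +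
          deriv N.D (y 0) * (u 0 * v 2 + u 2 * v 0))) / (2 * N.Δ (y 0)))
      ((N.A (y 0) * (deriv N.C (y 0) * (u 0 * v 1 + u 1 * v 0) +
          deriv N.D (y 0) * (u 0 * v 2 + u 2 * v 0)) -
        N.C (y 0) * (deriv N.A (y 0) * (u 0 * v 1 + u 1 * v 0) +
          deriv N.C (y 0) * (u 0 * v 2 + u 2 * v 0))) / (2 * N.Δ (y 0))) := by
  have hΔ := (N.Δ_pos (y 0)).ne'
  ext k
  simp only [Gam, christoffel, ng_inv, ng_dg, Fin.sum_univ_three]
  fin_cases k <;> simp [pt] <;> field_simp <;> ring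

/-- the geodesic equation of the neck. -/
theorem neck_geo {c : ℝ → E 3} {s : ℝ} (h : HasDerivAt (jet c) (spray N.gN (jet c s)) s) :
    HasDerivAt (fun s => deriv c s 0)
      ((deriv N.A (c s 0) * deriv c s 1 ^ 2 + 2 * deriv N.C (c s 0) * deriv c s 1 * deriv c s 2 +
        deriv N.D (c s 0) * deriv c s 2 ^ 2) / 2) s ∧
    HasDerivAt (fun s => deriv c s 1)
      (-deriv c s 0 * (N.D (c s 0) * (deriv N.A (c s 0) * deriv c s 1 + deriv N.C (c s 0) * deriv c s 2)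
        - N.C (c s 0) * (deriv N.C (c s 0) * deriv c s 1 + deriv N.D (c s 0) * deriv c s 2)) /
        N.Δ (c s 0)) s ∧
    HasDerivAt (fun s => deriv c s 2)
      (-deriv c s 0 * (N.A (c s 0) * (deriv N.C (c s 0) * deriv c s 1 + deriv N.D (c s 0) * deriv c s 2)
        - N.C (c s 0) * (deriv N.A (c s 0) * deriv c s 1 + deriv N.C (c s 0) * deriv c s 2)) /
        N.Δ (c s 0)) s := by
  have h2 := jet_snd h
  refine ⟨(ng_proj h2 0).congr_deriv ?_, (ng_proj h2 1).congr_deriv ?_,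
    (ng_proj h2 2).congr_deriv ?_⟩
  · simp only [spray, jet, Gam_gN, PiLp.neg_apply, ng_pt0]; ring
  · simp only [spray, jet, Gam_gN, PiLp.neg_apply, ng_pt1]; ring
  · simp only [spray, jet, Gam_gN, PiLp.neg_apply, ng_pt2]; ring

/-- the Jacobi equation of the neck: the first component, and conservation of the variation of
the two momenta. -/
theorem neck_jac {c ξ : ℝ → E 3} {s : ℝ} (h : HasDerivAt (jet c) (spray N.gN (jet c s)) s)
    (hξ : HasDerivAt (jet ξ) (fderiv ℝ (spray N.gN) (jet c s) (jet ξ s)) s) :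
    HasDerivAt (fun s => deriv ξ s 0)
      (ξ s 0 * (deriv (deriv N.A) (c s 0) * deriv c s 1 ^ 2 +
          2 * deriv (deriv N.C) (c s 0) * deriv c s 1 * deriv c s 2 +
          deriv (deriv N.D) (c s 0) * deriv c s 2 ^ 2) / 2 +
        (deriv N.A (c s 0) * deriv c s 1 * deriv ξ s 1 +
          deriv N.C (c s 0) * (deriv c s 1 * deriv ξ s 2 + deriv c s 2 * deriv ξ s 1) +
          deriv N.D (c s 0) * deriv c s 2 * deriv ξ s 2)) s ∧
    HasDerivAt (fun s => N.A (c s 0) * deriv ξ s 1 + N.C (c s 0) * deriv ξ s 2 +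
      ξ s 0 * (deriv N.A (c s 0) * deriv c s 1 + deriv N.C (c s 0) * deriv c s 2)) 0 s ∧
    HasDerivAt (fun s => N.C (c s 0) * deriv ξ s 1 + N.D (c s 0) * deriv ξ s 2 +
      ξ s 0 * (deriv N.C (c s 0) * deriv c s 1 + deriv N.D (c s 0) * deriv c s 2)) 0 s := by
  have hS : DifferentiableAt ℝ (spray N.gN) (jet c s) :=
    (contDiffAt_spray N.riem_gN (mem_univ _)).differentiableAt (by simp)
  have mom : ∀ f g : ℝ → ℝ, ContDiff ℝ ∞ f → ContDiff ℝ ∞ g →
      (∀ w : E 3 × E 3, f (w.1 0) * (spray N.gN w).2 1 + g (w.1 0) * (spray N.gN w).2 2 +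
        (spray N.gN w).1 0 * (deriv f (w.1 0) * w.2 1 + deriv g (w.1 0) * w.2 2) = 0) →
      HasDerivAt (fun s => f (c s 0) * deriv ξ s 1 + g (c s 0) * deriv ξ s 2 +
        ξ s 0 * (deriv f (c s 0) * deriv c s 1 + deriv g (c s 0) * deriv c s 2)) 0 s := by
    intro f g hf hg hrel
    have hf' : Differentiable ℝ f := hf.differentiable (by simp)
    have hg' : Differentiable ℝ g := hg.differentiable (by simp)
    have h0 : ContDiff ℝ ∞ fun z : E 3 × E 3 => z.1 0 :=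
      ((EuclideanSpace.proj (0 : Fin 3) : E 3 →L[ℝ] ℝ).comp (ContinuousLinearMap.fst ℝ (E 3) (E 3))).contDiff
    have h1 : ∀ i, ContDiff ℝ ∞ fun z : E 3 × E 3 => z.2 i := fun i =>
      ((EuclideanSpace.proj i : E 3 →L[ℝ] ℝ).comp (ContinuousLinearMap.snd ℝ (E 3) (E 3))).contDiff
    have hΨ : ContDiff ℝ ∞ fun z : E 3 × E 3 => f (z.1 0) * z.2 1 + g (z.1 0) * z.2 2 :=
      ((hf.comp h0).mul (h1 1)).add ((hg.comp h0).mul (h1 2))
    have := lin_related (S' := fun _ : ℝ => (0 : ℝ)) (hΨ.contDiffAt.of_le (by norm_cast)) hS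
      (differentiableAt_const _)
      (Eventually.of_forall fun w => (ng_mom hf' hg' w _).trans (hrel w)) h hξ
    simpa only [ng_mom hf' hg', jet, fderiv_fun_const, Pi.zero_apply,
      zero_apply] using this
  refine ⟨(ng_proj (jet_snd hξ) 0).congr_deriv ?_, mom _ _ N.hA N.hC fun w => ?_,
    mom _ _ N.hC N.hD fun w => ?_⟩
  · have h1 := (((EuclideanSpace.proj (0 : Fin 3) : E 3 →L[ℝ] ℝ).comp
      (ContinuousLinearMap.snd ℝ (E 3) (E 3))).hasFDerivAt.comp (jet c s) hS.hasFDerivAt).fderiv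
    have e : (((EuclideanSpace.proj (0 : Fin 3) : E 3 →L[ℝ] ℝ).comp
        (ContinuousLinearMap.snd ℝ (E 3) (E 3))) ∘ spray N.gN) = fun z : E 3 × E 3 =>
        (fun t => deriv N.A t / 2) (z.1 0) * (z.2 1 * z.2 1) + deriv N.C (z.1 0) * (z.2 1 * z.2 2)
          + (fun t => deriv N.D t / 2) (z.1 0) * (z.2 2 * z.2 2) := by
      funext z
      change (spray N.gN z).2 0 = _
      simp only [spray, Gam_gN, PiLp.neg_apply, ng_pt0]; ring
    rw [e] at h1
    have h2 := ng_quad (N.ng_ddA.div_const 2) N.ng_ddC (N.ng_ddD.div_const 2) (jet c s) (jet ξ s)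
    rw [h1] at h2
    refine h2.trans ?_
    simp only [jet, deriv_div_const]
    ring
  · have hΔ := (N.Δ_pos (w.1 0)).ne'
    simp only [spray, Gam_gN, PiLp.neg_apply, ng_pt1, ng_pt2]
    field_simp
    simp only [Δ]
    ring
  · have hΔ := (N.Δ_pos (w.1 0)).ne'
    simp only [spray, Gam_gN, PiLp.neg_apply, ng_pt1, ng_pt2]
    field_simp
    simp only [Δ]
    ring

/-- `⟨D ξ, ξ⟩` in the neck. -/
theorem neck_pair (c ξ : ℝ → E 3) (s : ℝ) :
    bil (N.gN (c s)) (cov N.gN c ξ s) (ξ s) =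
      deriv ξ s 0 * ξ s 0 + (N.A (c s 0) * deriv ξ s 1 + N.C (c s 0) * deriv ξ s 2) * ξ s 1 +
        (N.C (c s 0) * deriv ξ s 1 + N.D (c s 0) * deriv ξ s 2) * ξ s 2 +
        deriv c s 0 * (deriv N.A (c s 0) * ξ s 1 ^ 2 + 2 * deriv N.C (c s 0) * ξ s 1 * ξ s 2 +
          deriv N.D (c s 0) * ξ s 2 ^ 2) / 2 := by
  have hΔ := (N.Δ_pos (c s 0)).ne'
  simp only [bil, cov, Gam_gN, Fin.sum_univ_three, PiLp.add_apply, ng_pt0, ng_pt1, ng_pt2]
  simp [gN]
  field_simp
  simp only [Δ]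
  ring

end Neck

end Crest.Agent.R244
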