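import Crest.Agent.R244.NeckGam

/-! Row 244: the monotone quantity in the neck. -/

set_option autoImplicit false

open Set Filter
open scoped ContDiff Topology

namespace Crest.Agent.R244

open Crest.GeometryTopology.CoordMetric Crest.GeometryTopology.ChartCurvature
  Crest.GeometryTopology.Geodesic

/-- right derivative of a one-sidedly differentiable function along a differentiable curve. -/
theorem comp_sided_nU {m t : ℝ → ℝ} {a b τ s₀ : ℝ} (ha : HasDerivWithinAt m a (Ici (t s₀)) (t s₀))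
    (hb : HasDerivWithinAt m b (Iic (t s₀)) (t s₀)) (ht : HasDerivAt t τ s₀) :
    HasDerivWithinAt (fun s => m (t s)) ((if 0 ≤ τ then a else b) * τ) (Ici s₀) s₀ := by
  have hsl : Tendsto (slope t s₀) (𝓝[>] s₀) (𝓝 τ) :=
    (hasDerivAt_iff_tendsto_slope_left_right.1 ht).2
  rcases lt_trichotomy τ 0 with h | h | h
  · rw [if_neg (not_le.2 h)]
    have h1 : ∀ᶠ s in 𝓝[>] s₀, t s ≤ t s₀ := by
      filter_upwards [hsl.eventually (gt_mem_nhds h), self_mem_nhdsWithin] with s hs hs'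
      rw [slope_def_field, div_neg_iff] at hs
      have : 0 < s - s₀ := sub_pos.2 hs'
      rcases hs with ⟨_, h2⟩ | ⟨h2, _⟩ <;> linarith
    have h2 : {s | t s ≤ t s₀} ∈ 𝓝[≥] s₀ := by
      rw [← Ioi_insert, mem_nhdsWithin_insert]
      exact ⟨by simp, h1⟩
    have h3 : HasDerivWithinAt (m ∘ t) (b * τ) {s | t s ≤ t s₀} s₀ :=
      hb.comp s₀ ht.hasDerivWithinAt fun s hs => hs
    exact h3.mono_of_mem_nhdsWithin h2
  · subst h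
    rw [mul_zero]
    have h1 : (fun x => m x - m (t s₀)) =O[𝓝 (t s₀)] fun x => x - t s₀ := by
      rw [← nhdsLE_sup_nhdsGE]
      exact hb.hasFDerivWithinAt.isBigO_sub.sup ha.hasFDerivWithinAt.isBigO_sub
    have h2 := h1.comp_tendsto ht.continuousAt
    have h3 := hasDerivAt_iff_isLittleO.1 ht
    refine HasDerivAt.hasDerivWithinAt (hasDerivAt_iff_isLittleO.2 ?_)
    simp only [smul_zero, sub_zero] at h3 ⊢
    exact h2.trans_isLittleO h3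
  · rw [if_pos h.le]
    have h1 : ∀ᶠ s in 𝓝[>] s₀, t s₀ ≤ t s := by
      filter_upwards [hsl.eventually (lt_mem_nhds h), self_mem_nhdsWithin] with s hs hs'
      rw [slope_def_field, div_pos_iff] at hs
      have : 0 < s - s₀ := sub_pos.2 hs'
      rcases hs with ⟨h2, _⟩ | ⟨_, h2⟩ <;> linarith
    have h2 : {s | t s₀ ≤ t s} ∈ 𝓝[≥] s₀ := by
      rw [← Ioi_insert, mem_nhdsWithin_insert]
      exact ⟨by simp, h1⟩
    have h3 : HasDerivWithinAt (m ∘ t) (a * τ) {s | t s₀ ≤ t s} s₀ :=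
      ha.comp s₀ ht.hasDerivWithinAt fun s hs => hs
    exact h3.mono_of_mem_nhdsWithin h2

theorem cont_sided_nU {m : ℝ → ℝ} {a b t : ℝ} (ha : HasDerivWithinAt m a (Ici t) t)
    (hb : HasDerivWithinAt m b (Iic t) t) : ContinuousAt m t :=
  continuousAt_iff_continuous_left_right.2 ⟨hb.continuousWithinAt, ha.continuousWithinAt⟩

theorem const_near_nU {p : ℝ → ℝ} {s₀ : ℝ} (h : ∀ᶠ s in 𝓝 s₀, HasDerivAt p 0 s) :
    ∀ᶠ s in 𝓝 s₀, p s = p s₀ := by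
  obtain ⟨ε, hε, H⟩ := Metric.eventually_nhds_iff_ball.1 h
  filter_upwards [Metric.ball_mem_nhds s₀ hε] with s hs
  exact Metric.isOpen_ball.is_const_of_deriv_eq_zero (convex_ball s₀ ε).isPreconnected
    (fun y hy => (H y hy).differentiableAt.differentiableWithinAt)
    (fun y hy => (H y hy).deriv) hs (Metric.mem_ball_self hε)

theorem comp_coord_nU {c : ℝ → E 3} {v : E 3} {s : ℝ} (h : HasDerivAt c v s) (i : Fin 3) :
    HasDerivAt (fun s => c s i) (v i) s :=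
  (EuclideanSpace.proj i : E 3 →L[ℝ] ℝ).hasFDerivAt.comp_hasDerivAt s h

/-- the algebra behind the monotonicity formula. -/
theorem algebra_nU (A C D A' C' D' A'' C'' D'' τ α β δ e₁ e₂ δ' e₁' e₂' m₁ m₂ a₁ a₂ Δ q₁ q₂ : ℝ)
    (hΔ : Δ = A * D - C ^ 2) (h0 : Δ ≠ 0) (hm : m₁ * m₂ = 0)
    (h1 : m₁ * α ^ 2 + m₂ * β ^ 2 = -(A' * α ^ 2 + 2 * C' * α * β + D' * β ^ 2) / 2)
    (h2 : a₁ * α ^ 2 + a₂ * β ^ 2 =
      (2 * (m₁ * α * (D * (A' * α + C' * β) - C * (C' * α + D' * β)) +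
        m₂ * β * (A * (C' * α + D' * β) - C * (A' * α + C' * β))) +
       (D * (A' * α + C' * β) ^ 2 - 2 * C * (A' * α + C' * β) * (C' * α + D' * β) +
        A * (C' * α + D' * β) ^ 2)) / Δ - (A'' * α ^ 2 + 2 * C'' * α * β + D'' * β ^ 2) / 2)
    (hq₁ : q₁ = A * e₁' + C * e₂' + δ * (A' * α + C' * β))
    (hq₂ : q₂ = C * e₁' + D * e₂' + δ * (C' * α + D' * β)) :
    (δ * (A'' * α ^ 2 + 2 * C'' * α * β + D'' * β ^ 2) / 2 +
        (A' * α * e₁' + C' * (α * e₂' + β * e₁') + D' * β * e₂')) * δ + δ' * δ' +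
      q₁ * e₁' + q₂ * e₂' +
      2 * δ' * (m₁ * e₁ * α + m₂ * e₂ * β) +
      2 * δ * (a₁ * τ * e₁ * α + m₁ * e₁' * α +
        m₁ * e₁ * (-τ * (D * (A' * α + C' * β) - C * (C' * α + D' * β)) / Δ) +
        a₂ * τ * e₂ * β + m₂ * e₂' * β +
        m₂ * e₂ * (-τ * (A * (C' * α + D' * β) - C * (A' * α + C' * β)) / Δ)) -
      ((A' * α ^ 2 + 2 * C' * α * β + D' * β ^ 2) / 2 * (m₁ * e₁ ^ 2 + m₂ * e₂ ^ 2) +
        τ * (a₁ * τ * e₁ ^ 2 + 2 * m₁ * e₁ * e₁' + a₂ * τ * e₂ ^ 2 + 2 * m₂ * e₂ * e₂')) =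
    (δ' + m₁ * e₁ * α + m₂ * e₂ * β) ^ 2 +
      (D * (q₁ - m₁ * (τ * e₁ - δ * α)) ^ 2 -
        2 * C * (q₁ - m₁ * (τ * e₁ - δ * α)) * (q₂ - m₂ * (τ * e₂ - δ * β)) +
        A * (q₂ - m₂ * (τ * e₂ - δ * β)) ^ 2) / Δ -
      (a₁ + m₁ ^ 2 * D / Δ) * (τ * e₁ - δ * α) ^ 2 -
      (a₂ + m₂ ^ 2 * A / Δ) * (τ * e₂ - δ * β) ^ 2 := by
  have hi : Δ * Δ⁻¹ = 1 := mul_inv_cancel₀ h0
  simp only [div_eq_mul_inv] at *
  set I := Δ⁻¹
  subst hq₁ hq₂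
  rw [hΔ] at hi
  linear_combination δ ^ 2 * h2 - (m₁ * e₁ ^ 2 + m₂ * e₂ ^ 2) * h1 +
    ((α * e₂ - β * e₁) ^ 2 + 2 * C * (τ * e₁ - δ * α) * (τ * e₂ - δ * β) * I) * hm -
    ((A * e₁' + C * e₂') * e₁' + (C * e₁' + D * e₂') * e₂' +
      2 * δ * ((A' * α + C' * β) * e₁' + (C' * α + D' * β) * e₂') -
      2 * (e₁' * m₁ * (τ * e₁ - δ * α) + e₂' * m₂ * (τ * e₂ - δ * β))) * hi

namespace Neck
variable (N : Neck)

theorem dA_nU (t : ℝ) : HasDerivAt N.A (deriv N.A t) t :=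
  (N.hA.differentiable (by simp) t).hasDerivAt

theorem dC_nU (t : ℝ) : HasDerivAt N.C (deriv N.C t) t :=
  (N.hC.differentiable (by simp) t).hasDerivAt

theorem dD_nU (t : ℝ) : HasDerivAt N.D (deriv N.D t) t :=
  (N.hD.differentiable (by simp) t).hasDerivAt

theorem ddA_nU (t : ℝ) : HasDerivAt (deriv N.A) (deriv (deriv N.A) t) t :=
  ((contDiff_infty_iff_deriv.1 N.hA).2.differentiable (by simp) t).hasDerivAt

theorem ddC_nU (t : ℝ) : HasDerivAt (deriv N.C) (deriv (deriv N.C) t) t :=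
  ((contDiff_infty_iff_deriv.1 N.hC).2.differentiable (by simp) t).hasDerivAt

theorem ddD_nU (t : ℝ) : HasDerivAt (deriv N.D) (deriv (deriv N.D) t) t :=
  ((contDiff_infty_iff_deriv.1 N.hD).2.differentiable (by simp) t).hasDerivAt

theorem dΔ_nU (t : ℝ) : HasDerivAt N.Δ
    (deriv N.A t * N.D t + N.A t * deriv N.D t - 2 * N.C t * deriv N.C t) t := by
  have h := ((N.dA_nU t).mul (N.dD_nU t)).sub ((N.dC_nU t).mul (N.dC_nU t))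
  refine (h.congr_of_eventuallyEq (Eventually.of_forall fun x => ?_)).congr_deriv (by ring)
  simp only [Δ, Pi.sub_apply, Pi.mul_apply]
  ring

theorem nu_val_nU {p₁ p₂ t α β : ℝ} (h₁ : N.A t * α + N.C t * β = p₁)
    (h₂ : N.C t * α + N.D t * β = p₂) : N.ν₁ p₁ p₂ t = α ∧ N.ν₂ p₁ p₂ t = β := by
  have h0 := (N.Δ_pos t).ne'
  subst h₁ h₂
  unfold ν₁ ν₂
  constructor <;> rw [div_eq_iff h0] <;> unfold Δ <;> ring

theorem nu_deriv_nU {p₁ p₂ t α β : ℝ} (h₁ : N.A t * α + N.C t * β = p₁)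
    (h₂ : N.C t * α + N.D t * β = p₂) :
    HasDerivAt (N.ν₁ p₁ p₂) (-(N.D t * (deriv N.A t * α + deriv N.C t * β) -
      N.C t * (deriv N.C t * α + deriv N.D t * β)) / N.Δ t) t ∧
    HasDerivAt (N.ν₂ p₁ p₂) (-(N.A t * (deriv N.C t * α + deriv N.D t * β) -
      N.C t * (deriv N.A t * α + deriv N.C t * β)) / N.Δ t) t := by
  have h0 := (N.Δ_pos t).ne'
  constructor
  · have h := (((N.dD_nU t).mul_const p₁).sub ((N.dC_nU t).mul_const p₂)).div (N.dΔ_nU t) h0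
    refine (h.congr_of_eventuallyEq (Eventually.of_forall fun x => rfl)).congr_deriv ?_
    subst h₁ h₂
    simp only [Pi.sub_apply]
    field_simp
    unfold Δ
    ring
  · have h := (((N.dA_nU t).mul_const p₂).sub ((N.dC_nU t).mul_const p₁)).div (N.dΔ_nU t) h0
    refine (h.congr_of_eventuallyEq (Eventually.of_forall fun x => rfl)).congr_deriv ?_
    subst h₁ h₂
    simp only [Pi.sub_apply]
    field_simp
    unfold Δ
    ring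

/-- the right-hand side of the differentiated identity. -/
noncomputable def rhs_nU (t m₁ m₂ α β : ℝ) : ℝ :=
  (2 * (m₁ * α * (N.D t * (deriv N.A t * α + deriv N.C t * β) -
        N.C t * (deriv N.C t * α + deriv N.D t * β)) +
      m₂ * β * (N.A t * (deriv N.C t * α + deriv N.D t * β) -
        N.C t * (deriv N.A t * α + deriv N.C t * β))) +
    (N.D t * (deriv N.A t * α + deriv N.C t * β) ^ 2 -
      2 * N.C t * (deriv N.A t * α + deriv N.C t * β) * (deriv N.C t * α + deriv N.D t * β) +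
      N.A t * (deriv N.C t * α + deriv N.D t * β) ^ 2)) / N.Δ t -
  (deriv (deriv N.A) t * α ^ 2 + 2 * deriv (deriv N.C) t * α * β +
    deriv (deriv N.D) t * β ^ 2) / 2

theorem ident_deriv_nU {p₁ p₂ t α β a₁ a₂ : ℝ} {m₁ m₂ : ℝ → ℝ} {S : Set ℝ}
    (hS : UniqueDiffWithinAt ℝ S t) (h₁ : N.A t * α + N.C t * β = p₁)
    (h₂ : N.C t * α + N.D t * β = p₂) (hm₁ : HasDerivWithinAt m₁ a₁ S t)
    (hm₂ : HasDerivWithinAt m₂ a₂ S t)
    (hid : ∀ t, m₁ t * N.ν₁ p₁ p₂ t ^ 2 + m₂ t * N.ν₂ p₁ p₂ t ^ 2 = N.mh p₁ p₂ t) :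
    a₁ * α ^ 2 + a₂ * β ^ 2 = N.rhs_nU t (m₁ t) (m₂ t) α β := by
  have h0 := (N.Δ_pos t).ne'
  obtain ⟨v₁, v₂⟩ := N.nu_val_nU h₁ h₂
  obtain ⟨d₁, d₂⟩ := N.nu_deriv_nU h₁ h₂
  have e₁ := (hm₁.mul (d₁.mul d₁).hasDerivWithinAt).add (hm₂.mul (d₂.mul d₂).hasDerivWithinAt)
  have e₂ := (((((N.ddA_nU t).mul (d₁.mul d₁)).add ((((N.ddC_nU t).const_mul 2).mul d₁).mul d₂)).add
    ((N.ddD_nU t).mul (d₂.mul d₂))).neg.div_const 2).hasDerivWithinAt (s := S)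
  have e₃ := e₂.congr (f₁ := m₁ * (N.ν₁ p₁ p₂ * N.ν₁ p₁ p₂) + m₂ * (N.ν₂ p₁ p₂ * N.ν₂ p₁ p₂))
    (fun x _ => by
      have := hid x
      simp only [mh] at this
      simp only [Pi.add_apply, Pi.mul_apply, Pi.neg_apply]
      linear_combination this)
    (by
      have := hid t
      simp only [mh] at this
      simp only [Pi.add_apply, Pi.mul_apply, Pi.neg_apply]
      linear_combination this)
  have e := hS.eq_deriv S e₁ e₃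
  simp only [Pi.mul_apply, v₁, v₂] at e
  unfold rhs_nU
  simp only [div_eq_mul_inv] at e ⊢
  linear_combination e

/-- properties of the Riccati subsolution attached to a momentum (possibly zero). -/
structure Good_nU (p₁ p₂ : ℝ) (m₁ m₂ : ℝ → ℝ) : Prop where
  der : ∀ t, ∃ a₁ b₁ a₂ b₂, HasDerivWithinAt m₁ a₁ (Ici t) t ∧ HasDerivWithinAt m₁ b₁ (Iic t) t ∧
    HasDerivWithinAt m₂ a₂ (Ici t) t ∧ HasDerivWithinAt m₂ b₂ (Iic t) t ∧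
    a₁ + m₁ t ^ 2 * N.D t / N.Δ t ≤ 0 ∧ b₁ + m₁ t ^ 2 * N.D t / N.Δ t ≤ 0 ∧
    a₂ + m₂ t ^ 2 * N.A t / N.Δ t ≤ 0 ∧ b₂ + m₂ t ^ 2 * N.A t / N.Δ t ≤ 0 ∧
    ∀ α β, N.A t * α + N.C t * β = p₁ → N.C t * α + N.D t * β = p₂ →
      m₁ t * α ^ 2 + m₂ t * β ^ 2 =
        -(deriv N.A t * α ^ 2 + 2 * deriv N.C t * α * β + deriv N.D t * β ^ 2) / 2 ∧
      a₁ * α ^ 2 + a₂ * β ^ 2 = N.rhs_nU t (m₁ t) (m₂ t) α β ∧
      b₁ * α ^ 2 + b₂ * β ^ 2 = N.rhs_nU t (m₁ t) (m₂ t) α β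
  mul : ∀ t, m₁ t * m₂ t = 0
  far : ∀ t, 2 ≤ |t| → m₁ t = -deriv N.A t / 2 ∧ m₂ t = -deriv N.D t / 2 ∧ deriv N.C t = 0

theorem exists_good_nU (p₁ p₂ : ℝ) : ∃ m₁ m₂ : ℝ → ℝ, N.Good_nU p₁ p₂ m₁ m₂ := by
  by_cases hp : p₁ ≠ 0 ∨ p₂ ≠ 0
  · obtain ⟨m₁, m₂, H₁, H₂, H₃, H₄, H₅⟩ := N.exists_M hp
    refine ⟨m₁, m₂, fun t => ?_, H₄, H₅⟩
    obtain ⟨a₁, b₁, u₁, u₂, u₃, u₄⟩ := H₁ t
    obtain ⟨a₂, b₂, w₁, w₂, w₃, w₄⟩ := H₂ t
    refine ⟨a₁, b₁, a₂, b₂, u₁, u₂, w₁, w₂, u₃, u₄, w₃, w₄, fun α β h₁ h₂ => ⟨?_, ?_, ?_⟩⟩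
    · obtain ⟨v₁, v₂⟩ := N.nu_val_nU h₁ h₂
      have := H₃ t
      simp only [mh, v₁, v₂] at this
      exact this
    · exact N.ident_deriv_nU (uniqueDiffWithinAt_Ici t) h₁ h₂ u₁ w₁ H₃
    · exact N.ident_deriv_nU (uniqueDiffWithinAt_Iic t) h₁ h₂ u₂ w₂ H₃
  · obtain ⟨m₁, m₂, H₁, H₂, -, H₄, H₅⟩ := N.exists_M (p₁ := 1) (p₂ := 0) (Or.inl one_ne_zero)
    push Not at hp
    obtain ⟨rfl, rfl⟩ := hp
    refine ⟨m₁, m₂, fun t => ?_, H₄, H₅⟩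
    obtain ⟨a₁, b₁, u₁, u₂, u₃, u₄⟩ := H₁ t
    obtain ⟨a₂, b₂, w₁, w₂, w₃, w₄⟩ := H₂ t
    refine ⟨a₁, b₁, a₂, b₂, u₁, u₂, w₁, w₂, u₃, u₄, w₃, w₄, fun α β h₁ h₂ => ?_⟩
    obtain ⟨v₁, v₂⟩ := N.nu_val_nU h₁ h₂
    have hα : α = 0 := by rw [← v₁]; simp [ν₁]
    have hβ : β = 0 := by rw [← v₂]; simp [ν₂]
    subst hα hβ
    simp [rhs_nU]

/-- the correction term for given diagonal entries. -/
noncomputable def Uf_nU (t μ₁ μ₂ : ℝ) (v ξ : E 3) : ℝ :=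
  2 * ξ 0 * ((-deriv N.A t / 2 - μ₁) * ξ 1 * v 1 - deriv N.C t / 2 * (ξ 1 * v 2 + ξ 2 * v 1) +
    (-deriv N.D t / 2 - μ₂) * ξ 2 * v 2) -
  v 0 * ((-deriv N.A t / 2 - μ₁) * ξ 1 ^ 2 - deriv N.C t * ξ 1 * ξ 2 +
    (-deriv N.D t / 2 - μ₂) * ξ 2 ^ 2)

theorem quad_nonneg_nU (t x y : ℝ) :
    0 ≤ (N.D t * x ^ 2 - 2 * N.C t * x * y + N.A t * y ^ 2) / N.Δ t := by
  refine div_nonneg ?_ (N.Δ_pos t).le
  have hA := N.posA t
  have hΔ := N.Δ_pos t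
  unfold Δ at hΔ
  have : 0 ≤ N.A t * (N.D t * x ^ 2 - 2 * N.C t * x * y + N.A t * y ^ 2) := by
    nlinarith [sq_nonneg (N.A t * y - N.C t * x), mul_nonneg hΔ.le (sq_nonneg x)]
  exact nonneg_of_mul_nonneg_right this hA |> fun h => by nlinarith [h]

theorem quad_zero_nU (t x y : ℝ)
    (h : (N.D t * x ^ 2 - 2 * N.C t * x * y + N.A t * y ^ 2) / N.Δ t = 0) : x = 0 ∧ y = 0 := by
  have hA := N.posA t
  have hΔ := N.Δ_pos t
  rw [div_eq_zero_iff, or_iff_left hΔ.ne'] at h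
  unfold Δ at hΔ
  have e : (N.A t * y - N.C t * x) ^ 2 + (N.A t * N.D t - N.C t ^ 2) * x ^ 2 = 0 := by
    linear_combination N.A t * h
  have h1 := sq_nonneg (N.A t * y - N.C t * x)
  have h2 := mul_nonneg hΔ.le (sq_nonneg x)
  have hx : x = 0 := by
    have : (N.A t * N.D t - N.C t ^ 2) * x ^ 2 = 0 := by linarith
    simpa [hΔ.ne'] using this
  subst hx
  refine ⟨rfl, ?_⟩
  simpa [hA.ne'] using h

theorem main_nU {p₁ p₂ : ℝ} {m₁ m₂ : ℝ → ℝ} (hG : N.Good_nU p₁ p₂ m₁ m₂) (c ξ : ℝ → E 3) (s₀ : ℝ)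
    (hc : HasDerivAt (jet c) (spray N.gN (jet c s₀)) s₀)
    (hξ : HasDerivAt (jet ξ) (fderiv ℝ (spray N.gN) (jet c s₀) (jet ξ s₀)) s₀)
    (h₁ : N.A (c s₀ 0) * deriv c s₀ 1 + N.C (c s₀ 0) * deriv c s₀ 2 = p₁)
    (h₂ : N.C (c s₀ 0) * deriv c s₀ 1 + N.D (c s₀ 0) * deriv c s₀ 2 = p₂) :
    ContinuousAt (fun s => bil (N.gN (c s)) (cov N.gN c ξ s) (ξ s) -
      N.Uf_nU (c s 0) (m₁ (c s 0)) (m₂ (c s 0)) (deriv c s) (ξ s)) s₀ ∧
    ∃ φ', HasDerivWithinAt (fun s => bil (N.gN (c s)) (cov N.gN c ξ s) (ξ s) -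
      N.Uf_nU (c s 0) (m₁ (c s 0)) (m₂ (c s 0)) (deriv c s) (ξ s)) φ' (Ici s₀) s₀ ∧ 0 ≤ φ' ∧
      (ξ s₀ = 0 → φ' = 0 → deriv ξ s₀ = 0) := by
  obtain ⟨a₁, b₁, a₂, b₂, u₁, u₂, w₁, w₂, i₁, i₂, i₃, i₄, H⟩ := hG.der (c s₀ 0)
  obtain ⟨j₁, j₂, j₃⟩ := H _ _ h₁ h₂
  obtain ⟨gτ, gα, gβ⟩ := N.neck_geo hc
  obtain ⟨kδ, kq₁, kq₂⟩ := N.neck_jac hc hξ
  have ht := comp_coord_nU (jet_fst hc).1 0
  have x₀ := comp_coord_nU (jet_fst hξ).1 0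
  have x₁ := comp_coord_nU (jet_fst hξ).1 1
  have x₂ := comp_coord_nU (jet_fst hξ).1 2
  have M₁ := comp_sided_nU (t := fun s => c s 0) u₁ u₂ ht
  have M₂ := comp_sided_nU (t := fun s => c s 0) w₁ w₂ ht
  have C₁ : ContinuousAt (fun s => m₁ (c s 0)) s₀ :=
    ContinuousAt.comp (f := fun s => c s 0) (cont_sided_nU u₁ u₂) ht.continuousAt
  have C₂ : ContinuousAt (fun s => m₂ (c s 0)) s₀ :=
    ContinuousAt.comp (f := fun s => c s 0) (cont_sided_nU w₁ w₂) ht.continuousAt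
  set q₁ : ℝ → ℝ := fun s => N.A (c s 0) * deriv ξ s 1 + N.C (c s 0) * deriv ξ s 2 +
      ξ s 0 * (deriv N.A (c s 0) * deriv c s 1 + deriv N.C (c s 0) * deriv c s 2) with hq₁
  set q₂ : ℝ → ℝ := fun s => N.C (c s 0) * deriv ξ s 1 + N.D (c s 0) * deriv ξ s 2 +
      ξ s 0 * (deriv N.C (c s 0) * deriv c s 1 + deriv N.D (c s 0) * deriv c s 2) with hq₂
  have key : (fun s => bil (N.gN (c s)) (cov N.gN c ξ s) (ξ s) -
      N.Uf_nU (c s 0) (m₁ (c s 0)) (m₂ (c s 0)) (deriv c s) (ξ s)) =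
      fun s => deriv ξ s 0 * ξ s 0 + q₁ s * ξ s 1 + q₂ s * ξ s 2 +
        2 * ξ s 0 * (m₁ (c s 0) * ξ s 1 * deriv c s 1 + m₂ (c s 0) * ξ s 2 * deriv c s 2) -
        deriv c s 0 * (m₁ (c s 0) * (ξ s 1 * ξ s 1) + m₂ (c s 0) * (ξ s 2 * ξ s 2)) := by
    funext s
    rw [N.neck_pair]
    simp only [hq₁, hq₂, Uf_nU]
    ring
  rw [key]
  constructor
  · exact ((((kδ.continuousAt.mul x₀.continuousAt).add
      (kq₁.continuousAt.mul x₁.continuousAt)).add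
      (kq₂.continuousAt.mul x₂.continuousAt)).add
      ((continuousAt_const.mul x₀.continuousAt).mul
        (((C₁.mul x₁.continuousAt).mul gα.continuousAt).add
          ((C₂.mul x₂.continuousAt).mul gβ.continuousAt)))).sub
      (gτ.continuousAt.mul ((C₁.mul (x₁.mul x₁).continuousAt).add
        (C₂.mul (x₂.mul x₂).continuousAt)))
  · set a₁' := if 0 ≤ deriv c s₀ 0 then a₁ else b₁ with ha₁'
    set a₂' := if 0 ≤ deriv c s₀ 0 then a₂ else b₂ with ha₂'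
    have I₁ : a₁' + m₁ (c s₀ 0) ^ 2 * N.D (c s₀ 0) / N.Δ (c s₀ 0) ≤ 0 := by
      rw [ha₁']; split_ifs <;> assumption
    have I₂ : a₂' + m₂ (c s₀ 0) ^ 2 * N.A (c s₀ 0) / N.Δ (c s₀ 0) ≤ 0 := by
      rw [ha₂']; split_ifs <;> assumption
    have J : a₁' * deriv c s₀ 1 ^ 2 + a₂' * deriv c s₀ 2 ^ 2 =
        N.rhs_nU (c s₀ 0) (m₁ (c s₀ 0)) (m₂ (c s₀ 0)) (deriv c s₀ 1) (deriv c s₀ 2) := by
      rw [ha₁', ha₂']; split_ifs <;> assumption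
    have alg := algebra_nU _ _ _ _ _ _ _ _ _ (deriv c s₀ 0) _ _ (ξ s₀ 0) (ξ s₀ 1) (ξ s₀ 2)
      (deriv ξ s₀ 0) (deriv ξ s₀ 1) (deriv ξ s₀ 2) _ _ _ _ (N.Δ (c s₀ 0)) (q₁ s₀) (q₂ s₀) rfl
      (N.Δ_pos _).ne' (hG.mul _) j₁ J rfl rfl
    have D := ((((kδ.hasDerivWithinAt.mul x₀.hasDerivWithinAt).add
      (kq₁.hasDerivWithinAt.mul x₁.hasDerivWithinAt)).add
      (kq₂.hasDerivWithinAt.mul x₂.hasDerivWithinAt)).add
      ((x₀.hasDerivWithinAt.const_mul 2).mul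
        (((M₁.mul x₁.hasDerivWithinAt).mul gα.hasDerivWithinAt).add
          ((M₂.mul x₂.hasDerivWithinAt).mul gβ.hasDerivWithinAt)))).sub
      (gτ.hasDerivWithinAt.mul ((M₁.mul (x₁.mul x₁).hasDerivWithinAt).add
        (M₂.mul (x₂.mul x₂).hasDerivWithinAt)))
    refine ⟨_, D.congr_deriv (Eq.trans ?_ alg), ?_, ?_⟩
    · simp only [Pi.mul_apply, Pi.add_apply]
      ring
    · have := N.quad_nonneg_nU (c s₀ 0)
        (q₁ s₀ - m₁ (c s₀ 0) * (deriv c s₀ 0 * ξ s₀ 1 - ξ s₀ 0 * deriv c s₀ 1))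
        (q₂ s₀ - m₂ (c s₀ 0) * (deriv c s₀ 0 * ξ s₀ 2 - ξ s₀ 0 * deriv c s₀ 2))
      have h3 := mul_nonneg (neg_nonneg.2 I₁)
        (sq_nonneg (deriv c s₀ 0 * ξ s₀ 1 - ξ s₀ 0 * deriv c s₀ 1))
      have h4 := mul_nonneg (neg_nonneg.2 I₂)
        (sq_nonneg (deriv c s₀ 0 * ξ s₀ 2 - ξ s₀ 0 * deriv c s₀ 2))
      have h5 := sq_nonneg (deriv ξ s₀ 0 + m₁ (c s₀ 0) * ξ s₀ 1 * deriv c s₀ 1 +
        m₂ (c s₀ 0) * ξ s₀ 2 * deriv c s₀ 2)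
      linarith
    · intro h0 hφ
      have z : ∀ i, ξ s₀ i = 0 := fun i => by rw [h0]; rfl
      simp only [z, mul_zero, zero_mul, sub_zero, add_zero, ne_eq, OfNat.ofNat_ne_zero,
        not_false_eq_true, zero_pow] at hφ
      have h3 := N.quad_nonneg_nU (c s₀ 0) (q₁ s₀) (q₂ s₀)
      have h4 := sq_nonneg (deriv ξ s₀ 0)
      have h5 : deriv ξ s₀ 0 = 0 := by
        have : deriv ξ s₀ 0 ^ 2 = 0 := by linarith
        simpa using this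
      obtain ⟨e₁, e₂⟩ := N.quad_zero_nU (c s₀ 0) (q₁ s₀) (q₂ s₀) (by linarith)
      simp only [hq₁, hq₂, z, zero_mul, add_zero] at e₁ e₂
      obtain ⟨v₁, v₂⟩ := N.nu_val_nU e₁ e₂
      have h6 : deriv ξ s₀ 1 = 0 := by rw [← v₁]; simp [ν₁]
      have h7 : deriv ξ s₀ 2 = 0 := by rw [← v₂]; simp [ν₂]
      ext i
      fin_cases i
      · exact h5
      · exact h6
      · exact h7

theorem mom_nU {c : ℝ → E 3} {s : ℝ} (h : HasDerivAt (jet c) (spray N.gN (jet c s)) s) :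
    HasDerivAt (fun s => N.A (c s 0) * deriv c s 1 + N.C (c s 0) * deriv c s 2) 0 s ∧
    HasDerivAt (fun s => N.C (c s 0) * deriv c s 1 + N.D (c s 0) * deriv c s 2) 0 s := by
  obtain ⟨-, gα, gβ⟩ := N.neck_geo h
  have ht := comp_coord_nU (jet_fst h).1 0
  have hA := (N.dA_nU (c s 0)).comp s ht
  have hC := (N.dC_nU (c s 0)).comp s ht
  have hD := (N.dD_nU (c s 0)).comp s ht
  have h0 := (N.Δ_pos (c s 0)).ne'
  constructor
  · refine ((hA.mul gα).add (hC.mul gβ)).congr_deriv ?_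
    simp only [Function.comp_apply]
    field_simp
    unfold Δ
    ring
  · refine ((hC.mul gα).add (hD.mul gβ)).congr_deriv ?_
    simp only [Function.comp_apply]
    field_simp
    unfold Δ
    ring

/-- the correction term making `⟨D J, J⟩ - U` monotone along geodesics of the neck. -/
theorem exists_U : ∃ U : ℝ → E 3 → E 3 → ℝ,
    (∀ t v ξ, 2 ≤ |t| → U t v ξ = 0) ∧ (∀ t v, U t v 0 = 0) ∧
    ∀ (c ξ : ℝ → E 3) (s₀ : ℝ),
      (∀ᶠ s in 𝓝 s₀, HasDerivAt (jet c) (spray N.gN (jet c s)) s) →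
      (∀ᶠ s in 𝓝 s₀, HasDerivAt (jet ξ) (fderiv ℝ (spray N.gN) (jet c s) (jet ξ s)) s) →
      ContinuousAt (fun s => bil (N.gN (c s)) (cov N.gN c ξ s) (ξ s) - U (c s 0) (deriv c s) (ξ s))
        s₀ ∧
      ∃ φ', HasDerivWithinAt
          (fun s => bil (N.gN (c s)) (cov N.gN c ξ s) (ξ s) - U (c s 0) (deriv c s) (ξ s))
          φ' (Ici s₀) s₀ ∧ 0 ≤ φ' ∧ (ξ s₀ = 0 → φ' = 0 → deriv ξ s₀ = 0) := by
  choose m₁ m₂ hG using N.exists_good_nU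
  refine ⟨fun t v ξ => N.Uf_nU t
    (m₁ (N.A t * v 1 + N.C t * v 2) (N.C t * v 1 + N.D t * v 2) t)
    (m₂ (N.A t * v 1 + N.C t * v 2) (N.C t * v 1 + N.D t * v 2) t) v ξ, ?_, ?_, ?_⟩
  · intro t v ξ ht
    obtain ⟨e₁, e₂, e₃⟩ := (hG (N.A t * v 1 + N.C t * v 2) (N.C t * v 1 + N.D t * v 2)).far t ht
    simp only [Uf_nU, e₁, e₂, e₃]
    ring
  · intro t v
    simp [Uf_nU]
  · intro c ξ s₀ hc hξ
    have c₁ := const_near_nU (hc.mono fun s hs => (N.mom_nU hs).1)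
    have c₂ := const_near_nU (hc.mono fun s hs => (N.mom_nU hs).2)
    obtain ⟨k₁, φ', k₂, k₃⟩ := N.main_nU (hG _ _) c ξ s₀ hc.self_of_nhds hξ.self_of_nhds rfl rfl
    have ev : (fun s => bil (N.gN (c s)) (cov N.gN c ξ s) (ξ s) - N.Uf_nU (c s 0)
        (m₁ (N.A (c s 0) * deriv c s 1 + N.C (c s 0) * deriv c s 2)
          (N.C (c s 0) * deriv c s 1 + N.D (c s 0) * deriv c s 2) (c s 0))
        (m₂ (N.A (c s 0) * deriv c s 1 + N.C (c s 0) * deriv c s 2)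
          (N.C (c s 0) * deriv c s 1 + N.D (c s 0) * deriv c s 2) (c s 0)) (deriv c s) (ξ s))
        =ᶠ[𝓝 s₀] fun s => bil (N.gN (c s)) (cov N.gN c ξ s) (ξ s) - N.Uf_nU (c s 0)
        (m₁ (N.A (c s₀ 0) * deriv c s₀ 1 + N.C (c s₀ 0) * deriv c s₀ 2)
          (N.C (c s₀ 0) * deriv c s₀ 1 + N.D (c s₀ 0) * deriv c s₀ 2) (c s 0))
        (m₂ (N.A (c s₀ 0) * deriv c s₀ 1 + N.C (c s₀ 0) * deriv c s₀ 2)
          (N.C (c s₀ 0) * deriv c s₀ 1 + N.D (c s₀ 0) * deriv c s₀ 2) (c s 0))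
        (deriv c s) (ξ s) := by
      filter_upwards [c₁, c₂] with s h₁ h₂
      rw [h₁, h₂]
    exact ⟨k₁.congr ev.symm, φ',
      k₂.congr_of_eventuallyEq (ev.filter_mono nhdsWithin_le_nhds) ev.self_of_nhds, k₃⟩

end Neck

end Crest.Agent.R244
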