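import Crest.Agent.R244.Coord2

/-! Row 244: related vector fields, transformation law of the Christoffel map. -/

set_option autoImplicit false

open Set Filter
open scoped ContDiff Topology

namespace Crest.Agent.R244

open Crest.GeometryTopology.CoordMetric Crest.GeometryTopology.ChartCurvature
  Crest.GeometryTopology.Geodesic

variable {n : ℕ}

/-- related vector fields have related linearisations. -/
theorem lin_related {F F' : Type} [NormedAddCommGroup F] [NormedSpace ℝ F] [NormedAddCommGroup F']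
    [NormedSpace ℝ F'] {S : F → F} {S' : F' → F'} {Ψ : F → F'} {z ζ : ℝ → F} {s : ℝ}
    (hΨ : ContDiffAt ℝ 2 Ψ (z s)) (hS : DifferentiableAt ℝ S (z s))
    (hS' : DifferentiableAt ℝ S' (Ψ (z s)))
    (hrel : ∀ᶠ w in 𝓝 (z s), fderiv ℝ Ψ w (S w) = S' (Ψ w))
    (hz : HasDerivAt z (S (z s)) s) (hζ : HasDerivAt ζ (fderiv ℝ S (z s) (ζ s)) s) :
    HasDerivAt (fun s => fderiv ℝ Ψ (z s) (ζ s))
      (fderiv ℝ S' (Ψ (z s)) (fderiv ℝ Ψ (z s) (ζ s))) s := by
  have hD : HasFDerivAt (fderiv ℝ Ψ) (fderiv ℝ (fderiv ℝ Ψ) (z s)) (z s) :=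
    ((hΨ.fderiv_right (m := 1) (by norm_num)).differentiableAt (by norm_num)).hasFDerivAt
  have hΨ1 : DifferentiableAt ℝ Ψ (z s) := hΨ.differentiableAt (by norm_num)
  have h1 := (hD.comp_hasDerivAt s hz).clm_apply hζ
  have h2 := hD.clm_apply hS.hasFDerivAt
  have h3 := hS'.hasFDerivAt.comp (z s) hΨ1.hasFDerivAt
  have h4 := congrArg (fun L => L (ζ s)) (h2.unique (h3.congr_of_eventuallyEq hrel))
  have hsym := hΨ.isSymmSndFDerivAt (by simp) (S (z s)) (ζ s)
  simp only [add_apply, ContinuousLinearMap.comp_apply,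
    ContinuousLinearMap.flip_apply] at h4
  rw [← h4, ← hsym, add_comm]
  exact h1

/-- transformation law of the Christoffel map under a local isometry. -/
theorem Gam_trans {g₁ g₂ : MetricField n} {U₁ U₂ : Set (E n)} (h₁ : IsRiemannianOn g₁ U₁)
    (h₂ : IsRiemannianOn g₂ U₂) {ψ : E n → E n} {x : E n} (hx : x ∈ U₁) (hψx : ψ x ∈ U₂)
    (hψ : ContDiffAt ℝ 2 ψ x)
    (hiso : ∀ᶠ y in 𝓝 x, ∀ u v,
      bil (g₁ y) u v = bil (g₂ (ψ y)) (fderiv ℝ ψ y u) (fderiv ℝ ψ y v)) (u v : E n) :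
    Gam g₂ (ψ x) (fderiv ℝ ψ x u) (fderiv ℝ ψ x v) + fderiv ℝ (fun y => fderiv ℝ ψ y v) x u =
      fderiv ℝ ψ x (Gam g₁ x u v) := by
  have hD : HasFDerivAt (fderiv ℝ ψ) (fderiv ℝ (fderiv ℝ ψ) x) x :=
    ((hψ.fderiv_right (m := 1) (by norm_num)).differentiableAt (by norm_num)).hasFDerivAt
  have hψ1 : HasFDerivAt ψ (fderiv ℝ ψ x) x := (hψ.differentiableAt (by norm_num)).hasFDerivAt
  have hsym : ∀ a b, fderiv ℝ (fderiv ℝ ψ) x a b = fderiv ℝ (fderiv ℝ ψ) x b a :=
    hψ.isSymmSndFDerivAt (by simp)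
  have p₁ := h₁.posDef x hx
  have p₂ := h₂.posDef _ hψx
  set D := fderiv ℝ ψ x with hDdef
  set D2 := fderiv ℝ (fderiv ℝ ψ) x with hD2
  have hi : ∀ a b, bil (g₁ x) a b = bil (g₂ (ψ x)) (D a) (D b) := hiso.self_of_nhds
  have e0 : fderiv ℝ (fun y => fderiv ℝ ψ y v) x u = D2 u v := by
    rw [(hD.clm_apply (hasFDerivAt_const v x)).fderiv]; simp
  set T : E n → E n → E n := fun a b =>
    Gam g₂ (ψ x) (D a) (D b) + D2 a b - D (Gam g₁ x a b) with hT
  have Tsym : ∀ a b, T a b = T b a := fun a b => by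
    simp only [hT]
    rw [Gam_comm h₂ hψx, hsym, Gam_comm h₁ hx]
  have Tanti : ∀ a b c, bil (g₂ (ψ x)) (T a b) (D c) + bil (g₂ (ψ x)) (T a c) (D b) = 0 := by
    intro a b c
    have hl : HasDerivAt (fun s : ℝ => x + s • a) a 0 := by
      simpa using ((hasDerivAt_id (0 : ℝ)).smul_const a).const_add x
    have hl0 : x + (0 : ℝ) • a = x := by simp
    have k1 := hasDerivAt_bil h₁ (c := fun s : ℝ => x + s • a) (s := 0) (by rwa [hl0]) hl
      (hasDerivAt_const 0 b) (hasDerivAt_const 0 c)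
    have m0 : HasDerivAt (fun s : ℝ => ψ (x + s • a)) (D a) 0 :=
      HasFDerivAt.comp_hasDerivAt_of_eq (0 : ℝ) hψ1 hl hl0.symm
    have m1 : ∀ d, HasDerivAt (fun s : ℝ => fderiv ℝ ψ (x + s • a) d) (D2 a d) 0 := fun d => by
      simpa using (HasFDerivAt.comp_hasDerivAt_of_eq (0 : ℝ) hD hl hl0.symm).clm_apply
        (hasDerivAt_const 0 d)
    have k2 := hasDerivAt_bil h₂ (c := fun s : ℝ => ψ (x + s • a)) (s := 0) (by rwa [hl0]) m0
      (m1 b) (m1 c)
    have hev : ∀ᶠ s : ℝ in 𝓝 0, ∀ u v, bil (g₁ (x + s • a)) u v = bil (g₂ (ψ (x + s • a)))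
        (fderiv ℝ ψ (x + s • a) u) (fderiv ℝ ψ (x + s • a) v) := by
      refine Tendsto.eventually (f := fun s : ℝ => x + s • a) ?_ hiso
      simpa [ContinuousAt] using hl.continuousAt
    have k3 := k1.unique (k2.congr_of_eventuallyEq (hev.mono fun s hs => hs b c))
    simp only [hl0, zero_add, ← hDdef] at k3
    rw [hi, hi, bil_comm p₂ (D b), bil_comm p₂ (D b)] at k3
    simp only [hT, bil_add_left, bil_sub_left] at k3 ⊢
    linarith
  have Tz : ∀ c, bil (g₂ (ψ x)) (T u v) (D c) = 0 := fun c => by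
    have a1 := Tanti u v c
    have a2 := Tanti v u c
    have a3 := Tanti c u v
    rw [Tsym v u] at a2
    rw [Tsym c u, Tsym c v] at a3
    linarith
  have hinj : Function.Injective (D : E n →ₗ[ℝ] E n) := by
    rw [injective_iff_map_eq_zero]
    intro a ha
    by_contra hne
    have a1 := bil_self_pos p₁ hne
    rw [hi, show D a = 0 from ha, bil_zero_left] at a1
    exact lt_irrefl _ a1
  have hsurj := LinearMap.surjective_of_injective hinj
  have : T u v = 0 := eq_of_bil_eq p₂ fun w => by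
    obtain ⟨c, rfl⟩ := hsurj w
    rw [bil_zero_left]
    exact Tz c
  rw [e0]
  exact sub_eq_zero.1 this

end Crest.Agent.R244
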